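import Crest.Agent.N207.AI.HcDef
import Crest.Agent.N207.C.Stmt

/-!
# Row 207 (helper40): master skeleton, part 1: necks and the block statements (FROZEN)

Everything is stated for `F : Flow M`; `Base F` collects the outputs of the blocks A-E.
The statements are predicates on `F`; each block proves `Base F → (earlier blocks) → X F`.
-/

set_option autoImplicit false
set_option linter.unusedSectionVars false

open scoped ContDiff Manifold Topology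
open Set MeasureTheory Filter
open Crest.GeometryTopology.CoordMetric Crest.GeometryTopology.ChartCurvature
  Crest.GeometryTopology.MetricFamily

noncomputable section

namespace Crest.Agent.N207.Sk

/-! ### jets -/

/-- the open annulus `a < |x| < b` -/
def shell (a b : ℝ) : Set E4 := {x | a < ‖x‖ ∧ ‖x‖ < b}

/-- the `k`-th derivative of `f` at `x`, at scale `s`, is at most `c` -/
def J1 {Y : Type*} [NormedAddCommGroup Y] [NormedSpace ℝ Y] (k : ℕ) (f : E4 → Y) (x : E4)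
    (s c : ℝ) : Prop :=
  ‖iteratedFDeriv ℝ k f x‖ * s ^ k ≤ c

/-- the entries of `G - δ` -/
def dv (G : MetricField 4) (i j : Fin 4) (y : E4) : ℝ :=
  G y i j - (1 : Matrix (Fin 4) (Fin 4) ℝ) i j

/-- `G - δ` is at most `c` in `Cᵐ` at `x`, at scale `s` -/
def JG (m : ℕ) (G : MetricField 4) (x : E4) (s c : ℝ) : Prop :=
  ∀ k ≤ m, ∀ i j, J1 k (dv G i j) x s c

/-- all the jets of `G - δ` at `x`, at scale `s`, are at most `C k * w` -/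
def JAll (C : ℕ → ℝ) (G : MetricField 4) (x : E4) (s w : ℝ) : Prop :=
  ∀ k i j, J1 k (dv G i j) x s (C k * w)

/-- the weight of the neck `a < |x| < b` -/
def wt (a b : ℝ) (x : E4) : ℝ := √(a / ‖x‖) + √(‖x‖ / b)

/-- finite, non trivial, acting freely on the sphere -/
structure Grp (Γ : Subgroup (E4 ≃ₗᵢ[ℝ] E4)) : Prop where
  fin : Finite Γ
  ne : Γ ≠ ⊥
  free : ∀ γ ∈ Γ, ∀ x : E4, x ≠ 0 → γ x = x → γ = 1

/-- a neck chart `Ψ` on `a < |x| < b` with deck group `Γ`; `In` is the part of `M` inside -/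
structure Nk (M : Type*) where
  Γ : Subgroup (E4 ≃ₗᵢ[ℝ] E4)
  Ψ : E4 → M
  In : Set M
  a : ℝ
  b : ℝ

/-- the part of `M` inside radius `r` -/
def Nk.Om {M : Type*} (N : Nk M) (r : ℝ) : Set M := N.In ∪ N.Ψ '' shell N.a r

/-- the two necks have comparable radii in the range `[r1, r2]` -/
def Cmp {M : Type*} (N N' : Nk M) (r1 r2 : ℝ) : Prop :=
  ∀ r ∈ Icc r1 r2, N.Om (r / 2) ⊆ N'.Om r ∧ N'.Om (r / 2) ⊆ N.Om r

/-- the restriction of a neck to `a' < |x| < b'` (`a < a' < b' ≤ b`) -/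
def Nk.res {M : Type*} (N : Nk M) (a' b' : ℝ) : Nk M :=
  ⟨N.Γ, N.Ψ, N.In ∪ N.Ψ '' {x | N.a < ‖x‖ ∧ ‖x‖ ≤ a'}, a', b'⟩

variable {M : Type*} [TopologicalSpace M] [ChartedSpace E4 M] [IsManifold 𝓘(ℝ, E4) ∞ M]

/-- the metric independent properties of a neck -/
structure Nk.Top (N : Nk M) : Prop where
  grp : Grp N.Γ
  a_pos : 0 < N.a
  a_lt : N.a < N.b
  par : Par N.Ψ (shell N.a N.b)
  fib : ∀ x ∈ shell N.a N.b, ∀ y ∈ shell N.a N.b, N.Ψ x = N.Ψ y ↔ ∃ γ ∈ N.Γ, γ x = y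
  disj : ∀ x ∈ shell N.a N.b, N.Ψ x ∉ N.In
  opn : ∀ r ∈ Ioc N.a N.b, IsOpen (N.Om r)
  cls : ∀ r ∈ Ioo N.a N.b, IsClosed (N.In ∪ N.Ψ '' {x | N.a < ‖x‖ ∧ ‖x‖ ≤ r})
  ne : N.In.Nonempty

variable [T3Space M] [ConnectedSpace M] [MeasurableSpace M] [BorelSpace M]

/-- a rough neck for the metric `g` -/
structure Rough (g : Met 4 M) (N : Nk M) (m : ℕ) (η V : ℝ) : Prop where
  jet : ∀ x ∈ shell N.a N.b, JG m (g.pm N.Ψ) x ‖x‖ η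
  vol : g.vol.real N.In ≤ V * N.a ^ 4

/-- a good neck for the metric `g` -/
structure Good (g : Met 4 M) (N : Nk M) (m : ℕ) (η : ℝ) (Cs : ℕ → ℝ) (V : ℝ) : Prop where
  jet : ∀ x ∈ shell N.a N.b, JG m (g.pm N.Ψ) x ‖x‖ (η * wt N.a N.b x)
  all : ∀ x ∈ shell N.a N.b, JAll Cs (g.pm N.Ψ) x ‖x‖ (wt N.a N.b x)
  vol : g.vol.real N.In ≤ V * N.a ^ 4

/-- an injective chart on the ball of radius `s`, centred at `p` -/
structure BallCh (φ : E4 → M) (p : M) (s : ℝ) : Prop where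
  ctr : φ 0 = p
  par : Par φ (Metric.ball 0 s)
  inj : InjOn φ (Metric.ball 0 s)

/-- `∫_A |Ric|²` -/
def mass (g : Met 4 M) (A : Set M) : ℝ := ∫ p in A, g.rc 0 p ∂g.vol

/-- `∫_{B(x,r)} |Rm|²` -/
def en (g : Met 4 M) (x : M) (r : ℝ) : ℝ := ∫ p in g.ball x r, g.rm 0 p ∂g.vol

/-- late times -/
def late (F : Flow M) : Set ℝ := Ico (F.T / 2) F.T

/-- the outputs of the blocks A - E -/
structure Base (F : Flow M) : Prop where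
  ok : F.hc.Ok
  solv2 : F.hc.Solv2
  c : F.hc.COut
  d : F.hc.DOut
  pers : F.hc.EPers
  e : F.hc.EOut


/-- block F: ball charts, good for a time `c r` in both directions -/
def LOCF (F : Flow M) : Prop :=
  ∃ ε0 r0 : ℝ, 0 < ε0 ∧ 0 < r0 ∧ ∀ (m : ℕ) (η : ℝ), 0 < η → ∃ (c : ℝ) (Cs : ℕ → ℝ), 0 < c ∧
    c ≤ 1 / 8 ∧ ∀ t ∈ late F, ∀ x, ∀ r, 0 < r → r ≤ r0 → en (F.m t) x r ≤ ε0 →
      ∃ φ : E4 → M, BallCh φ x (c * r) ∧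
        (∀ s ∈ Ioc 0 (c * r), φ '' Metric.ball 0 s = (F.m t).ball x s) ∧
        ∀ s ∈ Ioo (F.T / 4) F.T, |s - t| ≤ c ^ 2 * r → ∀ y ∈ Metric.ball (0 : E4) (c * r),
          JG m ((F.m s).pm φ) y (c * r) η ∧ JAll Cs ((F.m s).pm φ) y (c * r) 1

/-- block G: away from boundedly many bad dyadic scales `2ʲ`, a concentration point sits inside
a rough neck -/
def CONE (F : Flow M) : Prop :=
  ∀ η ε : ℝ, 0 < η → 0 < ε → ∃ (V K r1 : ℝ) (n0 : ℕ), 2 ≤ K ∧ 0 < r1 ∧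
    ∀ t ∈ late F, ∀ z : M, ∃ Bad : Finset ℤ, Bad.card ≤ n0 ∧ ∀ a b : ℝ, 0 < a → a < b → b ≤ r1 →
      (∀ j ∈ Bad, (2 : ℝ) ^ j < a / K ∨ K * b < (2 : ℝ) ^ j) → ε ≤ en (F.m t) z (a / K) →
      ∃ N : Nk M, N.Top ∧ N.a = a ∧ N.b = b ∧ z ∈ N.In ∧ Rough (F.m t) N 2 η V

/-- block H: a rough neck contains a good neck -/
def HDEC (F : Flow M) : Prop :=
  ∃ η1 : ℝ, 0 < η1 ∧ ∀ (V : ℝ) (m : ℕ) (η : ℝ), 0 < η → ∃ (K r1 : ℝ) (Cs : ℕ → ℝ), 2 ≤ K ∧ 0 < r1 ∧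
    ∀ t ∈ late F, ∀ N : Nk M, N.Top → Rough (F.m t) N 2 η1 V → N.b ≤ r1 → K ^ 3 * N.a ≤ N.b →
      ∃ N' : Nk M, N'.Top ∧ N'.a = K * N.a ∧ N'.b = N.b / K ∧ N.In ⊆ N'.In ∧
        Good (F.m t) N' m η Cs 6 ∧ Cmp N N' (2 * N'.a) N'.b

/-- GEO 1: distances in a rough neck -/
def DIST (F : Flow M) : Prop :=
  ∀ V : ℝ, ∃ K r1 : ℝ, 1 ≤ K ∧ 0 < r1 ∧ ∀ t ∈ late F, ∀ (N : Nk M) (η : ℝ), N.Top →
    Rough (F.m t) N 0 η V → η ≤ 1 / 100 → N.b ≤ r1 → 2 * N.a ≤ N.b → ∀ z ∈ N.In,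
      (∀ x ∈ shell N.a N.b, (1 - 4 * η) * (‖x‖ - N.a) ≤ (F.m t).d z (N.Ψ x) ∧
        (F.m t).d z (N.Ψ x) ≤ (1 + 4 * η) * ‖x‖ + K * N.a) ∧
      (∀ p ∉ N.Om N.b, (1 - 4 * η) * (N.b - N.a) ≤ (F.m t).d z p) ∧
      ∀ z' ∈ N.In, (F.m t).d z z' ≤ K * N.a

/-- GEO 2: volumes in a rough neck, and the order of the deck group -/
def VOLN (F : Flow M) : Prop :=
  (∀ t ∈ late F, ∀ (N : Nk M) (V : ℝ), N.Top → Rough (F.m t) N 0 (1 / 100) V →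
    ∀ r ∈ Icc N.a N.b, (F.m t).vol.real (N.Om r) ≤ V * N.a ^ 4 + 3 * (r ^ 4 - N.a ^ 4)) ∧
  ∀ V : ℝ, ∃ (n0 : ℕ) (K r1 : ℝ), 0 < r1 ∧ ∀ t ∈ late F, ∀ N : Nk M, N.Top →
    Rough (F.m t) N 0 (1 / 100) V → N.b ≤ r1 → K * N.a ≤ N.b → Nat.card N.Γ ≤ n0

/-- GEO 3: the change of charts between two comparable rough necks (static) -/
def TRANS (M : Type*) [TopologicalSpace M] [ChartedSpace E4 M] [IsManifold 𝓘(ℝ, E4) ∞ M]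
    [T3Space M] [ConnectedSpace M] [MeasurableSpace M] [BorelSpace M] : Prop :=
  ∃ η0 : ℝ, 0 < η0 ∧ ∀ m : ℕ, ∃ C : ℝ, 0 < C ∧ ∀ (g : Met 4 M) (N N' : Nk M) (V r1 r2 : ℝ),
    N.Top → N'.Top → Rough g N 1 η0 V → Rough g N' 1 η0 V → 2 * N.a ≤ r1 → 2 * N'.a ≤ r1 →
    r2 ≤ N.b → r2 ≤ N'.b → 64 * r1 ≤ r2 → Cmp N N' r1 r2 →
    ∃ (Θ : E4 → E4) (ι : N.Γ ≃* N'.Γ), ContDiffOn ℝ ∞ Θ (shell r1 (r2 / 2)) ∧
      (∀ x ∈ shell r1 (r2 / 2), Θ x ∈ shell N'.a N'.b ∧ N'.Ψ (Θ x) = N.Ψ x ∧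
        ∀ γ : N.Γ, Θ (γ.1 x) = (ι γ).1 (Θ x)) ∧
      ∀ r δ : ℝ, 4 * r1 ≤ r → 8 * r ≤ r2 → 0 ≤ δ → δ ≤ η0 →
        (∀ x ∈ shell (r / 4) (4 * r), JG (m + 1) (g.pm N.Ψ) x ‖x‖ δ) →
        (∀ x ∈ shell (r / 8) (8 * r), JG (m + 1) (g.pm N'.Ψ) x ‖x‖ δ) →
        ∃ A : E4 ≃ₗᵢ[ℝ] E4, (∀ γ : N.Γ, ∀ x, A (γ.1 x) = (ι γ).1 (A x)) ∧
          ∀ x ∈ shell (r / 2) (2 * r), ∀ k ≤ m + 2, J1 k (fun y => Θ y - A y) x r (C * δ * r)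

end Crest.Agent.N207.Sk

end
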