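import Crest.Agent.N207.Sk.Defs

/-!
# Row 207 (helper40): master skeleton, part 2: the dynamic statements (FROZEN)

`TOP`, `PEST`, `PHI`, `WL` are the four inputs of the final assembly.
-/

set_option autoImplicit false
set_option linter.unusedSectionVars false

open scoped ContDiff Manifold Topology
open Set MeasureTheory Filter
open Crest.GeometryTopology.CoordMetric Crest.GeometryTopology.ChartCurvature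
  Crest.GeometryTopology.MetricFamily

noncomputable section

namespace Crest.Agent.N207.Sk

/-- the data of the top neck: scales `lam n = l0 / Kⁿ`, times `t n`, charts `N s` -/
structure TopD (M : Type*) where
  R : ℝ
  K : ℝ
  l0 : ℝ
  c : ℝ
  t : ℕ → ℝ
  N : ℝ → Nk M

namespace TopD

variable {M : Type*} (τ : TopD M)

/-- the scales -/
def lam (n : ℕ) : ℝ := τ.l0 / τ.K ^ n

/-- the lengths of the intervals -/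
def d (n : ℕ) : ℝ := τ.t (n + 1) - τ.t n

/-- the intervals -/
def I (n : ℕ) : Set ℝ := Ico (τ.t n) (τ.t (n + 1))

/-- the memory term -/
def mem (n : ℕ) : ℝ :=
  1 + ∑ j ∈ Finset.range (n - 1), √(τ.lam j) / τ.d (j + 1) ^ (3 / 4 : ℝ)

/-- the background -/
def be (n : ℕ) : ℝ := (n + 1) * τ.mem n

end TopD

variable {M : Type*} [TopologicalSpace M] [ChartedSpace E4 M] [IsManifold 𝓘(ℝ, E4) ∞ M]
  [T3Space M] [ConnectedSpace M] [MeasurableSpace M] [BorelSpace M]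

/-- `∫_{Om r} |Ric|²` at time `s`, in the chart of time `s` -/
def TopD.ms (τ : TopD M) (F : Flow M) (r s : ℝ) : ℝ := mass (F.m s) ((τ.N s).Om r)

/-- the top neck -/
structure TopD.Ok (τ : TopD M) (F : Flow M) (m : ℕ) (η : ℝ) (Cs : ℕ → ℝ) (V : ℝ) : Prop where
  K_ge : 4 ≤ τ.K
  l0_pos : 0 < τ.l0
  l0_le : τ.K ^ 2 * τ.l0 ≤ τ.R
  R_le : τ.R ≤ 1
  c_pos : 0 < τ.c
  c_le : τ.c ≤ 1
  t0 : F.T / 2 ≤ τ.t 0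
  lt : ∀ n, τ.t n < F.T
  lim : Tendsto τ.t atTop (𝓝 F.T)
  d_ge : ∀ n, τ.c * τ.lam n ≤ τ.d n
  top : ∀ n, ∀ u ∈ τ.I n, (τ.N u).Top
  a_eq : ∀ n, ∀ u ∈ τ.I n, (τ.N u).a = τ.lam n
  b_eq : ∀ n, ∀ u ∈ τ.I n, (τ.N u).b = τ.R
  good : ∀ n, ∀ u ∈ τ.I n, ∀ s, u ≤ s → s ≤ u + τ.c * τ.lam n → s < F.T →
    Good (F.m s) (τ.N u) m η Cs V
  /-- far regions stay good for longer times, in both directions -/
  far : ∀ n, ∀ u ∈ τ.I n, ∀ r, τ.lam n < r → r < τ.R → ∀ s, τ.t 0 ≤ s → s < F.T →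
    |s - u| ≤ τ.c * r → ∀ x ∈ shell r τ.R,
      JG m ((F.m s).pm (τ.N u).Ψ) x ‖x‖ (η * (wt (τ.lam n) τ.R x + |s - u| / ‖x‖ / τ.c)) ∧
      JAll Cs ((F.m s).pm (τ.N u).Ψ) x ‖x‖ 1
  cmp : ∀ n n', ∀ u ∈ τ.I n, ∀ u' ∈ τ.I n', ∀ r, τ.K * τ.lam n ≤ r → τ.K * τ.lam n' ≤ r →
    |u - u'| ≤ τ.c * r → Cmp (τ.N u) (τ.N u') r τ.R
  int : ∀ n, ∀ r ∈ Icc (τ.lam n) τ.R, IntervalIntegrable (τ.ms F r) volume (τ.t n) (τ.t (n + 1))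
  vol : ∀ n, ∀ u ∈ τ.I n, ∀ s, u ≤ s → s ≤ u + τ.c * τ.lam n → s < F.T →
    ∀ r ∈ Icc (τ.lam n) τ.R, (F.m s).vol.real ((τ.N u).Om r) ≤ V * r ^ 4
  zb : ∀ n, ∀ u ∈ τ.I n, ∀ r ∈ Icc (τ.lam n) τ.R, τ.ms F r u ≤ V * r ^ 2
  drop : ∀ n, τ.c * τ.lam n ^ 4 ≤
    τ.d n * ((∫ s in τ.t n..τ.t (n + 1), τ.ms F (τ.K * τ.lam n) s) + τ.lam n ^ 4)

/-- block TOP -/
def TOP (F : Flow M) : Prop :=
  ¬F.BddRm → ∀ (m : ℕ) (η : ℝ), 0 < η → ∃ (Cs : ℕ → ℝ) (V : ℝ) (τ : TopD M), τ.Ok F m η Cs V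

/-- `e` bounds `ρ² (1 + ∑ⱼ` jets of `Ric` on the `j`-th dyadic shell above `ρ / 64)` -/
def Ebd (g : Met 4 M) (N : Nk M) (m : ℕ) (ρ e : ℝ) : Prop :=
  ∃ J : ℕ → ℝ, (∀ j, 0 ≤ J j) ∧
    (∀ (j : ℕ) (x : E4), 2 ^ j * (ρ / 64) ≤ ‖x‖ → ‖x‖ ≤ 2 ^ (j + 1) * (ρ / 64) → ‖x‖ ≤ N.b / 4 →
      ∀ k ≤ m, ‖x‖ ^ k * √(g.rc k (N.Ψ x)) ≤ J j) ∧
    ∀ n, ρ ^ 2 * (1 + ∑ j ∈ Finset.range n, J j) ≤ e

/-- `∫_{I n} ∫_{Om (ρ n / 32)} |Ric|²` -/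
def TopD.Z (τ : TopD M) (F : Flow M) (ρ : ℕ → ℝ) (n : ℕ) : ℝ :=
  ∫ s in τ.t n..τ.t (n + 1), τ.ms F (ρ n / 32) s

/-- `lam n ^ 4 (1 + be n ^ 2 d n)` -/
def TopD.P (τ : TopD M) (n : ℕ) : ℝ := τ.lam n ^ 4 * (1 + τ.be n ^ 2 * τ.d n)

/-- block P: radii `ρ n` (pigeonhole) and error functions `e n` -/
def PEST (F : Flow M) : Prop :=
  ∀ m : ℕ, ∃ (m0 : ℕ) (η0 : ℝ), 0 < η0 ∧ ∀ (m1 : ℕ) (η : ℝ) (Cs : ℕ → ℝ) (V : ℝ) (τ : TopD M),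
    m0 ≤ m1 → η ≤ η0 → τ.Ok F m1 η Cs V → ∀ θ A : ℝ, 0 < θ → 0 < A →
    ∃ (L C : ℝ) (n0 : ℕ) (ρ : ℕ → ℝ) (e : ℕ → ℝ → ℝ), 0 < C ∧
      (∀ n, A * τ.lam n ≤ ρ n ∧ ρ n ≤ L * τ.lam n) ∧ ∀ n, n0 ≤ n →
        IntervalIntegrable (e (n + 2)) volume (τ.t (n + 2)) (τ.t (n + 3)) ∧
        IntervalIntegrable (fun s => e (n + 2) s ^ 2) volume (τ.t (n + 2)) (τ.t (n + 3)) ∧
        (∀ u ∈ τ.I (n + 2), ∀ s, u ≤ s → s ≤ u + τ.c * τ.lam (n + 2) →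
          (s < τ.t (n + 3) → Ebd (F.m s) (τ.N u) m (ρ (n + 2)) (e (n + 2) s)) ∧
          (s ≤ τ.t (n + 3) → Ebd (F.m s) (τ.N u) m (ρ (n + 2)) (C * τ.lam (n + 2)))) ∧
        ∫ s in τ.t (n + 2)..τ.t (n + 3), e (n + 2) s ^ 2 ≤
          θ * (τ.Z F ρ n + τ.Z F ρ (n + 1) + τ.Z F ρ (n + 2)) +
            C * (τ.P n + τ.P (n + 1) + τ.P (n + 2))

/-! ### the action -/

/-- the `ΓΓ` Lagrangian density: `√det G R = lagr + ∂ᵢ fluxⁱ` -/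
def lagr (G : MetricField 4) (x : E4) : ℝ :=
  √(G x).det * ∑ i, ∑ j, (G x)⁻¹ i j * ∑ k, ∑ l,
    (christoffel G x k j l * christoffel G x l k i - christoffel G x k k l * christoffel G x l i j)

/-- the flux density -/
def flux (G : MetricField 4) (i : Fin 4) (x : E4) : ℝ :=
  √(G x).det * (∑ j, ∑ k, (G x)⁻¹ j k * christoffel G x i j k -
    ∑ j, (G x)⁻¹ i j * ∑ k, christoffel G x k k j)

/-- the cutoff: `1` on `|x|² ≤ 2 a²`, `0` on `3 a² ≤ |x|²` -/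
def cut (a : ℝ) (x : E4) : ℝ := Real.smoothTransition (3 - ‖x‖ ^ 2 / a ^ 2)

/-- the exterior part of the Einstein-Hilbert action -/
def act (G : MetricField 4) (a : ℝ) : ℝ :=
  ∫ x in {x : E4 | a < ‖x‖}, ((1 - cut a x) * lagr G x + ∑ i, pderiv i (cut a) x * flux G i x)

/-- an asymptotically flat extension `G` of the inside of the neck `N` (`a = ρ/32`, `b = ρ/4`) -/
structure Ext (g : Met 4 M) (N : Nk M) (G : MetricField 4) (ρ e y η : ℝ) (Cs : ℕ → ℝ) (V : ℝ) :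
    Prop where
  top : N.Top
  a_eq : N.a = ρ / 32
  b_eq : N.b = ρ / 4
  riem : IsRiemannianOn G {x | ρ / 32 < ‖x‖}
  inv : ∀ γ ∈ N.Γ, ∀ x : E4, ρ / 32 < ‖x‖ → matT G x = pullT γ (matT G) x
  eq : ∀ x ∈ shell N.a N.b, G x = g.pm N.Ψ x
  jet : ∀ x : E4, ρ / 32 < ‖x‖ → JG 4 G x ‖x‖ (η * (ρ / 32 / ‖x‖) ^ 3)
  all : ∀ x : E4, ρ / 32 < ‖x‖ → JAll Cs G x ‖x‖ ((ρ / 32 / ‖x‖) ^ 3)
  ric : ∀ x : E4, ρ / 32 < ‖x‖ → ∀ i j, |ricci G x i j| ≤ e * ρ ^ 2 / ‖x‖ ^ 4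
  vol : g.vol.real N.In ≤ V * ρ ^ 4
  mass : mass g N.In ≤ y ^ 2

/-- `φ` is, up to `V ρ⁴`, the action of an admissible extension -/
def Adm (g : Met 4 M) (ρ e y η : ℝ) (Cs : ℕ → ℝ) (V φ : ℝ) : Prop :=
  ∃ (N : Nk M) (G : MetricField 4), Ext g N G ρ e y η Cs V ∧
    |φ - act G (3 * (ρ / 32)) / Nat.card N.Γ| ≤ V * ρ ^ 4



end Crest.Agent.N207.Sk

end
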