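import Crest.Agent.N207.A.Tg4
import Crest.Agent.N207.AI.EvoC
import Crest.Agent.N207.SB.Bump
import Crest.Agent.R235.Sob4_984
import Crest.Agent.N207.E.StB_Mg
import Crest.Agent.N207.E.Reg
import Crest.Agent.N207.C.DistUp
import Crest.Agent.N207.C.VolUp
import Crest.Agent.N207.C.ULS
import Crest.Agent.N207.X.Jet
import Crest.Agent.N207.AI.Ev
import Crest.Agent.N207.AI.Nat
import Crest.Agent.N207.X.JS
import Crest.Agent.N207.A.Mk
import Mathlib
import Crest.Agent.N207.B.Flow3
import Crest.Agent.N207.Defs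
import Crest.Agent.N207.B.Pb1
import Crest.Agent.N207.B.Ste1
import Crest.Agent.N207.P.All
import Crest.Agent.N207.P.Heat_Mg
import Crest.Agent.N207.A.Alg
import Crest.Agent.N207.V.Gv3
import Crest.Agent.N207.AI.Evo
import Crest.Agent.N207.C.DistM

-- ▼ part N207/A/Cevo
section

/-!
# Row 207, block A (helper33): the evolution equations in the form `AI.CEvo`
-/

set_option autoImplicit false

namespace Crest.Agent.N207.A

theorem cevo (n : ℕ) : AI.CEvo n where
  gam c _ hu _ ht _ hy := (((WF.of_cflow c).dt_gam ht hy hu fun _ hs _ hz =>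
    (AI.st_differentiableAt c.isOpenJ hu hs hz).hasDerivAt.hasDerivWithinAt).hasDerivAt
      (c.isOpenJ.mem_nhds ht)).deriv
  lap c _ hu _ ht _ hy := (((WF.of_cflow c).dt_lap ht hy hu fun _ hs _ hz =>
    (AI.st_differentiableAt c.isOpenJ hu hs hz).hasDerivAt.hasDerivWithinAt).hasDerivAt
      (c.isOpenJ.mem_nhds ht)).deriv
  scal c _ ht _ hy := (((WF.of_cflow c).dt_scal ht hy).hasDerivAt (c.isOpenJ.mem_nhds ht)).deriv
  rm k := by
    obtain ⟨C, h0, h⟩ := dt_N n k
    refine ⟨C, h0, fun c t ht y hy _ => ?_⟩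
    obtain ⟨N', h1, h2⟩ := h (WF.of_cflow c) t ht y hy
    rwa [← (h1.hasDerivAt (c.isOpenJ.mem_nhds ht)).deriv] at h2
  rc k := by
    obtain ⟨C, h0, h⟩ := dt_Q n k
    refine ⟨C, h0, fun c t ht y hy _ => ?_⟩
    obtain ⟨N', h1, h2⟩ := h (WF.of_cflow c) t ht y hy
    rwa [← (h1.hasDerivAt (c.isOpenJ.mem_nhds ht)).deriv] at h2

end Crest.Agent.N207.A
end

-- ▼ part N207/SB/Sob
section

/-!
# Row 207 (helper38): `HC.Sob0` for the concrete scalar calculus
-/

set_option autoImplicit false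
set_option maxSynthPendingDepth 3
set_option linter.unusedSectionVars false

open Bundle Set MeasureTheory Manifold Filter Metric Real
open scoped ENNReal ContDiff Topology NNReal
open Crest.Agent.R247 Crest.Agent.R247.Ms322

noncomputable section

namespace Crest.Agent.N207.SB

theorem toReal_pow {X F : Type*} [MeasurableSpace X] {μ : Measure X} [NormedAddCommGroup F]
    {g : X → F} {k : ℕ} (hk : k ≠ 0) (hg : MemLp g k μ) :
    (eLpNorm g k μ).toReal ^ k = ∫ x, ‖g x‖ ^ k ∂μ := by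
  rw [hg.eLpNorm_eq_integral_rpow_norm (by simpa using hk) (by simp)]
  have h0 : 0 ≤ ∫ x, ‖g x‖ ^ (k : ℝ≥0∞).toReal ∂μ :=
    integral_nonneg fun x => Real.rpow_nonneg (norm_nonneg _) _
  have h1 : (k : ℝ) ≠ 0 := by exact_mod_cast hk
  rw [ENNReal.toReal_ofReal (Real.rpow_nonneg h0 _), ← Real.rpow_natCast, ← Real.rpow_mul h0]
  simp [h1]

section static

local notation "𝔼" => EuclideanSpace ℝ (Fin 4)

variable {M : Type*} [MetricSpace M] [CompactSpace M] [ChartedSpace 𝔼 M]
  [IsManifold (𝓡 4) ∞ M]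
  [RiemannianBundle (fun p : M => TangentSpace (𝓡 4) p)]
  [IsContMDiffRiemannianBundle (𝓡 4) ∞ 𝔼 (fun p : M => TangentSpace (𝓡 4) p)]
  [SecondCountableTopology M] [Nonempty M] [IsRiemannianManifold (𝓡 4) M]
  [MeasurableSpace M] [BorelSpace M]

theorem sob_static : ∃ A : ℝ, 0 < A ∧ ∀ w : M → ℝ, ContMDiff (𝓡 4) 𝓘(ℝ, ℝ) ∞ w →
    √(∫ x, w x ^ 4 ∂(μHE[4] : Measure M)) ≤ A * ∫ x, Bo84.mGam 4 w w x ∂(μHE[4] : Measure M)
      + A * ∫ x, w x ^ 2 ∂(μHE[4] : Measure M) := by
  have := finVol (M := M)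
  obtain ⟨C, hC⟩ := R235.Sob4_984.sob_test (M := M)
  refine ⟨2 * (C : ℝ) ^ 2 + 1, by positivity, fun f hf => ?_⟩
  have hL : LocallyLipschitz f :=
    LLo.loc (LLo.of_contMDiffAt (n := 4) fun z _ => (hf z).of_le (by simp))
  obtain ⟨K, hK⟩ := isCompact_univ.exists_bound_of_continuousOn hf.continuous.continuousOn
  obtain ⟨K', hK'⟩ := isCompact_univ.exists_bound_of_continuousOn (gam_cont hf).continuousOn
  have b1 : ∀ p, MemLp f p (μHE[4] : Measure M) := fun p =>
    MemLp.of_bound hf.continuous.aestronglyMeasurable K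
      (Eventually.of_forall fun z => hK z trivial)
  have b2 : MemLp (Gr (n := 4) f) 2 (μHE[4] : Measure M) :=
    MemLp.of_bound (measurable_Gr f).aestronglyMeasurable (√K') (Eventually.of_forall fun z =>
      Real.le_sqrt_of_sq_le (by
        rw [norm_Gr_sq_eq_mGam]; exact (le_abs_self _).trans (hK' z trivial)))
  have h1 := hC f hL
  set a := (eLpNorm (Gr (n := 4) f) 2 (μHE[4] : Measure M)).toReal with ha
  set b := (eLpNorm f 2 (μHE[4] : Measure M)).toReal with hb
  set c := (eLpNorm f 4 (μHE[4] : Measure M)).toReal with hc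
  have h2 : c ≤ C * (a + b) := by
    have h3 := ENNReal.toReal_mono (ENNReal.mul_ne_top ENNReal.coe_ne_top
      (ENNReal.add_ne_top.2 ⟨b2.2.ne, (b1 2).2.ne⟩)) h1
    rwa [ENNReal.toReal_mul, ENNReal.coe_toReal, ENNReal.toReal_add b2.2.ne (b1 2).2.ne] at h3
  have e4 : ∫ z, f z ^ 4 ∂(μHE[4] : Measure M) = (c ^ 2) ^ 2 := by
    rw [← pow_mul, hc]
    refine Eq.trans ?_ (toReal_pow (k := 4) (by norm_num) (b1 _)).symm
    refine integral_congr_ae (Eventually.of_forall fun z => ?_)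
    simp only [Real.norm_eq_abs]
    rw [Even.pow_abs (by decide)]
  have e2 : ∫ z, f z ^ 2 ∂(μHE[4] : Measure M) = b ^ 2 := by
    refine Eq.trans ?_ (toReal_pow (k := 2) (by norm_num) (b1 _)).symm
    refine integral_congr_ae (Eventually.of_forall fun z => ?_)
    simp only [Real.norm_eq_abs, sq_abs]
  have e1 : ∫ z, Bo84.mGam 4 f f z ∂(μHE[4] : Measure M) = a ^ 2 := by
    refine Eq.trans ?_ (toReal_pow (k := 2) (by norm_num) b2).symm
    exact integral_congr_ae (Eventually.of_forall fun z => (norm_Gr_sq_eq_mGam f z).symm)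
  rw [e4, e2, e1, Real.sqrt_sq (sq_nonneg c)]
  have hc0 : 0 ≤ c := ENNReal.toReal_nonneg
  have hC0 : (0 : ℝ) ≤ C := C.2
  calc c ^ 2 ≤ (C * (a + b)) ^ 2 := pow_le_pow_left₀ hc0 h2 2
    _ = C ^ 2 * (a + b) ^ 2 := by ring
    _ ≤ C ^ 2 * (2 * (a ^ 2 + b ^ 2)) :=
        mul_le_mul_of_nonneg_left (by nlinarith [sq_nonneg (a - b)]) (by positivity)
    _ ≤ _ := by nlinarith [sq_nonneg a, sq_nonneg b]

end static

variable {M : Type*} [TopologicalSpace M] [ChartedSpace E4 M] [IsManifold 𝓘(ℝ, E4) ∞ M]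
  [T3Space M] [ConnectedSpace M] [MeasurableSpace M] [BorelSpace M] [CompactSpace M]
  [SecondCountableTopology M]

/-- **Sobolev inequality at a fixed time** -/
theorem sob0 (F : Flow M) : F.hc.Sob0 := by
  intro t _
  obtain ⟨A, hA, h⟩ := sob_static (M := Sl (F.m t))
  exact ⟨A, A, hA, hA, h⟩

end Crest.Agent.N207.SB

end
end

-- ▼ part N207/E/Out
section

/-!
# Row 207 (helper83): all the outputs of the blocks C, D, E
-/

set_option autoImplicit false
set_option linter.dupNamespace false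

namespace Crest.Agent.N207

namespace HC

variable {M : Type*} [TopologicalSpace M] [CompactSpace M] [MeasurableSpace M]
  [OpensMeasurableSpace M] {H : HC M}

theorem cOut (h : H.Ok) : H.COut :=
  ⟨h.sobU, volLo h, volUp h, h.kerH, h.kerC, lipH h, distLo h, distUp h⟩

theorem eOut (h : H.Ok) (S2 : H.Solv2) : H.EOut := by
  have c := cOut h
  have d := dOut h
  have r := eReg h c d (ePers h c)
  have s := eStat h S2 c d r
  exact ⟨r, s, eStatB h c d r s⟩

theorem cde (h : H.Ok) (S2 : H.Solv2) : H.COut ∧ H.DOut ∧ H.EPers ∧ H.EOut :=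
  ⟨cOut h, dOut h, ePers h (cOut h), eOut h S2⟩

end HC

end Crest.Agent.N207
end

-- ▼ part N207/X/Tame
section

/-! Row 207, block B (end).  Tame classes: `K e I U φ k f` says that the spatial derivatives of
`f` along the directions `e a` of order `< k` are bounded on `I × U` and those of order `k` are
`O(φ)`. -/

set_option autoImplicit false
set_option linter.unusedSectionVars false
open Set Filter Topology
open scoped ContDiff

noncomputable section
namespace Crest.Agent.N207.X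

variable {E : Type*} [NormedAddCommGroup E] [NormedSpace ℝ E] {ι : Type*}

/-- bounded on `I × U` -/
def Bd (I : Set ℝ) (U : Set E) (f : ℝ → E → ℝ) : Prop := ∃ C, ∀ t ∈ I, ∀ y ∈ U, |f t y| ≤ C

/-- the constant gauge -/
def one : ℝ → E → ℝ := fun _ _ => 1

/-- the tame classes -/
def K (e : ι → E) (I : Set ℝ) (U : Set E) (φ : ℝ → E → ℝ) : ℕ → (ℝ → E → ℝ) → Prop
  | 0, f => ∃ C, ∀ t ∈ I, ∀ y ∈ U, |f t y| ≤ C * φ t y
  | k + 1, f => Bd I U f ∧ (∀ t ∈ I, ∀ y ∈ U, DifferentiableAt ℝ (f t) y) ∧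
      ∀ a, K e I U φ k (dv (e a) f)

/-- the gauge is at least one -/
def Ge (I : Set ℝ) (U : Set E) (φ : ℝ → E → ℝ) : Prop := ∀ t ∈ I, ∀ y ∈ U, 1 ≤ φ t y

variable {e : ι → E} {I : Set ℝ} {U : Set E} {φ : ℝ → E → ℝ} {k : ℕ} {f g : ℝ → E → ℝ}

theorem ge_one : Ge I U (one (E := E)) := fun _ _ _ _ => le_rfl

theorem K.zero_one : K e I U one 0 f ↔ Bd I U f := by simp [K, Bd, one]

theorem Bd.congr (h : Bd I U f) (q : EqI I U g f) : Bd I U g := by
  obtain ⟨C, hC⟩ := h
  exact ⟨C, fun t ht y hy => by rw [q t ht y hy]; exact hC t ht y hy⟩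

theorem Bd.mul (h : Bd I U f) (h' : Bd I U g) : Bd I U (fun t y => f t y * g t y) := by
  obtain ⟨C, hC⟩ := h
  obtain ⟨D, hD⟩ := h'
  refine ⟨C * D, fun t ht y hy => ?_⟩
  rw [abs_mul]
  exact mul_le_mul (hC t ht y hy) (hD t ht y hy) (abs_nonneg _)
    ((abs_nonneg _).trans (hC t ht y hy))

theorem Bd.add (h : Bd I U f) (h' : Bd I U g) : Bd I U (fun t y => f t y + g t y) := by
  obtain ⟨C, hC⟩ := h
  obtain ⟨D, hD⟩ := h'
  exact ⟨C + D, fun t ht y hy => (abs_add_le _ _).trans (add_le_add (hC t ht y hy) (hD t ht y hy))⟩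

theorem K.congr (hU : IsOpen U) (h : K e I U φ k f) (q : EqI I U g f) : K e I U φ k g := by
  induction k generalizing f g with
  | zero =>
    obtain ⟨C, hC⟩ := h
    exact ⟨C, fun t ht y hy => by rw [q t ht y hy]; exact hC t ht y hy⟩
  | succ k ih =>
    exact ⟨h.1.congr q, fun t ht y hy => (h.2.1 t ht y hy).congr_of_eventuallyEq (q.ev hU ht hy),
      fun a => ih (h.2.2 a) (q.dv hU _)⟩

theorem K.bd (h : K e I U one k f) : Bd I U f := by
  cases k with
  | zero => exact K.zero_one.1 h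
  | succ k => exact h.1

theorem K.drop (h : K e I U φ (k + 1) f) : K e I U one k f := by
  induction k generalizing f with
  | zero => exact K.zero_one.2 h.1
  | succ k ih => exact ⟨h.1, h.2.1, fun a => ih (h.2.2 a)⟩

theorem K.weak (hφ : Ge I U φ) (h : K e I U one k f) : K e I U φ k f := by
  induction k generalizing f with
  | zero =>
    obtain ⟨C, hC⟩ := h.bd
    refine ⟨C, fun t ht y hy => (hC t ht y hy).trans ?_⟩
    exact le_mul_of_one_le_right ((abs_nonneg _).trans (hC t ht y hy)) (hφ t ht y hy)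
  | succ k ih => exact ⟨h.1, h.2.1, fun a => ih (h.2.2 a)⟩

theorem K.of_bdd (hφ : Bd I U φ) (h : K e I U φ k f) : K e I U one k f := by
  induction k generalizing f with
  | zero =>
    obtain ⟨C, hC⟩ := h
    obtain ⟨D, hD⟩ := hφ
    refine K.zero_one.2 ⟨|C| * D, fun t ht y hy => (hC t ht y hy).trans ?_⟩
    refine (le_abs_self _).trans ?_
    rw [abs_mul]
    exact mul_le_mul_of_nonneg_left (hD t ht y hy) (abs_nonneg _)
  | succ k ih => exact ⟨h.1, h.2.1, fun a => ih (h.2.2 a)⟩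

theorem K.const (hφ : Ge I U φ) (c : ℝ) : K e I U φ k (fun _ _ => c) := by
  refine K.weak hφ ?_
  induction k generalizing c with
  | zero => exact K.zero_one.2 ⟨|c|, fun _ _ _ _ => le_rfl⟩
  | succ k ih =>
    refine ⟨⟨|c|, fun _ _ _ _ => le_rfl⟩, fun _ _ _ _ => differentiableAt_const _, fun a => ?_⟩
    have : dv (e a) (fun (_ : ℝ) (_ : E) => c) = fun _ _ => 0 := by
      funext t y
      simp [dv]
    rw [this]
    exact ih 0

theorem K.add (hU : IsOpen U) (h : K e I U φ k f) (h' : K e I U φ k g) :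
    K e I U φ k (fun t y => f t y + g t y) := by
  induction k generalizing f g with
  | zero =>
    obtain ⟨C, hC⟩ := h
    obtain ⟨D, hD⟩ := h'
    refine ⟨C + D, fun t ht y hy => (abs_add_le _ _).trans ?_⟩
    rw [add_mul]
    exact add_le_add (hC t ht y hy) (hD t ht y hy)
  | succ k ih =>
    refine ⟨h.1.add h'.1, fun t ht y hy => (h.2.1 t ht y hy).add (h'.2.1 t ht y hy),
      fun a => (ih (h.2.2 a) (h'.2.2 a)).congr hU fun t ht y hy => ?_⟩
    simp only [dv]
    rw [fderiv_fun_add (h.2.1 t ht y hy) (h'.2.1 t ht y hy)]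
    rfl

theorem dv_mul {t : ℝ} {y : E} (v : E) (hf : DifferentiableAt ℝ (f t) y)
    (hg : DifferentiableAt ℝ (g t) y) :
    dv v (fun t y => f t y * g t y) t y = dv v f t y * g t y + dv v g t y * f t y := by
  simp only [dv]
  rw [fderiv_fun_mul hf hg]
  simp only [ContinuousLinearMap.add_apply, ContinuousLinearMap.smul_apply, smul_eq_mul]
  ring

theorem K.mul (hU : IsOpen U) (hφ : Ge I U φ) (h : K e I U φ k f) (h' : K e I U one k g) :
    K e I U φ k (fun t y => f t y * g t y) := by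
  induction k generalizing f g with
  | zero =>
    obtain ⟨C, hC⟩ := h
    obtain ⟨D, hD⟩ := h'.bd
    refine ⟨C * D, fun t ht y hy => ?_⟩
    rw [abs_mul, mul_right_comm]
    exact mul_le_mul (hC t ht y hy) (hD t ht y hy) (abs_nonneg _)
      ((abs_nonneg _).trans (hC t ht y hy))
  | succ k ih =>
    exact ⟨h.1.mul h'.1, fun t ht y hy => (h.2.1 t ht y hy).mul (h'.2.1 t ht y hy),
      fun a => ((ih (h.2.2 a) h'.drop).add hU (ih ((h'.2.2 a).weak hφ) h.drop)).congr hU
        fun t ht y hy => dv_mul _ (h.2.1 t ht y hy) (h'.2.1 t ht y hy)⟩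

theorem K.mul' (hU : IsOpen U) (hφ : Ge I U φ) (h : K e I U φ (k + 1) f)
    (h' : K e I U φ (k + 1) g) : K e I U φ (k + 1) (fun t y => f t y * g t y) :=
  ⟨h.1.mul h'.1, fun t ht y hy => (h.2.1 t ht y hy).mul (h'.2.1 t ht y hy),
    fun a => (((h.2.2 a).mul hU hφ h'.drop).add hU ((h'.2.2 a).mul hU hφ h.drop)).congr hU
      fun t ht y hy => dv_mul _ (h.2.1 t ht y hy) (h'.2.1 t ht y hy)⟩

theorem K.cmul (hU : IsOpen U) (hφ : Ge I U φ) (c : ℝ) (h : K e I U φ k f) :
    K e I U φ k (fun t y => c * f t y) :=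
  (h.mul hU hφ (K.const ge_one c)).congr hU fun _ _ _ _ => mul_comm _ _

theorem K.sub (hU : IsOpen U) (hφ : Ge I U φ) (h : K e I U φ k f) (h' : K e I U φ k g) :
    K e I U φ k (fun t y => f t y - g t y) :=
  (h.add hU (h'.cmul hU hφ (-1))).congr hU fun _ _ _ _ => by ring

theorem K.sum (hU : IsOpen U) (hφ : Ge I U φ) {κ : Type*} (s : Finset κ) {w : κ → ℝ → E → ℝ}
    (h : ∀ i ∈ s, K e I U φ k (w i)) : K e I U φ k (fun t y => ∑ i ∈ s, w i t y) := by
  classical
  induction s using Finset.induction_on with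
  | empty => simpa using K.const hφ 0
  | insert a s ha ih =>
    simp only [Finset.sum_insert ha]
    exact (h a (by simp)).add hU (ih fun i hi => h i (by simp [hi]))

theorem K.prod (hU : IsOpen U) (hφ : Ge I U φ) {κ : Type*} (s : Finset κ) {w : κ → ℝ → E → ℝ}
    (h : ∀ i ∈ s, K e I U φ (k + 1) (w i)) : K e I U φ (k + 1) (fun t y => ∏ i ∈ s, w i t y) := by
  classical
  induction s using Finset.induction_on with
  | empty => simpa using K.const hφ 1
  | insert a s ha ih =>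
    simp only [Finset.prod_insert ha]
    exact (h a (by simp)).mul' hU hφ (ih fun i hi => h i (by simp [hi]))

theorem K.prod_one (hU : IsOpen U) {κ : Type*} (s : Finset κ) {w : κ → ℝ → E → ℝ}
    (h : ∀ i ∈ s, K e I U one k (w i)) : K e I U one k (fun t y => ∏ i ∈ s, w i t y) := by
  classical
  induction s using Finset.induction_on with
  | empty => simpa using K.const ge_one 1
  | insert a s ha ih =>
    simp only [Finset.prod_insert ha]
    exact (h a (by simp)).mul hU ge_one (ih fun i hi => h i (by simp [hi]))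

theorem K.inv (hU : IsOpen U) (hφ : Ge I U φ) (h : K e I U φ (k + 1) f)
    (h0 : ∀ t ∈ I, ∀ y ∈ U, f t y ≠ 0) (hb : Bd I U fun t y => (f t y)⁻¹) :
    K e I U φ (k + 1) (fun t y => (f t y)⁻¹) := by
  induction k generalizing φ with
  | zero =>
    refine ⟨hb, fun t ht y hy => (h.2.1 t ht y hy).inv (h0 t ht y hy), fun a =>
      (((h.2.2 a).mul hU hφ (K.zero_one.2 (hb.mul hb))).cmul hU hφ (-1)).congr hU
        fun t ht y hy => ?_⟩
    have h1 : HasFDerivAt (fun y => (f t y)⁻¹) _ y :=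
      (hasDerivAt_inv (h0 t ht y hy)).comp_hasFDerivAt y (h.2.1 t ht y hy).hasFDerivAt
    simp only [dv]
    rw [h1.fderiv]
    simp only [ContinuousLinearMap.smul_apply, smul_eq_mul]
    field_simp
  | succ k ih =>
    have h2 := ih ge_one h.drop
    refine ⟨hb, fun t ht y hy => (h.2.1 t ht y hy).inv (h0 t ht y hy), fun a =>
      (((h.2.2 a).mul hU hφ (h2.mul hU ge_one h2)).cmul hU hφ (-1)).congr hU
        fun t ht y hy => ?_⟩
    have h1 : HasFDerivAt (fun y => (f t y)⁻¹) _ y :=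
      (hasDerivAt_inv (h0 t ht y hy)).comp_hasFDerivAt y (h.2.1 t ht y hy).hasFDerivAt
    simp only [dv]
    rw [h1.fderiv]
    simp only [ContinuousLinearMap.smul_apply, smul_eq_mul]
    field_simp

section Mat
variable {m : Type*} [Fintype m] [DecidableEq m] {A : ℝ → E → Matrix m m ℝ}

theorem K.det (hU : IsOpen U) (hφ : Ge I U φ)
    (h : ∀ i j, K e I U φ (k + 1) fun t y => A t y i j) :
    K e I U φ (k + 1) fun t y => (A t y).det := by
  simp only [Matrix.det_apply']
  exact K.sum hU hφ _ fun σ _ => (K.prod hU hφ _ fun i _ => h _ _).cmul hU hφ _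

theorem Bd.det (hU : IsOpen U) (h : ∀ i j, Bd I U fun t y => A t y i j) :
    Bd I U fun t y => (A t y).det := by
  simp only [Matrix.det_apply']
  exact (K.zero_one (e := fun _ : Unit => (0 : E))).1 (K.sum hU ge_one _ fun σ _ =>
    (K.prod_one hU _ fun i _ => K.zero_one.2 (h _ _)).cmul hU ge_one _)

theorem K.matInv (hU : IsOpen U) (hφ : Ge I U φ)
    (h : ∀ i j, K e I U φ (k + 1) fun t y => A t y i j)
    (h0 : ∀ t ∈ I, ∀ y ∈ U, (A t y).det ≠ 0) (hb : ∀ i j, Bd I U fun t y => (A t y)⁻¹ i j)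
    (i j : m) : K e I U φ (k + 1) fun t y => (A t y)⁻¹ i j := by
  have h1 : Bd I U fun t y => ((A t y).det)⁻¹ :=
    (Bd.det hU hb).congr fun t _ y _ => by simp [Matrix.det_nonsing_inv]
  have h2 : K e I U φ (k + 1) fun t y => (A t y).adjugate i j := by
    simp only [Matrix.adjugate_apply]
    refine K.det hU hφ fun a b => ?_
    by_cases hab : a = j
    · subst hab
      simpa using K.const hφ _
    · simpa [Matrix.updateRow_ne hab] using h a b
  refine (((K.det hU hφ h).inv hU hφ h0 h1).mul' hU hφ h2).congr hU fun t _ y _ => ?_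
  simp [Matrix.inv_def]

end Mat

theorem K.top (h : K e I U one k f)
    (hd : ∀ l, ∀ t ∈ I, ∀ y ∈ U, DifferentiableAt ℝ (dl l f t) y)
    (hφ : ∀ l : List ι, l.length = k + 1 → ∀ t ∈ I, ∀ y ∈ U, |dl (l.map e) f t y| ≤ φ t y) :
    K e I U φ (k + 1) f := by
  induction k generalizing f with
  | zero =>
    exact ⟨h.bd, hd [], fun a => ⟨1, fun t ht y hy => by
      simpa [dl] using hφ [a] rfl t ht y hy⟩⟩
  | succ k ih =>
    exact ⟨h.1, h.2.1, fun a => ih (h.2.2 a) (fun l => hd (e a :: l))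
      fun l hl => hφ (a :: l) (by simp [hl])⟩

theorem K.dl_le (h : K e I U φ k f) (l : List ι) (hl : l.length = k) :
    ∃ C, ∀ t ∈ I, ∀ y ∈ U, |dl (l.map e) f t y| ≤ C * φ t y := by
  induction l generalizing f k with
  | nil => subst hl; exact h
  | cons a l ih => subst hl; exact ih (h.2.2 a) rfl

end Crest.Agent.N207.X
end
private theorem rz_96a763f533 : type_of% @_root_.Crest.Agent.N207.X.K.eq_def := @_root_.Crest.Agent.N207.X.K.eq_def -- L24
private theorem rz_3a09461c92 : type_of% @_root_.Crest.Agent.N207.X.K.eq_1 := @_root_.Crest.Agent.N207.X.K.eq_1 -- L24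
end

-- ▼ part N207/X/Alg
section

/-! Row 207, block B (end).  Pointwise bounds: components and the Ricci form against norms. -/

set_option autoImplicit false
set_option linter.unusedSectionVars false
open Set Filter Topology
open scoped ContDiff
open Crest.GeometryTopology.CoordMetric Crest.GeometryTopology.ChartCurvature
  Crest.GeometryTopology.MetricFamily
open Crest.Agent.R202.Tens Crest.Agent.R247.Bo84 Crest.Agent.N207.AI

noncomputable section
namespace Crest.Agent.N207.X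

variable {n k : ℕ} {G : MetricField n} {U : Set (En n)} {y : En n}

theorem evT_sq_le (hG : IsRiemannianOn G U) (hy : y ∈ U) (A : Arr n k) (v : Fin k → En n) :
    evT A v ^ 2 ≤ ipA (G y)⁻¹ A A * ∏ s, bil (G y) (v s) (v s) := by
  obtain ⟨e, he⟩ := exists_frame hG hy
  have h1 : v = fun s => ∑ a, bil (G y) (v s) (e a) • e a :=
    funext fun s => he.expand hG hy (v s)
  have h2 : evT A v = ∑ I : Fin k → Fin n, (∏ s, bil (G y) (v s) (e (I s))) * frA e A I := by
    conv_lhs => rw [h1]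
    exact evT_expand A _ e
  have h3 : ∏ s, bil (G y) (v s) (v s) =
      ∑ I : Fin k → Fin n, (∏ s, bil (G y) (v s) (e (I s))) ^ 2 := by
    simp only [he.bil_eq hG hy (v _) (v _)]
    rw [Finset.prod_univ_sum]
    simp only [Fintype.piFinset_univ, Finset.prod_mul_distrib, sq]
  rw [h2, h3, ipA_frame he.inv, mul_comm]
  simp only [← sq]
  exact Finset.sum_mul_sq_le_sq_mul_sq _ _ _

theorem comp_sq_le (hG : IsRiemannianOn G U) (hy : y ∈ U) (T : Tn n k) (I : Fin k → Fin n) :
    T y I ^ 2 ≤ nsq G T y * ∏ s, G y (I s) (I s) := by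
  have h := evT_sq_le hG hy (T y) fun s => eb (I s)
  rw [evT_single] at h
  refine h.trans_eq ?_
  congr 1
  refine Finset.prod_congr rfl fun s _ => ?_
  rw [bil_apply]
  simp [eb]

theorem ricci_eq_tr (hG : IsRiemannianOn G U) (hy : y ∈ U) (a b : Fin n) :
    ricci G y a b = ∑ l, ∑ i, (G y)⁻¹ l i * rmT G y ![l, a, i, b] := by
  rw [ricci_eq_sum_riemann hG hy, Finset.sum_comm]
  refine Finset.sum_congr rfl fun i _ => ?_
  have h1 : ∀ m, ∑ l, (G y)⁻¹ l i * G y l m = if i = m then 1 else 0 := by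
    intro m
    have hp := hG.posDef y hy
    have h2 : (G y)⁻¹ * G y = 1 :=
      Matrix.nonsing_inv_mul _ (isUnit_iff_ne_zero.2 hp.det_pos.ne')
    have h3 := congrFun (congrFun h2 i) m
    rw [Matrix.mul_apply, Matrix.one_apply] at h3
    rw [← h3]
    refine Finset.sum_congr rfl fun l _ => ?_
    have h4 := hp.inv.isHermitian.apply i l
    simp only [star_trivial] at h4
    rw [h4]
  simp only [rmT, riemannLower, Matrix.cons_val_zero, Matrix.cons_val_one, Matrix.cons_val,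
    Finset.mul_sum, ← mul_assoc]
  rw [Finset.sum_comm]
  simp only [← Finset.sum_mul, h1]
  simp

theorem abs_ric_le (hG : IsRiemannianOn G U) (hy : y ∈ U) {C : ℝ} (hC : nsq G (rmT G) y ≤ C)
    (v : En n) : |∑ a, ∑ b, ricci G y a b * v a * v b| ≤ n * √C * bil (G y) v v := by
  obtain ⟨e, he⟩ := exists_frame hG hy
  have h1 : ∑ a, ∑ b, ricci G y a b * v a * v b = ∑ c, evT (rmT G y) ![e c, v, e c, v] := by
    simp only [evT_four, ricci_eq_tr hG hy, he.inv, Finset.sum_mul, Matrix.cons_val_zero,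
      Matrix.cons_val_one, Matrix.cons_val]
    calc _ = ∑ a, ∑ b, ∑ l, ∑ i, ∑ c, e c l * v a * e c i * v b * rmT G y ![l, a, i, b] := by
          refine Finset.sum_congr rfl fun a _ => Finset.sum_congr rfl fun b _ =>
            Finset.sum_congr rfl fun l _ => Finset.sum_congr rfl fun i _ =>
            Finset.sum_congr rfl fun c _ => by ring
      _ = ∑ a, ∑ l, ∑ i, ∑ b, ∑ c, e c l * v a * e c i * v b * rmT G y ![l, a, i, b] := by
          refine Finset.sum_congr rfl fun a _ => ?_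
          rw [Finset.sum_comm]
          exact Finset.sum_congr rfl fun l _ => Finset.sum_comm
      _ = ∑ l, ∑ a, ∑ i, ∑ b, ∑ c, e c l * v a * e c i * v b * rmT G y ![l, a, i, b] :=
          Finset.sum_comm
      _ = ∑ l, ∑ a, ∑ i, ∑ c, ∑ b, e c l * v a * e c i * v b * rmT G y ![l, a, i, b] :=
          Finset.sum_congr rfl fun _ _ => Finset.sum_congr rfl fun _ _ =>
            Finset.sum_congr rfl fun _ _ => Finset.sum_comm
      _ = ∑ l, ∑ a, ∑ c, ∑ i, ∑ b, e c l * v a * e c i * v b * rmT G y ![l, a, i, b] :=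
          Finset.sum_congr rfl fun _ _ => Finset.sum_congr rfl fun _ _ => Finset.sum_comm
      _ = ∑ l, ∑ c, ∑ a, ∑ i, ∑ b, e c l * v a * e c i * v b * rmT G y ![l, a, i, b] :=
          Finset.sum_congr rfl fun _ _ => Finset.sum_comm
      _ = _ := Finset.sum_comm
  have hv : 0 ≤ bil (G y) v v := by
    rw [he.bil_eq hG hy]
    exact Finset.sum_nonneg fun a _ => mul_self_nonneg _
  have h2 : ∀ c, |evT (rmT G y) ![e c, v, e c, v]| ≤ √C * bil (G y) v v := by
    intro c
    have h3 := evT_sq_le hG hy (rmT G y) ![e c, v, e c, v]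
    simp only [Fin.prod_univ_four, Matrix.cons_val_zero, Matrix.cons_val_one, Matrix.cons_val,
      he.orth, if_true, one_mul, mul_one] at h3
    refine abs_le_of_sq_le_sq' ?_ (by positivity) |> abs_le.2
    have h4 : (0:ℝ) ≤ ipA (G y)⁻¹ (rmT G y) (rmT G y) := by
      rw [ipA_frame he.inv]
      exact Finset.sum_nonneg fun a _ => mul_self_nonneg _
    have h5 : ipA (G y)⁻¹ (rmT G y) (rmT G y) ≤ C := hC
    rw [mul_pow, Real.sq_sqrt (h4.trans h5), sq (bil (G y) v v)]
    exact h3.trans (mul_le_mul_of_nonneg_right h5 (mul_nonneg hv hv))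
  rw [h1]
  refine (Finset.abs_sum_le_sum_abs _ _).trans ((Finset.sum_le_sum fun c _ => h2 c).trans_eq ?_)
  simp [mul_assoc]

theorem abs_entry_le (hG : IsRiemannianOn G U) (hy : y ∈ U) {Λ : ℝ}
    (h : ∀ v : En n, bil (G y) v v ≤ Λ * ‖v‖ ^ 2) (i j : Fin n) : |G y i j| ≤ Λ := by
  obtain ⟨e, he⟩ := exists_frame hG hy
  have h0 : ∀ a b : Fin n, bil (G y) (eb a) (eb b) = G y a b := by
    intro a b
    rw [bil_apply]
    simp [eb]
  have h1 : ∀ a : Fin n, bil (G y) (eb a) (eb a) ≤ Λ := fun a => by simpa [eb] using h (eb a)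
  have h2 : ∀ a : Fin n, 0 ≤ bil (G y) (eb a) (eb a) := fun a => by
    rw [he.bil_eq hG hy]
    exact Finset.sum_nonneg fun a _ => mul_self_nonneg _
  have h3 : bil (G y) (eb i) (eb j) ^ 2 ≤ bil (G y) (eb i) (eb i) * bil (G y) (eb j) (eb j) := by
    simp only [he.bil_eq hG hy (eb _) (eb _), ← sq]
    exact Finset.sum_mul_sq_le_sq_mul_sq _ _ _
  rw [← h0]
  refine abs_le.2 (abs_le_of_sq_le_sq' (h3.trans ?_) ((h2 i).trans (h1 i)))
  rw [sq]
  exact mul_le_mul (h1 i) (h1 j) (h2 j) ((h2 i).trans (h1 i))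

theorem abs_inv_entry_le (hG : IsRiemannianOn G U) (hy : y ∈ U) {c : ℝ} (hc : 0 < c)
    (h : ∀ v : En n, c * ‖v‖ ^ 2 ≤ bil (G y) v v) (i j : Fin n) : |(G y)⁻¹ i j| ≤ n / c := by
  obtain ⟨e, he⟩ := exists_frame hG hy
  have h1 : ∀ a, ‖e a‖ ^ 2 ≤ 1 / c := fun a => by
    have := h (e a)
    rw [he.orth, if_pos rfl] at this
    rw [le_div_iff₀ hc]
    linarith
  rw [he.inv]
  refine (Finset.abs_sum_le_sum_abs _ _).trans ((Finset.sum_le_sum (g := fun _ => 1 / c)
    fun a _ => ?_).trans_eq (by simp [div_eq_mul_inv]))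
  rw [abs_mul]
  refine le_trans ?_ (h1 a)
  rw [sq]
  exact mul_le_mul (PiLp.norm_apply_le (e a) i) (PiLp.norm_apply_le (e a) j) (abs_nonneg _)
    (norm_nonneg _)

end Crest.Agent.N207.X
end
end

-- ▼ part N207/X/Ric
section

/-! Row 207, block B (end).  The classes `SJ` and `K` for Christoffel symbols, the Ricci tensor
and the components of `∇ʲ Rm`. -/

set_option autoImplicit false
set_option linter.unusedSectionVars false
open Set Filter Topology
open scoped ContDiff
open Crest.GeometryTopology.CoordMetric Crest.GeometryTopology.ChartCurvature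
  Crest.GeometryTopology.MetricFamily
open Crest.Agent.R202.Tens Crest.Agent.R247.Bo84 Crest.Agent.N207.AI

noncomputable section
namespace Crest.Agent.N207.X

section SJ
variable {E : Type*} [NormedAddCommGroup E] [NormedSpace ℝ E] {N : ℕ} {I : Set ℝ} {U : Set E}
variable {m : Type*} [Fintype m] [DecidableEq m] {A : ℝ → E → Matrix m m ℝ}

theorem SJ.cmul (hI : UniqueDiffOn ℝ I) (hU : IsOpen U) (c : ℝ) {w : ℝ → E → ℝ}
    (h : SJ N I U w) : SJ N I U (fun t y => c * w t y) := (SJ.const c).mul hI hU h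

theorem SJ.det (hI : UniqueDiffOn ℝ I) (hU : IsOpen U)
    (h : ∀ i j, SJ N I U fun t y => A t y i j) : SJ N I U fun t y => (A t y).det := by
  simp only [Matrix.det_apply']
  exact SJ.sum hI hU _ fun σ _ => (SJ.finset_prod hI hU _ fun i _ => h _ _).cmul hI hU _

theorem SJ.matInv (hI : UniqueDiffOn ℝ I) (hU : IsOpen U)
    (h : ∀ i j, SJ N I U fun t y => A t y i j) (h0 : ∀ t ∈ I, ∀ y ∈ U, (A t y).det ≠ 0)
    (i j : m) : SJ N I U fun t y => (A t y)⁻¹ i j := by
  have h2 : SJ N I U fun t y => (A t y).adjugate i j := by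
    simp only [Matrix.adjugate_apply]
    refine SJ.det hI hU fun a b => ?_
    by_cases hab : a = j
    · subst hab
      simpa using SJ.const _
    · simpa [Matrix.updateRow_ne hab] using h a b
  refine (((SJ.det hI hU h).inv hI hU h0).mul hI hU h2).congr hU fun t _ y _ => ?_
  simp [Matrix.inv_def]

end SJ

variable {n N k : ℕ} {G : ℝ → MetricField n} {I : Set ℝ} {U : Set (En n)}

theorem SJ.chr (hI : UniqueDiffOn ℝ I) (hU : IsOpen U)
    (h : ∀ i j, SJ N I U fun t y => G t y i j) (h0 : ∀ t ∈ I, ∀ y ∈ U, (G t y).det ≠ 0)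
    (a i j : Fin n) : SJ N I U fun t y => christoffel (G t) y a i j :=
  (SJ.sum hI hU Finset.univ fun l _ => (SJ.matInv hI hU h h0 a l).mul hI hU
    ((((h j l).dv (eb i)).add hI hU ((h i l).dv (eb j))).sub hI hU ((h i j).dv (eb l)))).cmul
      hI hU _

theorem SJ.ricci (hI : UniqueDiffOn ℝ I) (hU : IsOpen U)
    (h : ∀ i j, SJ N I U fun t y => G t y i j) (h0 : ∀ t ∈ I, ∀ y ∈ U, (G t y).det ≠ 0)
    (i j : Fin n) : SJ N I U fun t y => ricci (G t) y i j := by
  have c := SJ.chr hI hU h h0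
  exact (((SJ.sum hI hU Finset.univ fun a _ => (c a i j).dv (eb a)).sub hI hU
    ((SJ.sum hI hU Finset.univ fun a _ => c a a i).dv (eb j))).add hI hU
    (SJ.sum hI hU Finset.univ fun a _ => SJ.sum hI hU Finset.univ fun l _ =>
      (c a a l).mul hI hU (c l i j))).sub hI hU
    (SJ.sum hI hU Finset.univ fun a _ => SJ.sum hI hU Finset.univ fun l _ =>
      (c a j l).mul hI hU (c l a i))

variable {φ : ℝ → En n → ℝ}

theorem K.chr (hU : IsOpen U) (hφ : Ge I U φ)
    (h : ∀ i j, K eb I U φ (k + 1) fun t y => G t y i j)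
    (hH : ∀ i j, K eb I U φ (k + 1) fun t y => (G t y)⁻¹ i j) (a i j : Fin n) :
    K eb I U φ k fun t y => christoffel (G t) y a i j := by
  refine K.cmul hU hφ _ (K.sum hU hφ Finset.univ fun l _ => ?_)
  exact ((((((h j l).2.2 i).add hU ((h i l).2.2 j)).sub hU hφ ((h i j).2.2 l))).mul hU hφ
    (hH a l).drop).congr hU fun t _ y _ => mul_comm _ _

/-- the components of `∇ʲ Rm` -/
def tw (G : ℝ → MetricField n) (j : ℕ) (J : Fin (4 + j) → Fin n) : ℝ → En n → ℝ :=
  fun t y => covN (G t) (rmT (G t)) j y J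

theorem dv_tw (j : ℕ) (J : Fin (4 + j) → Fin n) (a : Fin n) (t : ℝ) (y : En n) :
    dv (eb a) (tw G j J) t y = tw G (j + 1) (Fin.cons a J : Fin (4 + j + 1) → Fin n) t y +
      ∑ s, ∑ m, christoffel (G t) y m a (J s) * tw G j (Function.update J s m) t y := by
  simp only [tw, covN, cov, Fin.tail_cons, Fin.cons_zero]
  exact (sub_add_cancel _ _).symm

theorem K.tw (hU : IsOpen U) (hφ : Ge I U φ) (hG : ∀ t ∈ I, IsRiemannianOn (G t) U)
    (hc : ∀ a i j, K eb I U φ k fun t y => christoffel (G t) y a i j)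
    (hT : ∀ j J, K eb I U one k (tw G j J)) (j : ℕ) (J : Fin (4 + j) → Fin n) :
    K eb I U φ (k + 1) (tw G j J) :=
  ⟨(hT j J).bd, fun t ht _ hy => smT_diff hU (smT_covN (hG t ht) (smT_rmT (hG t ht)) j) hy J,
    fun a => (((hT (j + 1) _).weak hφ).add hU (K.sum hU hφ Finset.univ fun s _ =>
      K.sum hU hφ Finset.univ fun m _ => (hc m a (J s)).mul hU hφ (hT j _))).congr hU
        fun t _ y _ => dv_tw j J a t y⟩

theorem K.ricci (hU : IsOpen U) (hφ : Ge I U φ) (hG : ∀ t ∈ I, IsRiemannianOn (G t) U)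
    (hH : ∀ i j, K eb I U φ (k + 1) fun t y => (G t y)⁻¹ i j)
    (hT : ∀ J, K eb I U φ (k + 1) (X.tw G 0 J)) (a b : Fin n) :
    K eb I U φ (k + 1) fun t y => -2 * ricci (G t) y a b :=
  K.cmul hU hφ _ ((K.sum hU hφ Finset.univ fun l _ => K.sum hU hφ Finset.univ fun i _ =>
    (hH l i).mul' hU hφ (hT ![l, a, i, b])).congr hU fun t ht _ hy => ricci_eq_tr (hG t ht) hy a b)

end Crest.Agent.N207.X
end
end

-- ▼ part N207/X/Bar
section

/-! Row 207, block B (end).  Extension of a function whose spatial jets are Lipschitz in time on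
`[a, T)` to the final time `T`. -/

set_option autoImplicit false
set_option linter.unusedSectionVars false
open Set Filter Topology
open scoped ContDiff

noncomputable section
namespace Crest.Agent.N207.X

variable {E : Type*} [NormedAddCommGroup E] [NormedSpace ℝ E] {ι : Type*}
variable {V : Type*} [NormedAddCommGroup V] [NormedSpace ℝ V]
variable {n : ℕ} {I : Set ℝ} {U : Set E}

/-- linear combinations, up to equality on `I × U` -/
inductive Span (I : Set ℝ) (U : Set E) (P : (ℝ → E → V) → Prop) : (ℝ → E → V) → Prop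
  | base {w : ℝ → E → V} : P w → Span I U P w
  | zero : Span I U P (fun _ _ => 0)
  | add {w w' : ℝ → E → V} : Span I U P w → Span I U P w' → Span I U P (fun t y => w t y + w' t y)
  | smul (c : ℝ) {w : ℝ → E → V} : Span I U P w → Span I U P (fun t y => c • w t y)
  | congr {w w' : ℝ → E → V} : Span I U P w → EqI I U w' w → Span I U P w'

theorem Span.sum {P : (ℝ → E → V) → Prop} {κ : Type*} (s : Finset κ) {w : κ → ℝ → E → V}
    (h : ∀ i ∈ s, Span I U P (w i)) : Span I U P (fun t y => ∑ i ∈ s, w i t y) := by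
  classical
  induction s using Finset.induction_on with
  | empty => simpa using Span.zero
  | insert a s ha ih =>
    simp only [Finset.sum_insert ha]
    exact (h a (by simp)).add (ih fun i hi => h i (by simp [hi]))

/-- coinduction along the directions of a basis -/
theorem SJ.of_coind_basis [Fintype ι] (hU : IsOpen U) (b : Module.Basis ι ℝ E)
    (P : (ℝ → E → V) → Prop)
    (hP : ∀ w, P w → Base n I U w ∧ ∀ a, P (X.dv (b a) w)) {w : ℝ → E → V} (h : P w) :
    SJ n I U w := by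
  refine SJ.of_coind (Span I U P) (fun w hw => ?_) (Span.base h)
  induction hw with
  | @base w h =>
    refine ⟨(hP w h).1, fun v => Span.congr (Span.sum Finset.univ fun a _ =>
      Span.smul (b.repr v a) (Span.base ((hP w h).2 a))) fun t _ y _ => ?_⟩
    simp only [X.dv]
    have h : _root_.fderiv ℝ (w t) y v = _root_.fderiv ℝ (w t) y (∑ i, b.repr v i • b i) := by
      rw [b.sum_repr v]
    rw [h, map_sum]
    simp
  | zero =>
    exact ⟨⟨contDiffOn_const, fun _ _ _ _ => differentiableAt_const _⟩,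
      fun v => Span.congr Span.zero fun t _ y _ => by simp [X.dv]⟩
  | @add w w' _ _ ih ih' =>
    refine ⟨⟨ih.1.cd.add ih'.1.cd, fun t ht y hy => (ih.1.df t ht y hy).add (ih'.1.df t ht y hy)⟩,
      fun v => Span.congr ((ih.2 v).add (ih'.2 v)) fun t ht y hy => ?_⟩
    simp only [X.dv]
    rw [fderiv_fun_add (ih.1.df t ht y hy) (ih'.1.df t ht y hy)]
    rfl
  | @smul c w _ ih =>
    refine ⟨⟨ih.1.cd.const_smul c, fun t ht y hy => (ih.1.df t ht y hy).const_smul c⟩,
      fun v => Span.congr ((ih.2 v).smul c) fun t ht y hy => ?_⟩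
    simp only [X.dv]
    rw [fderiv_fun_const_smul (ih.1.df t ht y hy)]
    rfl
  | @congr w w' _ q ih => exact ⟨ih.1.congr hU q, fun v => (ih.2 v).congr (q.dv hU v)⟩

/-- time slices of a function with all spatial jets are smooth -/
theorem SJ.slice [FiniteDimensional ℝ E] (hU : IsOpen U) {w : ℝ → E → V} (h : SJ n I U w)
    {t : ℝ} (ht : t ∈ I) : ContDiffOn ℝ ∞ (w t) U := by
  refine contDiffOn_infty.2 fun m => ?_
  induction m generalizing w with
  | zero => exact contDiffOn_zero.2 fun y hy => (h.df ht hy).continuousAt.continuousWithinAt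
  | succ m ih =>
    have e : ((m + 1 : ℕ) : WithTop ℕ∞) = (m : WithTop ℕ∞) + 1 := by push_cast; rfl
    rw [e, contDiffOn_succ_iff_fderiv_of_isOpen hU]
    refine ⟨fun y hy => (h.df ht hy).differentiableWithinAt, by simp, ?_⟩
    exact (ContDiffOn.sum (s := Finset.univ) fun i _ =>
      (ContinuousLinearMap.smulRightL ℝ E V (LinearMap.toContinuousLinearMap
        ((Module.finBasis ℝ E).coord i))).contDiff.comp_contDiffOn
        (ih (h.dv (Module.finBasis ℝ E i)))).congr fun y _ => fderiv_eq_sum _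

/-- extension to `t ≥ T` by the left limit -/
def bar (T : ℝ) (f : ℝ → E → ℝ) : ℝ → E → ℝ := fun t y =>
  if t < T then f t y else limUnder (𝓝[<] T) fun s => f s y

/-- Lipschitz in time, uniformly in space -/
def Lip (I : Set ℝ) (U : Set E) (f : ℝ → E → ℝ) : Prop :=
  ∃ C, 0 ≤ C ∧ ∀ s ∈ I, ∀ t ∈ I, ∀ y ∈ U, |f t y - f s y| ≤ C * |t - s|

variable {a T : ℝ} {f : ℝ → E → ℝ}

theorem bar_of_lt {t : ℝ} (ht : t < T) : bar T f t = f t := by
  funext y
  simp [bar, ht]

theorem bar_self (y : E) : bar T f T y = limUnder (𝓝[<] T) fun s => f s y := by simp [bar]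

theorem Lip.tendsto (ha : a < T) (h : Lip (Ico a T) U f) {y : E} (hy : y ∈ U) :
    Tendsto (fun s => f s y) (𝓝[<] T) (𝓝 (bar T f T y)) := by
  obtain ⟨C, hC0, hC⟩ := h
  have h1 : LipschitzOnWith ⟨C, hC0⟩ (fun s => f s y) (Ico a T) :=
    LipschitzOnWith.of_dist_le_mul fun s hs t ht => hC t ht s hs y hy
  obtain ⟨g, hg, e⟩ := h1.extend_real
  have h2 : Tendsto (fun s => f s y) (𝓝[<] T) (𝓝 (g T)) := by
    refine (hg.continuous.continuousAt.continuousWithinAt (s := Iio T)).tendsto.congr' ?_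
    filter_upwards [Ico_mem_nhdsLT ha] with s hs
    exact (e hs).symm
  rw [bar_self, h2.limUnder_eq]
  exact h2

theorem Lip.bar (ha : a < T) (h : Lip (Ico a T) U f) : Lip (Icc a T) U (bar T f) := by
  obtain ⟨C, hC0, hC⟩ := id h
  have h1 : ∀ s ∈ Ico a T, ∀ y ∈ U, |X.bar T f T y - f s y| ≤ C * |T - s| := by
    intro s hs y hy
    refine le_of_tendsto_of_tendsto (((h.tendsto ha hy).sub_const (f s y)).abs)
      (((tendsto_nhdsWithin_of_tendsto_nhds (s := Iio T) tendsto_id).sub_const s).abs.const_mul C)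
      ?_
    filter_upwards [Ico_mem_nhdsLT ha] with t ht
    exact hC s hs t ht y hy
  refine ⟨C, hC0, fun s hs t ht y hy => ?_⟩
  rcases hs.2.lt_or_eq with hs' | hs' <;> rcases ht.2.lt_or_eq with ht' | ht'
  · rw [bar_of_lt hs', bar_of_lt ht']
    exact hC s ⟨hs.1, hs'⟩ t ⟨ht.1, ht'⟩ y hy
  · rw [bar_of_lt hs', ht']
    exact h1 s ⟨hs.1, hs'⟩ y hy
  · rw [bar_of_lt ht', hs', abs_sub_comm, abs_sub_comm t]
    exact h1 t ⟨ht.1, ht'⟩ y hy
  · rw [hs', ht']
    simp

theorem Lip.cont (h : Lip I U f) (hc : ∀ t ∈ I, ∀ y ∈ U, ContinuousAt (f t) y) :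
    ContinuousOn (fun p : ℝ × E => f p.1 p.2) (I ×ˢ U) := by
  obtain ⟨C, hC0, hC⟩ := h
  intro p hp
  have h1 : Tendsto (fun q : ℝ × E => f q.1 q.2 - f p.1 q.2) (𝓝[I ×ˢ U] p) (𝓝 0) := by
    have h2 : Tendsto (fun q : ℝ × E => C * |q.1 - p.1|) (𝓝[I ×ˢ U] p) (𝓝 0) := by
      have h3 : Continuous fun q : ℝ × E => C * |q.1 - p.1| := by fun_prop
      simpa using (h3.continuousAt (x := p)).continuousWithinAt.tendsto
    refine squeeze_zero_norm' ?_ h2
    filter_upwards [self_mem_nhdsWithin] with q hq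
    exact hC p.1 hp.1 q.1 hq.1 q.2 hq.2
  have h4 : Tendsto (fun q : ℝ × E => f p.1 q.2) (𝓝[I ×ˢ U] p) (𝓝 (f p.1 p.2)) :=
    ((hc p.1 hp.1 p.2 hp.2).comp continuousAt_snd).continuousWithinAt.tendsto
  simpa [ContinuousWithinAt] using h1.add h4

theorem Lip.tendstoUniformlyOn (ha : a < T) (h : Lip (Ico a T) U f) :
    TendstoUniformlyOn f (X.bar T f T) (𝓝[<] T) U := by
  obtain ⟨C, hC0, hC⟩ := h.bar ha
  rw [Metric.tendstoUniformlyOn_iff]
  intro ε hε
  have h2 : Tendsto (fun s : ℝ => C * |T - s|) (𝓝[<] T) (𝓝 0) := by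
    have h3 : Continuous fun s : ℝ => C * |T - s| := by fun_prop
    simpa using (h3.continuousAt (x := T)).continuousWithinAt.tendsto
  filter_upwards [Ico_mem_nhdsLT ha, h2.eventually (gt_mem_nhds hε)] with s hs hs' y hy
  have h4 := hC s (Ico_subset_Icc_self hs) T ⟨ha.le, le_rfl⟩ y hy
  rw [bar_of_lt hs.2] at h4
  exact h4.trans_lt hs'

/-- all jets along the directions `e a` exist and are Lipschitz in time -/
def Good (e : ι → E) (I : Set ℝ) (U : Set E) (f : ℝ → E → ℝ) : Prop :=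
  ∀ l : List ι, Lip I U (dl (l.map e) f) ∧
    ∀ t ∈ I, ∀ y ∈ U, DifferentiableAt ℝ (dl (l.map e) f t) y

theorem Good.dv {e : ι → E} (h : Good e I U f) (i : ι) : Good e I U (dv (e i) f) :=
  fun l => h (i :: l)

theorem Good.lip {e : ι → E} (h : Good e I U f) : Lip I U f := (h []).1

theorem clm_eq_sum [Fintype ι] [FiniteDimensional ℝ E] (b : Module.Basis ι ℝ E)
    (L : E →L[ℝ] ℝ) : L = ∑ i, L (b i) • LinearMap.toContinuousLinearMap (b.coord i) := by
  ext v
  have h : L v = L (∑ i, b.repr v i • b i) := by rw [b.sum_repr v]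
  rw [h, map_sum]
  simp [mul_comm]

theorem Good.hasFDerivAt [Fintype ι] [FiniteDimensional ℝ E] (ha : a < T) (hU : IsOpen U)
    (b : Module.Basis ι ℝ E) (h : Good b (Ico a T) U f) {y : E} (hy : y ∈ U) :
    HasFDerivAt (bar T f T)
      (∑ i, bar T (X.dv (b i) f) T y • LinearMap.toContinuousLinearMap (b.coord i)) y := by
  refine hasFDerivAt_of_tendstoUniformlyOn (l := 𝓝[<] T)
    (f := fun s z => if s ∈ Ico a T then f s z else 0)
    (f' := fun s z => if s ∈ Ico a T then fderiv ℝ (f s) z else 0)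
    (g' := fun z => ∑ i, bar T (X.dv (b i) f) T z • LinearMap.toContinuousLinearMap (b.coord i))
    hU ?_ (fun s z hz => ?_) (fun z hz => ?_) hy
  · have h1 : ∀ s : Finset ι, TendstoUniformlyOn
        (fun r z => ∑ i ∈ s, X.dv (b i) f r z • LinearMap.toContinuousLinearMap (b.coord i))
        (fun z => ∑ i ∈ s, bar T (X.dv (b i) f) T z •
          LinearMap.toContinuousLinearMap (b.coord i)) (𝓝[<] T) U := by
      classical
      intro s
      induction s using Finset.induction_on with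
      | empty => simpa using (tendsto_const_nhds (x := (0 : E →L[ℝ] ℝ))).tendstoUniformlyOn_const U
      | insert i s hi ih =>
        simp only [Finset.sum_insert hi]
        exact ((ContinuousLinearMap.toSpanSingleton ℝ (LinearMap.toContinuousLinearMap
          (b.coord i))).uniformContinuous.comp_tendstoUniformlyOn
            ((h.dv i).lip.tendstoUniformlyOn ha)).add ih
    refine (h1 Finset.univ).congr ?_
    filter_upwards [Ico_mem_nhdsLT ha] with s hs z _
    simp only [if_pos hs]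
    exact (clm_eq_sum b _).symm
  · by_cases hs : s ∈ Ico a T
    · simp only [if_pos hs]
      exact ((h []).2 s hs z hz).hasFDerivAt
    · simp only [if_neg hs]
      exact hasFDerivAt_const _ _
  · refine (h.lip.tendsto ha hz).congr' ?_
    filter_upwards [Ico_mem_nhdsLT ha] with s hs
    rw [if_pos hs]

/-- **limit at the final time** -/
theorem Good.sj [Fintype ι] [FiniteDimensional ℝ E] (ha : a < T) (hU : IsOpen U)
    (b : Module.Basis ι ℝ E) (h : Good b (Ico a T) U f) : SJ 0 (Icc a T) U (bar T f) := by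
  classical
  refine SJ.of_coind_basis hU b
    (fun w => ∃ g, Good b (Ico a T) U g ∧ EqI (Icc a T) U w (bar T g)) ?_ ⟨f, h, EqI.refl _⟩
  rintro w ⟨g, hg, q⟩
  have hd : ∀ t ∈ Icc a T, ∀ y ∈ U, DifferentiableAt ℝ (bar T g t) y := by
    intro t ht y hy
    rcases ht.2.lt_or_eq with ht' | ht'
    · rw [bar_of_lt ht']
      exact (hg []).2 t ⟨ht.1, ht'⟩ y hy
    · rw [ht']
      exact (hg.hasFDerivAt ha hU b hy).differentiableAt
  refine ⟨Base.congr hU ⟨contDiffOn_zero.2 ((hg.lip.bar ha).cont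
    fun t ht y hy => (hd t ht y hy).continuousAt), hd⟩ q,
    fun i => ⟨X.dv (b i) g, hg.dv i, (q.dv hU _).trans fun t ht y hy => ?_⟩⟩
  rcases ht.2.lt_or_eq with ht' | ht'
  · simp only [X.dv, bar_of_lt ht']
  · rw [ht']
    simp only [X.dv]
    rw [(hg.hasFDerivAt ha hU b hy).fderiv]
    simp [Finsupp.single_apply]

end Crest.Agent.N207.X
end
end

-- ▼ part N207/X/Lim
section

/-! Row 207, block B (end).  (LIM): a coordinate Ricci flow on `[a, T)` with bounded `∇ʲ Rm` has
uniformly bounded spatial jets, Lipschitz in time, and stays uniformly positive. -/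

set_option autoImplicit false
set_option linter.unusedSectionVars false
open Set Filter Topology
open scoped ContDiff
open Crest.GeometryTopology.CoordMetric Crest.GeometryTopology.ChartCurvature
  Crest.GeometryTopology.MetricFamily
open Crest.Agent.R202.Tens Crest.Agent.R247.Bo84 Crest.Agent.N207.AI

noncomputable section
namespace Crest.Agent.N207.X

theorem equiv_of_deriv {a T κ : ℝ} {q q' : ℝ → ℝ} (hκ : 0 ≤ κ) (hq : ∀ t ∈ Ico a T, 0 < q t)
    (hd : ∀ t ∈ Ico a T, HasDerivAt q (q' t) t) (hb : ∀ t ∈ Ico a T, |q' t| ≤ κ * q t)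
    {t : ℝ} (ht : t ∈ Ico a T) :
    q t ≤ Real.exp (κ * (T - a)) * q a ∧ q a ≤ Real.exp (κ * (T - a)) * q t := by
  have ha : a ∈ Ico a T := ⟨le_rfl, ht.1.trans_lt ht.2⟩
  have h1 := (convex_Ico a T).norm_image_sub_le_of_norm_hasDerivWithin_le
    (f := fun s => Real.log (q s)) (f' := fun s => q' s / q s) (C := κ)
    (fun s hs => ((hd s hs).log (hq s hs).ne').hasDerivWithinAt)
    (fun s hs => by
      rw [Real.norm_eq_abs, abs_div, abs_of_pos (hq s hs), div_le_iff₀ (hq s hs)]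
      exact hb s hs) ha ht
  rw [Real.norm_eq_abs, Real.norm_eq_abs, abs_of_nonneg (sub_nonneg.2 ht.1)] at h1
  have h2 : κ * (t - a) ≤ κ * (T - a) := mul_le_mul_of_nonneg_left (by linarith [ht.2]) hκ
  obtain ⟨h3, h4⟩ := abs_le.1 h1
  constructor
  · rw [← Real.exp_log (hq t ht), ← Real.exp_log (hq a ha), ← Real.exp_add]
    exact Real.exp_le_exp.2 (by linarith)
  · rw [← Real.exp_log (hq t ht), ← Real.exp_log (hq a ha), ← Real.exp_add]
    exact Real.exp_le_exp.2 (by linarith)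

theorem exists_unif {ι α : Type*} [Finite ι] {P : α → Prop} {f : ι → α → ℝ} {φ : α → ℝ}
    (hφ : ∀ x, P x → 0 ≤ φ x) (h : ∀ i, ∃ C, ∀ x, P x → f i x ≤ C * φ x) :
    ∃ C, 0 ≤ C ∧ ∀ i x, P x → f i x ≤ C * φ x := by
  choose C hC using h
  obtain ⟨D, hD⟩ := (Set.finite_range C).bddAbove
  exact ⟨max D 0, le_max_right _ _, fun i x hx => (hC i x hx).trans
    (mul_le_mul_of_nonneg_right ((hD ⟨i, rfl⟩).trans (le_max_left _ _)) (hφ x hx))⟩

variable {n : ℕ}

/-- hypotheses of (LIM) -/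
structure LimHyp (G : ℝ → MetricField n) (a T : ℝ) (U : Set (En n)) : Prop where
  lt : a < T
  op : IsOpen U
  sm : ∀ i j, ContDiffOn ℝ ∞ (fun p : ℝ × En n => G p.1 p.2 i j) (Ico a T ×ˢ U)
  pos : ∀ t ∈ Ico a T, ∀ y ∈ U, (G t y).PosDef
  rf : ∀ t ∈ Ico a T, ∀ y ∈ U, ∀ i j,
    HasDerivAt (fun s => G s y i j) (-2 * ricci (G t) y i j) t
  shi : ∀ j, ∃ C, ∀ t ∈ Ico a T, ∀ y ∈ U, nsq (G t) (covN (G t) (rmT (G t)) j) y ≤ C

/-- bounds at the initial time -/
structure IniBd (G : ℝ → MetricField n) (a : ℝ) (U : Set (En n)) : Prop where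
  jets : ∀ l i j, ∃ C, ∀ y ∈ U, |dl l (fun t y => G t y i j) a y| ≤ C
  low : ∃ c > 0, ∀ y ∈ U, ∀ v : En n, c * ‖v‖ ^ 2 ≤ bil (G a y) v v
  up : ∃ Λ, ∀ y ∈ U, ∀ v : En n, bil (G a y) v v ≤ Λ * ‖v‖ ^ 2

variable {G : ℝ → MetricField n} {a T : ℝ} {U : Set (En n)}

namespace LimHyp

theorem mono (h : LimHyp G a T U) {V : Set (En n)} (hV : IsOpen V) (hs : V ⊆ U) :
    LimHyp G a T V :=
  ⟨h.lt, hV, fun i j => (h.sm i j).mono (prod_mono Subset.rfl hs),
    fun t ht y hy => h.pos t ht y (hs hy), fun t ht y hy => h.rf t ht y (hs hy),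
    fun j => (h.shi j).imp fun _ hC t ht y hy => hC t ht y (hs hy)⟩

theorem sj (h : LimHyp G a T U) (i j : Fin n) : SJ 0 (Ico a T) U fun t y => G t y i j :=
  SJ.of_contDiffOn (uniqueDiffOn_Ico a T) h.op (h.sm i j)

theorem riem (h : LimHyp G a T U) (t : ℝ) (ht : t ∈ Ico a T) : IsRiemannianOn (G t) U :=
  ⟨h.op, fun i j => (h.sj i j).slice h.op ht, h.pos t ht⟩

theorem det_ne (h : LimHyp G a T U) : ∀ t ∈ Ico a T, ∀ y ∈ U, (G t y).det ≠ 0 :=
  fun t ht y hy => (h.pos t ht y hy).det_pos.ne'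

theorem ev (h : LimHyp G a T U) (i j : Fin n) (l : List (En n)) :
    Ev (Ico a T) U (dl l fun t y => G t y i j) (dl l fun t y => -2 * ricci (G t) y i j) := by
  intro t ht y hy
  have hb : (t + T) / 2 < T := by linarith [ht.2]
  have hb' : t < (t + T) / 2 := by linarith [ht.2]
  have hs : Icc a ((t + T) / 2) ⊆ Ico a T := Icc_subset_Ico_right hb
  have hab : a < (t + T) / 2 := ht.1.trans_lt hb'
  have h1 : Ev (Icc a ((t + T) / 2)) U (fun t y => G t y i j)
      (fun t y => -2 * ricci (G t) y i j) :=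
    fun s hs' z hz => (h.rf s (hs hs') z hz i j).hasDerivWithinAt
  have h2 := h1.dl hab h.op (fun l s hs' z hz => (h.sj i j l).df s (hs hs') z hz)
    (((SJ.ricci (uniqueDiffOn_Ico a T) h.op h.sj h.det_ne i j).cmul (uniqueDiffOn_Ico a T)
      h.op _).mono hs Subset.rfl) l t ⟨ht.1, hb'.le⟩ y hy
  refine h2.mono_of_mem_nhdsWithin ?_
  filter_upwards [self_mem_nhdsWithin, mem_nhdsWithin_of_mem_nhds (Iio_mem_nhds hb')] with s h3 h4
  exact ⟨h3.1, le_of_lt h4⟩

/-- uniform equivalence of the metrics -/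
theorem equiv (h : LimHyp G a T U) : ∃ A > 0, ∀ t ∈ Ico a T, ∀ y ∈ U, ∀ v : En n,
    bil (G t y) v v ≤ A * bil (G a y) v v ∧ bil (G a y) v v ≤ A * bil (G t y) v v := by
  obtain ⟨C, hC⟩ := h.shi 0
  refine ⟨Real.exp (2 * (n * √C) * (T - a)), Real.exp_pos _, fun t ht y hy v => ?_⟩
  by_cases hv : v = 0
  · simp [hv]
  refine equiv_of_deriv (q := fun s => bil (G s y) v v)
    (q' := fun s => -2 * ∑ i, ∑ j, ricci (G s) y i j * v i * v j) (by positivity)
    (fun s hs => ?_) (fun s hs => ?_) (fun s hs => ?_) ht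
  · have hv' : (WithLp.ofLp v : Fin n → ℝ) ≠ 0 := fun e => hv (by ext i; simpa using congrFun e i)
    have h1 := (h.pos s hs y hy).dotProduct_mulVec_pos hv'
    rw [bil_apply]
    refine h1.trans_eq ?_
    simp only [dotProduct, Matrix.mulVec, Pi.star_apply, star_trivial, Finset.mul_sum]
    exact Finset.sum_congr rfl fun i _ => Finset.sum_congr rfl fun j _ => by ring
  · simp only [bil_apply, Finset.mul_sum]
    refine HasDerivAt.fun_sum fun i _ => HasDerivAt.fun_sum fun j _ => ?_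
    exact (((h.rf s hs y hy i j).mul_const (v i)).mul_const (v j)).congr_deriv (by ring)
  · rw [abs_mul, mul_assoc 2, abs_neg, abs_two]
    exact mul_le_mul_of_nonneg_left (abs_ric_le (h.riem s hs) hy (hC s hs y hy) v) zero_le_two

theorem low (h : LimHyp G a T U) (h0 : IniBd G a U) :
    ∃ c > 0, ∀ t ∈ Ico a T, ∀ y ∈ U, ∀ v : En n, c * ‖v‖ ^ 2 ≤ bil (G t y) v v := by
  obtain ⟨A, hA, h1⟩ := h.equiv
  obtain ⟨c, hc, h2⟩ := h0.low
  refine ⟨c / A, by positivity, fun t ht y hy v => ?_⟩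
  rw [div_mul_eq_mul_div, div_le_iff₀ hA, mul_comm _ A]
  exact (h2 y hy v).trans (h1 t ht y hy v).2

theorem bd_G (h : LimHyp G a T U) (h0 : IniBd G a U) :
    ∃ Λ, ∀ t ∈ Ico a T, ∀ y ∈ U, ∀ i j, |G t y i j| ≤ Λ := by
  obtain ⟨A, hA, h1⟩ := h.equiv
  obtain ⟨Λ, h2⟩ := h0.up
  refine ⟨A * Λ, fun t ht y hy => abs_entry_le (h.riem t ht) hy fun v => ?_⟩
  rw [mul_assoc]
  exact (h1 t ht y hy v).1.trans (mul_le_mul_of_nonneg_left (h2 y hy v) hA.le)

theorem bd_inv (h : LimHyp G a T U) (h0 : IniBd G a U) (i j : Fin n) :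
    Bd (Ico a T) U fun t y => (G t y)⁻¹ i j := by
  obtain ⟨c, hc, h1⟩ := h.low h0
  exact ⟨n / c, fun t ht y hy => abs_inv_entry_le (h.riem t ht) hy hc (h1 t ht y hy) i j⟩

theorem bd_tw (h : LimHyp G a T U) (h0 : IniBd G a U) (j : ℕ) (J : Fin (4 + j) → Fin n) :
    Bd (Ico a T) U (tw G j J) := by
  obtain ⟨Λ, hΛ⟩ := h.bd_G h0
  obtain ⟨C, hC⟩ := h.shi j
  refine ⟨√(|C| * |Λ| ^ (4 + j)), fun t ht y hy => Real.abs_le_sqrt ?_⟩
  refine (comp_sq_le (h.riem t ht) hy _ J).trans ((le_abs_self _).trans ?_)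
  rw [abs_mul, Finset.abs_prod]
  have h1 : 0 ≤ nsq (G t) (covN (G t) (rmT (G t)) j) y := by
    obtain ⟨e, he⟩ := exists_frame (h.riem t ht) hy
    rw [nsq, ip, ipA_frame he.inv]
    exact Finset.sum_nonneg fun a _ => mul_self_nonneg _
  refine mul_le_mul ((abs_of_nonneg h1).trans_le ((hC t ht y hy).trans (le_abs_self _))) ?_
    (Finset.prod_nonneg fun _ _ => abs_nonneg _) (abs_nonneg _)
  refine (Finset.prod_le_prod (fun _ _ => abs_nonneg _) fun s _ =>
    (hΛ t ht y hy _ _).trans (le_abs_self Λ)).trans_eq (by simp)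

/-- the derivatives of order `k` -/
def jv (G : ℝ → MetricField n) (k : ℕ) (t : ℝ) (y : En n) :
    List.Vector (Fin n) k × Fin n × Fin n → ℝ :=
  fun q => dl (q.1.1.map eb) (fun t y => G t y q.2.1 q.2.2) t y

theorem gronwall (h : LimHyp G a T U) (h0 : IniBd G a U) (k : ℕ)
    (hK : ∀ i j, K eb (Ico a T) U (fun t y => 1 + ‖jv G k t y‖) k
      fun t y => -2 * ricci (G t) y i j) : Bd (Ico a T) U fun t y => 1 + ‖jv G k t y‖ := by
  obtain ⟨C, hC0, hC⟩ := exists_unif (ι := List.Vector (Fin n) k × Fin n × Fin n)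
    (P := fun p : ℝ × En n => p.1 ∈ Ico a T ∧ p.2 ∈ U)
    (f := fun q p => |dl (q.1.1.map eb) (fun t y => -2 * ricci (G t) y q.2.1 q.2.2) p.1 p.2|)
    (φ := fun p => 1 + ‖jv G k p.1 p.2‖) (fun _ _ => by positivity) fun q =>
      ((hK q.2.1 q.2.2).dl_le q.1.1 q.1.2).imp fun _ hC p hp => hC p.1 hp.1 p.2 hp.2
  obtain ⟨δ, hδ0, hδ⟩ := exists_unif (ι := List.Vector (Fin n) k × Fin n × Fin n)
    (P := fun y : En n => y ∈ U) (f := fun q y => |jv G k a y q|) (φ := fun _ => 1)
    (fun _ _ => zero_le_one) fun q =>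
      (h0.jets (q.1.1.map eb) q.2.1 q.2.2).imp fun _ hC y hy => by simpa [jv] using hC y hy
  refine ⟨1 + gronwallBound δ C C (T - a), fun t ht y hy => ?_⟩
  rw [abs_of_nonneg (by positivity)]
  have hs : Icc a t ⊆ Ico a T := Icc_subset_Ico_right ht.2
  have hd : ∀ s ∈ Ico a T, HasDerivWithinAt (fun s => jv G k s y)
      (fun q => dl (q.1.1.map eb) (fun t y => -2 * ricci (G t) y q.2.1 q.2.2) s y) (Ico a T) s :=
    fun s hs => hasDerivWithinAt_pi.2 fun q => h.ev q.2.1 q.2.2 _ s hs y hy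
  have h1 := norm_le_gronwallBound_of_norm_deriv_right_le (δ := δ) (K := C) (ε := C)
    (fun s hs' => ((hd s (hs hs')).continuousWithinAt).mono hs)
    (fun s hs' => (hd s (hs (Ico_subset_Icc_self hs'))).mono_of_mem_nhdsWithin
      (Ico_mem_nhdsGE_of_mem (hs (Ico_subset_Icc_self hs'))))
    ((pi_norm_le_iff_of_nonneg hδ0).2 fun q => by simpa using hδ q y hy)
    (fun s hs' => (pi_norm_le_iff_of_nonneg (by positivity)).2 fun q =>
      (hC q (s, y) ⟨hs (Ico_subset_Icc_self hs'), hy⟩).trans_eq (by ring)) t ⟨ht.1, le_rfl⟩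
  exact add_le_add le_rfl (h1.trans (gronwallBound_mono hδ0 hC0 hC0 (by linarith [ht.2])))

theorem step (h : LimHyp G a T U) (h0 : IniBd G a U) {k : ℕ} {φ : ℝ → En n → ℝ}
    (hφ : Ge (Ico a T) U φ) (hG : ∀ i j, K eb (Ico a T) U φ (k + 1) fun t y => G t y i j)
    (hT : ∀ j J, K eb (Ico a T) U one k (tw G j J)) :
    (∀ j J, K eb (Ico a T) U φ (k + 1) (tw G j J)) ∧
      ∀ i j, K eb (Ico a T) U φ (k + 1) fun t y => -2 * ricci (G t) y i j := by
  have hH := K.matInv h.op hφ hG h.det_ne (h.bd_inv h0)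
  have h1 := K.tw h.op hφ h.riem (K.chr h.op hφ hG hH) hT
  exact ⟨h1, K.ricci h.op hφ h.riem hH (h1 0)⟩

theorem all (h : LimHyp G a T U) (h0 : IniBd G a U) (k : ℕ) :
    (∀ i j, K eb (Ico a T) U one k fun t y => G t y i j) ∧
      ∀ j J, K eb (Ico a T) U one k (tw G j J) := by
  induction k with
  | zero =>
    obtain ⟨Λ, hΛ⟩ := h.bd_G h0
    exact ⟨fun i j => K.zero_one.2 ⟨Λ, fun t ht y hy => hΛ t ht y hy i j⟩,
      fun j J => K.zero_one.2 (h.bd_tw h0 j J)⟩
  | succ k ih =>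
    have hφ : Ge (Ico a T) U fun t y => 1 + ‖jv G (k + 1) t y‖ :=
      fun t _ y _ => le_add_of_nonneg_right (norm_nonneg _)
    have hG : ∀ i j, K eb (Ico a T) U (fun t y => 1 + ‖jv G (k + 1) t y‖) (k + 1)
        fun t y => G t y i j := fun i j => (ih.1 i j).top (fun l => (h.sj i j l).df)
      fun l hl t _ y _ => (norm_le_pi_norm (jv G (k + 1) t y) (⟨l, hl⟩, i, j)).trans
        (le_add_of_nonneg_left zero_le_one)
    obtain ⟨h1, h2⟩ := h.step h0 hφ hG ih.2
    have h3 := h.gronwall h0 (k + 1) h2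
    exact ⟨fun i j => (hG i j).of_bdd h3, fun j J => (h1 j J).of_bdd h3⟩

/-- **(LIM)** all jets are Lipschitz in time -/
theorem good (h : LimHyp G a T U) (h0 : IniBd G a U) (i j : Fin n) :
    Good eb (Ico a T) U fun t y => G t y i j := by
  intro l
  refine ⟨?_, (h.sj i j _).df⟩
  obtain ⟨C, hC⟩ := ((h.step h0 ge_one (h.all h0 (l.length + 1)).1
    (h.all h0 l.length).2).2 i j).drop.dl_le l rfl
  refine ⟨max C 0, le_max_right _ _, fun s hs t ht y hy => ?_⟩
  exact (convex_Ico a T).norm_image_sub_le_of_norm_hasDerivWithin_le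
    (fun r hr => h.ev i j (l.map eb) r hr y hy)
    (fun r hr => by
      have := hC r hr y hy
      simp only [one, mul_one] at this
      exact this.trans (le_max_left _ _)) hs ht

/-- the initial bounds hold near every point -/
theorem exists_iniBd (h : LimHyp G a T U) {y : En n} (hy : y ∈ U) :
    ∃ V, IsOpen V ∧ y ∈ V ∧ V ⊆ U ∧ IniBd G a V := by
  obtain ⟨ε, hε, hb⟩ := Metric.nhds_basis_closedBall.mem_iff.1 (h.op.mem_nhds hy)
  have ha : a ∈ Ico a T := ⟨le_rfl, h.lt⟩
  have hK := isCompact_closedBall y ε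
  have hc : ContinuousOn (fun p : En n × En n => bil (G a p.1) p.2 p.2)
      (Metric.closedBall y ε ×ˢ Metric.sphere 0 1) := by
    simp only [bil_apply]
    refine continuousOn_finset_sum _ fun i _ => continuousOn_finset_sum _ fun j _ => ?_
    exact ((((h.riem a ha).contDiffOn i j).continuousOn.comp continuousOn_fst
      fun p hp => hb hp.1).mul (by fun_prop)).mul (by fun_prop)
  have hsc : ∀ z (v : En n), v ≠ 0 → bil (G a z) v v =
      bil (G a z) (‖v‖⁻¹ • v) (‖v‖⁻¹ • v) * ‖v‖ ^ 2 := by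
    intro z v hv
    have hn : ‖v‖ ≠ 0 := norm_ne_zero_iff.2 hv
    simp only [map_smul, ContinuousLinearMap.smul_apply, smul_eq_mul]
    field_simp
  have hm : ∀ v : En n, v ≠ 0 → ‖v‖⁻¹ • v ∈ Metric.sphere (0 : En n) 1 := fun v hv => by
    simp [norm_smul, hv]
  refine ⟨Metric.ball y ε, Metric.isOpen_ball, Metric.mem_ball_self hε,
    Metric.ball_subset_closedBall.trans hb, fun l i j => ?_, ?_, ?_⟩
  · obtain ⟨C, hC⟩ := hK.exists_bound_of_continuousOn
      ((cont_slice' ((h.sj i j).dl l).cont ha).mono hb)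
    exact ⟨C, fun z hz => hC z (Metric.ball_subset_closedBall hz)⟩
  · obtain ⟨c, hc0, h1⟩ := (hK.prod (isCompact_sphere (0 : En n) 1)).exists_forall_le' hc
      (a := 0) fun p hp => by
        have hv : p.2 ≠ 0 := fun e => by simpa [e] using hp.2
        have hv' : (WithLp.ofLp p.2 : Fin n → ℝ) ≠ 0 :=
          fun e => hv (by ext i; simpa using congrFun e i)
        have h1 := (h.pos a ha p.1 (hb hp.1)).dotProduct_mulVec_pos hv'
        rw [bil_apply]
        refine h1.trans_eq ?_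
        simp only [dotProduct, Matrix.mulVec, Pi.star_apply, star_trivial, Finset.mul_sum]
        exact Finset.sum_congr rfl fun i _ => Finset.sum_congr rfl fun j _ => by ring
    refine ⟨c, hc0, fun z hz v => ?_⟩
    by_cases hv : v = 0
    · simp [hv]
    rw [hsc z v hv]
    exact mul_le_mul_of_nonneg_right
      (h1 (z, ‖v‖⁻¹ • v) ⟨Metric.ball_subset_closedBall hz, hm v hv⟩) (sq_nonneg _)
  · obtain ⟨C, hC⟩ := (hK.prod (isCompact_sphere (0 : En n) 1)).exists_bound_of_continuousOn hc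
    refine ⟨C, fun z hz v => ?_⟩
    by_cases hv : v = 0
    · simp [hv]
    rw [hsc z v hv]
    exact mul_le_mul_of_nonneg_right ((le_abs_self _).trans
      (hC (z, ‖v‖⁻¹ • v) ⟨Metric.ball_subset_closedBall hz, hm v hv⟩)) (sq_nonneg _)

/-- **(LIM)**, local form: jets continuous up to `T` and a uniform lower bound -/
theorem lim (h : LimHyp G a T U) {y : En n} (hy : y ∈ U) :
    ∃ V, IsOpen V ∧ y ∈ V ∧ V ⊆ U ∧
      (∀ i j, Lip (Ico a T) V fun t y => G t y i j) ∧
      (∀ i j, SJ 0 (Icc a T) V (bar T fun t y => G t y i j)) ∧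
      ∃ c > 0, ∀ t ∈ Ico a T, ∀ z ∈ V, ∀ v : En n, c * ‖v‖ ^ 2 ≤ bil (G t z) v v := by
  obtain ⟨V, hV, hyV, hs, h0⟩ := h.exists_iniBd hy
  have h1 := h.mono hV hs
  refine ⟨V, hV, hyV, hs, fun i j => (h1.good h0 i j).lip, fun i j => ?_, h1.low h0⟩
  refine Good.sj h.lt hV (EuclideanSpace.basisFun (Fin n) ℝ).toBasis ?_
  have e : ⇑(EuclideanSpace.basisFun (Fin n) ℝ).toBasis = eb := by
    funext i
    simp [eb]
  rw [e]
  exact h1.good h0 i j

end LimHyp

end Crest.Agent.N207.X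
end
end

-- ▼ part N207/X/Glue
section

/-! Row 207, block B (end).  (GLUE): a Ricci flow with bounded `∇ʲ Rm` has a smooth limit metric
at the final time, and a flow starting from the limit continues it smoothly. -/

set_option autoImplicit false
set_option linter.unusedSectionVars false
open Set Filter Topology
open scoped ContDiff Manifold
open Crest.GeometryTopology.CoordMetric Crest.GeometryTopology.ChartCurvature
  Crest.GeometryTopology.MetricFamily
open Crest.Agent.R202.Tens Crest.Agent.R247 Crest.Agent.N207.AI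

noncomputable section
namespace Crest.Agent.N207.X

variable {n : ℕ} {M : Type*} [TopologicalSpace M] [ChartedSpace (En n) M]
  [IsManifold 𝓘(ℝ, En n) ∞ M]

theorem rm_chart (m : Met n M) (x : M) {y : En n} (hy : y ∈ tg n x) (j : ℕ) :
    nsq (m.G x) (covN (m.G x) (rmT (m.G x)) j) y = m.rm j ((chartAt (En n) x).symm y) :=
  nsq_covN_rm_pull (m.pull_trans x _) (mem_tdom_self hy) j

variable {m : ℝ → Met n M} {a T : ℝ}

theorem limHyp (ha : a < T) (hsm : SmFam m (Ico a T)) (hrf : RFOn m (Ico a T))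
    (hshi : ∀ j, ∃ C, ∀ t ∈ Ico a T, ∀ x, (m t).rm j x ≤ C) (x : M) :
    LimHyp (fun t => (m t).G x) a T (tg n x) :=
  ⟨ha, (chartAt (En n) x).open_target, hsm x, fun t _ y hy => ((m t).isRiem x).posDef y hy,
    hrf x, fun j => (hshi j).imp fun _ hC t ht _ hy => (rm_chart (m t) x hy j).trans_le (hC t ht _)⟩

/-- the limit metric -/
theorem exists_limit (ha : a < T) (hsm : SmFam m (Ico a T)) (hrf : RFOn m (Ico a T))
    (hshi : ∀ j, ∃ C, ∀ t ∈ Ico a T, ∀ x, (m t).rm j x ≤ C) :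
    ∃ mT : Met n M, ∀ x, ∀ y ∈ tg n x, ∀ i j,
      mT.G x y i j = bar T (fun t y => (m t).G x y i j) T y := by
  have h := limHyp ha hsm hrf hshi
  have ht : ∀ x, ∀ y ∈ tg n x, ∀ i j, Tendsto (fun s => (m s).G x y i j) (𝓝[<] T)
      (𝓝 (bar T (fun t y => (m t).G x y i j) T y)) := by
    intro x y hy i j
    obtain ⟨V, -, hyV, -, h1, -⟩ := (h x).lim hy
    exact (h1 i j).tendsto ha hyV
  let S : CT n M 2 := fun x y I => bar T (fun t y => (m t).G x y (I 0) (I 1)) T y
  have hS : IsGlob S := by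
    refine ⟨fun x I => contDiffOn_of_locally_contDiffOn fun y hy => ?_, fun x₀ x₁ y hy => ?_⟩
    · obtain ⟨V, hV, hyV, -, -, h1, -⟩ := (h x).lim hy
      exact ⟨V, hV, hyV, ((h1 (I 0) (I 1)).slice hV ⟨ha.le, le_rfl⟩).mono inter_subset_right⟩
    · funext I
      refine tendsto_nhds_unique (ht x₀ y hy.1 (I 0) (I 1)) ?_
      have h2 : ∀ s, (m s).G x₀ y (I 0) (I 1) =
          pullT (Bo84.trans x₀ x₁) (matT ((m s).G x₁)) y I :=
        fun s => congrFun (matT_pull ((m s).pull_trans x₀ x₁) hy) I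
      simp only [h2, pullT, evT]
      exact tendsto_finset_sum _ fun J _ => Tendsto.const_mul _
        (ht x₁ _ (((m T).pull_trans x₀ x₁).maps y hy) (J 0) (J 1))
  refine ⟨Met.ofCT S hS fun x => posDef_of_bil (fun i j => ?_) fun v hv => ?_,
    fun x y hy i j => Met.ofCT_G S hS _ x hy i j⟩
  · refine tendsto_nhds_unique (ht x _ (mem_chart_target (En n) x) i j)
      ((ht x _ (mem_chart_target (En n) x) j i).congr fun s => ?_)
    simpa using (((m s).isRiem x).posDef _ (mem_chart_target (En n) x)).isHermitian.apply i j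
  · obtain ⟨V, -, hyV, -, -, -, c, hc, h1⟩ := (h x).lim (mem_chart_target (En n) x)
    have h2 : Tendsto (fun s => bil ((m s).G x (ctr n x)) v v) (𝓝[<] T)
        (𝓝 (bil (Matrix.of fun i j => S x (ctr n x) ![i, j]) v v)) := by
      simp only [bil_apply]
      exact tendsto_finset_sum _ fun i _ => tendsto_finset_sum _ fun j _ =>
        ((ht x _ (mem_chart_target (En n) x) i j).mul_const _).mul_const _
    have h3 : c * ‖v‖ ^ 2 ≤ bil (Matrix.of fun i j => S x (ctr n x) ![i, j]) v v := by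
      refine ge_of_tendsto h2 ?_
      filter_upwards [Ico_mem_nhdsLT ha] with s hs
      exact h1 s hs _ hyV v
    exact lt_of_lt_of_le (mul_pos hc (pow_pos (norm_pos_iff.2 hv) 2)) h3

/-- concatenation of two families -/
def cat (T : ℝ) (m m₂ : ℝ → Met n M) : ℝ → Met n M := fun t => if t < T then m t else m₂ (t - T)

variable {m₂ : ℝ → Met n M} {S : ℝ}

theorem cat_lt {t : ℝ} (ht : t < T) : cat T m m₂ t = m t := if_pos ht

theorem cat_ge {t : ℝ} (ht : T ≤ t) : cat T m m₂ t = m₂ (t - T) := if_neg (not_lt.2 ht)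

theorem cat_rf_lt {J : Set ℝ} (hrf : RFOn m J) (x : M) {t : ℝ} (ht : t ∈ J) (h : t < T) {y : En n}
    (hy : y ∈ tg n x) (i j : Fin n) : HasDerivAt (fun s => (cat T m m₂ s).G x y i j)
      (-2 * ricci ((cat T m m₂ t).G x) y i j) t := by
  rw [cat_lt h]
  refine (hrf x t ht y hy i j).congr_of_eventuallyEq ?_
  filter_upwards [Iio_mem_nhds h] with s hs
  rw [cat_lt hs]

theorem cat_rf_gt {J : Set ℝ} (hrf : RFOn m₂ J) (x : M) {t : ℝ} (ht : t - T ∈ J) (h : T < t)
    {y : En n} (hy : y ∈ tg n x) (i j : Fin n) : HasDerivAt (fun s => (cat T m m₂ s).G x y i j)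
      (-2 * ricci ((cat T m m₂ t).G x) y i j) t := by
  rw [cat_ge h.le]
  refine ((hrf x (t - T) ht y hy i j).comp_sub_const t T).congr_of_eventuallyEq ?_
  filter_upwards [Ioi_mem_nhds h] with s hs
  rw [cat_ge (le_of_lt hs)]

theorem cat_sm_ge (hsm : SmFam m₂ (Ico 0 S)) (x : M) (i j : Fin n) :
    ContDiffOn ℝ ∞ (fun p : ℝ × En n => (cat T m m₂ p.1).G x p.2 i j)
      (Ico T (T + S) ×ˢ tg n x) := by
  refine ((hsm x i j).comp (f := fun p : ℝ × En n => (p.1 - T, p.2)) (by fun_prop)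
    fun p hp => ⟨⟨sub_nonneg.2 hp.1.1, by linarith [hp.1.2]⟩, hp.2⟩).congr fun p hp => ?_
  rw [cat_ge hp.1.1]
  rfl

/-- smoothness and the equation across the time `T` -/
theorem cat_at (ha : a < T) (hsm : SmFam m (Ico a T)) (hrf : RFOn m (Ico a T))
    (hshi : ∀ j, ∃ C, ∀ t ∈ Ico a T, ∀ x, (m t).rm j x ≤ C) (hS : 0 < S)
    (hsm₂ : SmFam m₂ (Ico 0 S)) (hrf₂ : RFOn m₂ (Ioo 0 S))
    (h0 : ∀ x, ∀ y ∈ tg n x, ∀ i j,
      (m₂ 0).G x y i j = bar T (fun t y => (m t).G x y i j) T y)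
    (x : M) {y : En n} (hy : y ∈ tg n x) :
    ∃ V, IsOpen V ∧ y ∈ V ∧ ∀ i j,
      ContDiffOn ℝ ∞ (fun p : ℝ × En n => (cat T m m₂ p.1).G x p.2 i j)
        (Icc a (T + S / 2) ×ˢ V) ∧
      HasDerivAt (fun s => (cat T m m₂ s).G x y i j)
        (-2 * ricci ((cat T m m₂ T).G x) y i j) T := by
  obtain ⟨V, hV, hyV, hs, -, h1, -⟩ := (limHyp ha hsm hrf hshi x).lim hy
  have hb : T < T + S / 2 := by linarith
  have hab : a < T + S / 2 := ha.trans hb
  have hI := uniqueDiffOn_Icc hab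
  have h2 : ∀ i j, SJ 0 (Icc a (T + S / 2)) V fun t y => (cat T m m₂ t).G x y i j := by
    intro i j
    refine SJ.glue (c := T) ((h1 i j).congr hV fun t ht z hz => ?_)
      (SJ.of_contDiffOn (uniqueDiffOn_Icc hb) hV ((cat_sm_ge hsm₂ x i j).mono
        (prod_mono (Icc_subset_Ico_right (by linarith)) hs)))
    rcases ht.2.lt_or_eq with h | h
    · rw [cat_lt h, bar_of_lt h]
    · rw [h, cat_ge le_rfl, sub_self]
      exact h0 x z (hs hz) i j
  obtain ⟨h3, h4⟩ := js_of_closure hab hV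
    (u := fun t y (i j : Fin n) => (cat T m m₂ t).G x y i j)
    (Φ := fun t y (i j : Fin n) => -2 * ricci ((cat T m m₂ t).G x) y i j)
    (SJ.pi hI hV fun i => SJ.pi hI hV fun j => h2 i j)
    (fun N hN => SJ.pi hI hV fun i => SJ.pi hI hV fun j =>
      (SJ.ricci (G := fun t => (cat T m m₂ t).G x) hI hV
        (fun i j => (hN.clm hI hV (ContinuousLinearMap.proj i)).clm hI hV
          (ContinuousLinearMap.proj (R := ℝ) (φ := fun _ : Fin n => ℝ) j))
        (fun t _ z hz => (((cat T m m₂ t).isRiem x).posDef z (hs hz)).det_pos.ne') i j).cmul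
          hI hV _)
    (countable_singleton T) fun t ht z hz => hasDerivAt_pi.2 fun i => hasDerivAt_pi.2 fun j => by
      rcases lt_or_gt_of_ne (show t ≠ T from ht.2) with h | h
      · exact cat_rf_lt hrf x ⟨ht.1.1.le, h⟩ h (hs hz) i j
      · exact cat_rf_gt hrf₂ x ⟨sub_pos.2 h, by linarith [ht.1.2]⟩ h (hs hz) i j
  refine ⟨V, hV, hyV, fun i j => ⟨contDiffOn_pi.1 (contDiffOn_pi.1 h3 i) j, ?_⟩⟩
  exact hasDerivAt_pi.1 (hasDerivAt_pi.1
    ((h4 T ⟨ha.le, hb.le⟩ y hyV).hasDerivAt (Icc_mem_nhds ha hb)) i) j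

/-- **(GLUE)**, any dimension -/
theorem exists_extension (ha0 : 0 < a) (ha : a < T) (hsm : SmFam m (Ico 0 T))
    (hrf : RFOn m (Ioo 0 T)) (hshi : ∀ j, ∃ C, ∀ t ∈ Ico a T, ∀ x, (m t).rm j x ≤ C)
    (ste : ∀ m₀ : Met n M, ∃ S > 0, ∃ m₂ : ℝ → Met n M,
      SmFam m₂ (Ico 0 S) ∧ RFOn m₂ (Ioo 0 S) ∧ m₂ 0 = m₀) :
    ∃ S > 0, ∃ m' : ℝ → Met n M, SmFam m' (Ico 0 (T + S)) ∧ RFOn m' (Ioo 0 (T + S)) ∧
      ∀ t < T, m' t = m t := by
  have hsm' : SmFam m (Ico a T) := fun x i j =>
    (hsm x i j).mono (prod_mono (Ico_subset_Ico_left ha0.le) Subset.rfl)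
  have hrf' : RFOn m (Ico a T) := fun x t ht => hrf x t ⟨ha0.trans_le ht.1, ht.2⟩
  obtain ⟨mT, hmT⟩ := exists_limit ha hsm' hrf' hshi
  obtain ⟨S, hS, m₂, hsm₂, hrf₂, h0⟩ := ste mT
  have h1 := fun x y hy => cat_at ha hsm' hrf' hshi hS hsm₂ hrf₂ (h0 ▸ hmT) x (y := y) hy
  refine ⟨S, hS, cat T m m₂, fun x i j => contDiffOn_of_locally_contDiffOn fun p hp => ?_,
    fun x t ht y hy i j => ?_, fun t ht => cat_lt ht⟩
  · rcases lt_trichotomy p.1 T with h | h | h
    · refine ⟨Iio T ×ˢ univ, isOpen_Iio.prod isOpen_univ, ⟨h, mem_univ _⟩,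
        ((hsm x i j).mono fun q hq => ⟨⟨hq.1.1.1, hq.2.1⟩, hq.1.2⟩).congr fun q hq => ?_⟩
      rw [cat_lt hq.2.1]
    · obtain ⟨V, hV, hyV, h2⟩ := h1 x p.2 hp.2
      exact ⟨Ioo a (T + S / 2) ×ˢ V, isOpen_Ioo.prod hV, ⟨⟨h ▸ ha, by rw [h]; linarith⟩, hyV⟩,
        (h2 i j).1.mono fun q hq => ⟨Ioo_subset_Icc_self hq.2.1, hq.2.2⟩⟩
    · exact ⟨Ioi T ×ˢ univ, isOpen_Ioi.prod isOpen_univ, ⟨h, mem_univ _⟩,
        (cat_sm_ge hsm₂ x i j).mono fun q hq => ⟨⟨le_of_lt hq.2.1, hq.1.1.2⟩, hq.1.2⟩⟩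
  · rcases lt_trichotomy t T with h | h | h
    · exact cat_rf_lt hrf x ⟨ht.1, h⟩ h hy i j
    · obtain ⟨V, -, -, h2⟩ := h1 x y hy
      rw [h]
      exact (h2 i j).2
    · exact cat_rf_gt hrf₂ x ⟨sub_pos.2 h, by linarith [ht.2]⟩ h hy i j

end Crest.Agent.N207.X

namespace Crest.Agent.N207

variable {M : Type*} [TopologicalSpace M] [ChartedSpace E4 M] [IsManifold 𝓘(ℝ, E4) ∞ M]

/-- **extension of a flow** from Shi's bounds near `T` and short time existence -/
theorem Flow.extends_of_shi (F : Flow M)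
    (hshi : ∀ j, ∃ C, ∀ t ∈ Ico (F.T / 2) F.T, ∀ x, (F.m t).rm j x ≤ C)
    (ste : ∀ m₀ : Met 4 M, ∃ F' : Flow M, F'.m 0 = m₀) : F.Extends := by
  obtain ⟨S, hS, m', h1, h2, h3⟩ := X.exists_extension (half_pos F.hT) (half_lt_self F.hT)
    F.sm F.rf hshi fun m₀ => by
      obtain ⟨F', h⟩ := ste m₀
      exact ⟨F'.T, F'.hT, F'.m, F'.sm, F'.rf, h⟩
  exact ⟨⟨F.T + S, by linarith [F.hT], m', h1, h2⟩, by simpa using hS, fun t ht => h3 t ht.2⟩

end Crest.Agent.N207
end
end

-- ▼ part R080/SeeleyCoeff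
section

/-!
Row 80: the coefficients of Seeley's extension operator.
-/

set_option autoImplicit false

open Filter Finset
open scoped Topology

noncomputable section
namespace Crest.Agent.R080.Seeley

/-- factors -/
def rr (j k : ℕ) : ℝ := (1 + 2 ^ j) / (2 ^ j - 2 ^ k)

def AA (k : ℕ) : ℝ := ∏ j ∈ range k, rr j k
def BB (N k : ℕ) : ℝ := ∏ j ∈ Ioc k N, rr j k
def bnd (k : ℕ) : ℝ := ∏ j ∈ range k, (4 * 2 ^ j / 2 ^ k : ℝ)

def cN (N k : ℕ) : ℝ := if k ≤ N then AA k * BB N k else 0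
def cc (k : ℕ) : ℝ := AA k * ⨆ N, BB N k

lemma abs_rr_le {j k : ℕ} (h : j < k) : |rr j k| ≤ 4 * 2 ^ j / 2 ^ k := by
  have h1 : (2 : ℝ) ^ k ≥ 2 * 2 ^ j := by
    calc (2 : ℝ) ^ k ≥ 2 ^ (j + 1) := pow_le_pow_right₀ (by norm_num) h
      _ = 2 * 2 ^ j := by ring
  have hj : (1 : ℝ) ≤ 2 ^ j := one_le_pow₀ (by norm_num)
  have hk : (0 : ℝ) < 2 ^ k := by positivity
  have hneg : (2 : ℝ) ^ j - 2 ^ k < 0 := by linarith
  unfold rr
  rw [abs_div, abs_of_pos (by linarith : (0 : ℝ) < 1 + 2 ^ j), abs_of_neg hneg,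
    div_le_div_iff₀ (by linarith) hk]
  nlinarith

lemma one_le_rr {j k : ℕ} (h : k < j) : 1 ≤ rr j k := by
  have h1 : (2 : ℝ) ^ j ≥ 2 * 2 ^ k := by
    calc (2 : ℝ) ^ j ≥ 2 ^ (k + 1) := pow_le_pow_right₀ (by norm_num) h
      _ = 2 * 2 ^ k := by ring
  have hk : (0 : ℝ) < 2 ^ k := by positivity
  unfold rr
  rw [le_div_iff₀ (by linarith)]
  linarith

lemma rr_le {j k : ℕ} (h : k < j) : rr j k ≤ Real.exp (4 * 2 ^ k / 2 ^ j) := by
  have h1 : (2 : ℝ) ^ j ≥ 2 * 2 ^ k := by
    calc (2 : ℝ) ^ j ≥ 2 ^ (k + 1) := pow_le_pow_right₀ (by norm_num) h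
      _ = 2 * 2 ^ k := by ring
  have hk : (1 : ℝ) ≤ 2 ^ k := one_le_pow₀ (by norm_num)
  have hj : (0 : ℝ) < 2 ^ j := by positivity
  refine le_trans ?_ (Real.add_one_le_exp _)
  unfold rr
  rw [div_le_iff₀ (by linarith)]
  have : (4 * 2 ^ k / 2 ^ j + 1 : ℝ) * (2 ^ j - 2 ^ k)
      = (4 * 2 ^ k + 2 ^ j) * (2 ^ j - 2 ^ k) / 2 ^ j := by
    field_simp
  rw [this, le_div_iff₀ hj]
  nlinarith

lemma bnd_nonneg (k : ℕ) : 0 ≤ bnd k := prod_nonneg fun _ _ => by positivity

lemma bnd_pos (k : ℕ) : 0 < bnd k := prod_pos fun _ _ => by positivity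

lemma bnd_succ (k : ℕ) : bnd (k + 1) = 2 * (1 / 2) ^ k * bnd k := by
  unfold bnd
  rw [prod_range_succ]
  have : ∀ j ∈ range k, (4 * 2 ^ j / 2 ^ (k + 1) : ℝ) = (1 / 2) * (4 * 2 ^ j / 2 ^ k) := by
    intro j _
    rw [pow_succ]; field_simp
  rw [prod_congr rfl this, prod_mul_distrib, prod_const, card_range]
  have h2 : (4 * 2 ^ k / 2 ^ (k + 1) : ℝ) = 2 := by
    rw [pow_succ]; field_simp; norm_num
  rw [h2]; ring

lemma abs_AA_le (k : ℕ) : |AA k| ≤ bnd k := by
  unfold AA bnd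
  rw [abs_prod]
  exact prod_le_prod (fun _ _ => abs_nonneg _) fun j hj => abs_rr_le (mem_range.1 hj)

lemma BB_pos (N k : ℕ) : 0 < BB N k :=
  prod_pos fun _ hj => lt_of_lt_of_le one_pos (one_le_rr (mem_Ioc.1 hj).1)

lemma BB_mono (k : ℕ) : Monotone fun N => BB N k := by
  refine monotone_nat_of_le_succ fun N => ?_
  rcases lt_or_ge N k with h | h
  · have h1 : Ioc k (N + 1) = ∅ := Ioc_eq_empty (by omega)
    have h2 : Ioc k N = ∅ := Ioc_eq_empty (by omega)
    simp [BB, h1, h2]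
  · have : Ioc k (N + 1) = insert (N + 1) (Ioc k N) := by
      ext x; simp only [mem_Ioc, mem_insert]; omega
    have hn : (N + 1) ∉ Ioc k N := by simp
    show BB N k ≤ BB (N + 1) k
    unfold BB
    rw [this, prod_insert hn]
    exact le_mul_of_one_le_left (BB_pos N k).le (one_le_rr (by omega))

lemma BB_le (N k : ℕ) : BB N k ≤ Real.exp 4 := by
  unfold BB
  calc ∏ j ∈ Ioc k N, rr j k ≤ ∏ j ∈ Ioc k N, Real.exp (4 * 2 ^ k / 2 ^ j) :=
        prod_le_prod (fun j hj => le_trans zero_le_one (one_le_rr (mem_Ioc.1 hj).1))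
          fun j hj => rr_le (mem_Ioc.1 hj).1
    _ = Real.exp (∑ j ∈ Ioc k N, 4 * 2 ^ k / 2 ^ j) := by rw [Real.exp_sum]
    _ ≤ Real.exp 4 := by
        apply Real.exp_le_exp.2
        have key : ∀ M, ∑ j ∈ Ioc k (k + M), (4 * 2 ^ k / 2 ^ j : ℝ) = 4 * (1 - (1 / 2) ^ M) := by
          intro M
          induction M with
          | zero => simp
          | succ M ih =>
            have : Ioc k (k + (M + 1)) = insert (k + (M + 1)) (Ioc k (k + M)) := by
              ext x; simp only [mem_Ioc, mem_insert]; omega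
            rw [this, sum_insert (by simp), ih, pow_add, pow_succ, one_div_pow, one_div_pow]
            field_simp
            ring
        rcases le_or_gt k N with h | h
        · obtain ⟨M, rfl⟩ := Nat.exists_eq_add_of_le h
          rw [key]
          have : (0 : ℝ) < (1 / 2) ^ M := by positivity
          linarith
        · rw [Ioc_eq_empty (by omega)]; simp

lemma BB_tendsto (k : ℕ) : Tendsto (fun N => BB N k) atTop (𝓝 (⨆ N, BB N k)) :=
  tendsto_atTop_ciSup (BB_mono k) ⟨Real.exp 4, by rintro _ ⟨N, rfl⟩; exact BB_le N k⟩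

lemma abs_cN_le (N k : ℕ) : |cN N k| ≤ Real.exp 4 * bnd k := by
  unfold cN
  split_ifs
  · rw [abs_mul, abs_of_pos (BB_pos N k), mul_comm]
    exact mul_le_mul (BB_le N k) (abs_AA_le k) (abs_nonneg _) (Real.exp_pos _).le
  · rw [abs_zero]
    exact mul_nonneg (Real.exp_pos _).le (bnd_nonneg k)

lemma cN_tendsto (k : ℕ) : Tendsto (fun N => cN N k) atTop (𝓝 (cc k)) := by
  have h : Tendsto (fun N => AA k * BB N k) atTop (𝓝 (cc k)) := (BB_tendsto k).const_mul _
  refine h.congr' ?_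
  filter_upwards [eventually_ge_atTop k] with N hN
  simp [cN, hN]

lemma abs_cc_le (k : ℕ) : |cc k| ≤ Real.exp 4 * bnd k :=
  le_of_tendsto (cN_tendsto k).abs (Eventually.of_forall fun N => abs_cN_le N k)

lemma summable_bnd (n : ℕ) : Summable fun k => bnd k * ((2 : ℝ) ^ k) ^ n := by
  refine summable_of_ratio_test_tendsto_lt_one (l := 0) zero_lt_one
    (Eventually.of_forall fun k => ?_) ?_
  · have := bnd_pos k
    positivity
  · have h : (fun k : ℕ => ‖bnd (k + 1) * ((2 : ℝ) ^ (k + 1)) ^ n‖ / ‖bnd k * ((2 : ℝ) ^ k) ^ n‖)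
        = fun k => (2 * 2 ^ n) * (1 / 2 : ℝ) ^ k := by
      funext k
      have := bnd_pos k
      rw [Real.norm_of_nonneg (by have := bnd_pos (k + 1); positivity),
        Real.norm_of_nonneg (by positivity), bnd_succ, pow_succ, mul_pow]
      field_simp
    rw [h]
    simpa using (tendsto_pow_atTop_nhds_zero_of_lt_one (by norm_num : (0 : ℝ) ≤ 1 / 2)
      (by norm_num)).const_mul (2 * 2 ^ n)

lemma cN_moment {N n : ℕ} (h : n ≤ N) :
    ∑ k ∈ range (N + 1), cN N k * (-(2 : ℝ) ^ k) ^ n = 1 := by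
  classical
  set v : ℕ → ℝ := fun k => -(2 : ℝ) ^ k with hv
  have hinj : Set.InjOn v (range (N + 1) : Finset ℕ) := by
    intro a _ b _ hab
    have : (2 : ℝ) ^ a = 2 ^ b := by simpa [hv] using hab
    exact pow_right_injective₀ (by norm_num) (by norm_num) this
  have hdeg : (Polynomial.X ^ n : Polynomial ℝ).degree < #(range (N + 1)) := by
    rw [Polynomial.degree_X_pow, card_range]
    exact_mod_cast Nat.lt_succ_of_le h
  have h1 := Lagrange.eq_interpolate hinj hdeg
  have h2 := congrArg (Polynomial.eval 1) h1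
  rw [Lagrange.interpolate_apply, Polynomial.eval_finsetSum] at h2
  simp only [Polynomial.eval_pow, Polynomial.eval_X, one_pow, Polynomial.eval_mul,
    Polynomial.eval_C] at h2
  rw [h2]
  refine sum_congr rfl fun k hk => ?_
  have hk' : k ≤ N := Nat.lt_succ_iff.1 (mem_range.1 hk)
  have hsplit : (range (N + 1)).erase k = (range k) ∪ (Ioc k N) := by
    ext x; simp only [mem_erase, mem_range, mem_union, mem_Ioc]; omega
  have hdisj : Disjoint (range k) (Ioc k N) := by
    rw [disjoint_left]; intro x hx hx'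
    simp only [mem_range, mem_Ioc] at hx hx'; omega
  have hb : Polynomial.eval 1 (Lagrange.basis (range (N + 1)) v k) = cN N k := by
    unfold Lagrange.basis
    rw [Polynomial.eval_prod, hsplit, prod_union hdisj, cN, if_pos hk', AA, BB]
    have hr : ∀ j, j ≠ k → Polynomial.eval 1 (Lagrange.basisDivisor (v k) (v j)) = rr j k := by
      intro j hj
      simp only [Lagrange.basisDivisor, Polynomial.eval_mul, Polynomial.eval_C,
        Polynomial.eval_sub, Polynomial.eval_X, hv, rr]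
      rw [div_eq_mul_inv, mul_comm]
      congr 1
      · ring
      · congr 1; ring
    congr 1
    · refine prod_congr rfl fun j hj => hr j ?_
      have := mem_range.1 hj; omega
    · refine prod_congr rfl fun j hj => hr j ?_
      have := (mem_Ioc.1 hj).1; omega
  rw [hb]; ring

lemma cc_moment (n : ℕ) : ∑' k, cc k * (-(2 : ℝ) ^ k) ^ n = 1 := by
  have hb : Summable fun k => Real.exp 4 * (bnd k * ((2 : ℝ) ^ k) ^ n) :=
    (summable_bnd n).mul_left _
  have ht : Tendsto (fun N => ∑' k, cN N k * (-(2 : ℝ) ^ k) ^ n) atTop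
      (𝓝 (∑' k, cc k * (-(2 : ℝ) ^ k) ^ n)) := by
    refine tendsto_tsum_of_dominated_convergence hb
      (fun k => (cN_tendsto k).mul_const _) (Eventually.of_forall fun N k => ?_)
    rw [norm_mul, Real.norm_eq_abs, norm_pow, norm_neg, Real.norm_of_nonneg (by positivity),
      ← mul_assoc]
    exact mul_le_mul_of_nonneg_right (abs_cN_le N k) (by positivity)
  refine tendsto_nhds_unique ht (tendsto_const_nhds.congr' ?_)
  filter_upwards [eventually_ge_atTop n] with N hN
  rw [tsum_eq_sum (s := range (N + 1)), cN_moment hN]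
  intro k hk
  have : ¬ k ≤ N := fun h => hk (mem_range.2 (Nat.lt_succ_of_le h))
  simp [cN, this]

lemma cc_summable (n : ℕ) : Summable fun k => |cc k| * ((2 : ℝ) ^ k) ^ n := by
  refine Summable.of_nonneg_of_le (fun k => by positivity) (fun k => ?_)
    ((summable_bnd n).mul_left (Real.exp 4))
  rw [← mul_assoc]
  exact mul_le_mul_of_nonneg_right (abs_cc_le k) (by positivity)

end Crest.Agent.R080.Seeley
end
end

-- ▼ part R080/Seeley
section

/-!
Row 80: Seeley's extension theorem for a half-space.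
-/

set_option autoImplicit false

open Filter Finset
open scoped Topology ContDiff

noncomputable section
namespace Crest.Agent.R080.Seeley

variable {V F : Type*} [NormedAddCommGroup V] [NormedSpace ℝ V]
  [NormedAddCommGroup F] [NormedSpace ℝ F]

/-- the reflection `x ↦ x - (1 + 2^k) ℓ(x) e` -/
def Ak (l : V →L[ℝ] ℝ) (e : V) (k : ℕ) : V →L[ℝ] V :=
  ContinuousLinearMap.id ℝ V - (1 + (2 : ℝ) ^ k) • l.smulRight e

lemma Ak_apply (l : V →L[ℝ] ℝ) (e : V) (k : ℕ) (x : V) :
    Ak l e k x = (x - l x • e) + (-(2 : ℝ) ^ k) • (l x • e) := by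
  have h : Ak l e k x = x - (1 + (2 : ℝ) ^ k) • (l x • e) := rfl
  rw [h, add_smul, neg_smul, one_smul]
  abel

lemma l_Ak {l : V →L[ℝ] ℝ} {e : V} (he : l e = 1) (k : ℕ) (x : V) :
    l (Ak l e k x) = -(2 : ℝ) ^ k * l x := by
  rw [Ak_apply]; simp [he]

lemma norm_Ak_le (l : V →L[ℝ] ℝ) (e : V) (k : ℕ) :
    ‖Ak l e k‖ ≤ (1 + 2 * (‖l‖ * ‖e‖)) * 2 ^ k := by
  have h1 : (1 : ℝ) ≤ 2 ^ k := one_le_pow₀ (by norm_num)
  have h2 : ‖ContinuousLinearMap.id ℝ V‖ ≤ 1 := ContinuousLinearMap.norm_id_le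
  have h3 : ‖(1 + (2 : ℝ) ^ k) • l.smulRight e‖ ≤ (2 * 2 ^ k) * (‖l‖ * ‖e‖) := by
    rw [norm_smul, ContinuousLinearMap.norm_smulRight_apply, Real.norm_of_nonneg (by positivity)]
    refine mul_le_mul_of_nonneg_right (by linarith) (by positivity)
  calc ‖Ak l e k‖ ≤ ‖ContinuousLinearMap.id ℝ V‖ + ‖(1 + (2 : ℝ) ^ k) • l.smulRight e‖ :=
        norm_sub_le _ _
    _ ≤ 1 + (2 * 2 ^ k) * (‖l‖ * ‖e‖) := add_le_add h2 h3
    _ ≤ (1 + 2 * (‖l‖ * ‖e‖)) * 2 ^ k := by nlinarith [mul_nonneg (norm_nonneg l) (norm_nonneg e)]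

/-- the moment conditions give invariance of multilinear maps -/
lemma tsum_comp_Ak (l : V →L[ℝ] ℝ) (e : V) (n : ℕ) (q : V [×n]→L[ℝ] F) (v : Fin n → V) :
    ∑' k, cc k • q (fun i => Ak l e k (v i)) = q v := by
  classical
  set a : Fin n → V := fun i => v i - l (v i) • e with ha
  set b : Fin n → V := fun i => l (v i) • e with hb
  have hexp : ∀ τ : ℝ, q (fun i => a i + τ • b i)
      = ∑ s : Finset (Fin n), τ ^ (#sᶜ) • q (s.piecewise a b) := by
    intro τ
    have h1 : (fun i => a i + τ • b i) = a + fun i => τ • b i := rfl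
    rw [h1]
    have h2 := q.toMultilinearMap.map_add_univ a (fun i => τ • b i)
    simp only [ContinuousMultilinearMap.coe_coe] at h2
    rw [h2]
    refine sum_congr rfl fun s _ => ?_
    have h3 : s.piecewise a (fun i => τ • b i)
        = sᶜ.piecewise (fun i => τ • (s.piecewise a b) i) (s.piecewise a b) := by
      funext i
      by_cases hi : i ∈ s <;> simp [hi]
    have h4 := q.toMultilinearMap.map_piecewise_smul (fun _ => τ) (s.piecewise a b) sᶜ
    simp only [ContinuousMultilinearMap.coe_coe] at h4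
    rw [h3, h4, prod_const]
  have h5 : ∀ k, cc k • q (fun i => Ak l e k (v i))
      = ∑ s : Finset (Fin n), (cc k * (-(2 : ℝ) ^ k) ^ (#sᶜ)) • q (s.piecewise a b) := by
    intro k
    have : (fun i => Ak l e k (v i)) = fun i => a i + (-(2 : ℝ) ^ k) • b i := by
      funext i; rw [Ak_apply]
    rw [this, hexp, smul_sum]
    exact sum_congr rfl fun s _ => by rw [smul_smul]
  have hs : ∀ j, Summable fun k => cc k * (-(2 : ℝ) ^ k) ^ j := by
    intro j
    refine Summable.of_norm_bounded (cc_summable j) fun k => ?_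
    rw [norm_mul, norm_pow, norm_neg, Real.norm_of_nonneg (by positivity : (0 : ℝ) ≤ 2 ^ k),
      Real.norm_eq_abs]
  have h6 : ∑' k, cc k • q (fun i => Ak l e k (v i)) = ∑ s : Finset (Fin n), q (s.piecewise a b) := by
    have h7 : ∀ s : Finset (Fin n), HasSum
        (fun k => (cc k * (-(2 : ℝ) ^ k) ^ (#sᶜ)) • q (s.piecewise a b)) (q (s.piecewise a b)) := by
      intro s
      have := (hs (#sᶜ)).hasSum
      rw [cc_moment] at this
      simpa using this.smul_const (q (s.piecewise a b))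
    have h8 := hasSum_sum (s := (univ : Finset (Finset (Fin n)))) fun s _ => h7 s
    rw [← h8.tsum_eq]
    exact tsum_congr h5
  rw [h6]
  have h9 := hexp 1
  simp only [one_pow, one_smul] at h9
  rw [← h9]
  congr 1
  funext i
  simp [ha, hb]

/-! ### the extended Taylor series -/

variable [CompleteSpace F]

/-- extended Taylor series -/
def PP (l : V →L[ℝ] ℝ) (e : V) (p : V → FormalMultilinearSeries ℝ V F) (x : V) :
    FormalMultilinearSeries ℝ V F :=
  fun n => if l x ≤ 0 then p x n else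
    ∑' k, cc k • (p (Ak l e k x) n).compContinuousLinearMap (fun _ => Ak l e k)

/-- extended function -/
def FF (l : V →L[ℝ] ℝ) (e : V) (f : V → F) (x : V) : F :=
  if l x ≤ 0 then f x else ∑' k, cc k • f (Ak l e k x)

section
variable {l : V →L[ℝ] ℝ} {e : V} {p : V → FormalMultilinearSeries ℝ V F} {f : V → F}

omit [CompleteSpace F] in
lemma term_bound (he : l e = 1) {n : ℕ} {C : ℝ} (hC : ∀ x, l x ≤ 0 → ‖p x n‖ ≤ C) (k : ℕ) {x : V}
    (hx : 0 ≤ l x) :
    ‖cc k • (p (Ak l e k x) n).compContinuousLinearMap (fun _ => Ak l e k)‖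
      ≤ C * (1 + 2 * (‖l‖ * ‖e‖)) ^ n * (|cc k| * ((2 : ℝ) ^ k) ^ n) := by
  have h0 : l (Ak l e k x) ≤ 0 := by
    rw [l_Ak he]; have : (0 : ℝ) < 2 ^ k := by positivity
    nlinarith
  have h1 := ContinuousMultilinearMap.norm_compContinuousLinearMap_le (p (Ak l e k x) n)
    (fun _ => Ak l e k)
  rw [prod_const, card_univ, Fintype.card_fin] at h1
  have h2 : ‖Ak l e k‖ ^ n ≤ ((1 + 2 * (‖l‖ * ‖e‖)) * 2 ^ k) ^ n :=
    pow_le_pow_left₀ (norm_nonneg _) (norm_Ak_le l e k) n
  have hC0 : 0 ≤ C := (norm_nonneg _).trans (hC _ h0)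
  rw [norm_smul, Real.norm_eq_abs]
  calc |cc k| * ‖(p (Ak l e k x) n).compContinuousLinearMap (fun _ => Ak l e k)‖
      ≤ |cc k| * (C * ((1 + 2 * (‖l‖ * ‖e‖)) * 2 ^ k) ^ n) := by
        refine mul_le_mul_of_nonneg_left (h1.trans ?_) (abs_nonneg _)
        exact mul_le_mul (hC _ h0) h2 (by positivity) hC0
    _ = _ := by rw [mul_pow]; ring

lemma summable_bound (l : V →L[ℝ] ℝ) (e : V) (C : ℝ) (n : ℕ) :
    Summable fun k => C * (1 + 2 * (‖l‖ * ‖e‖)) ^ n * (|cc k| * ((2 : ℝ) ^ k) ^ n) :=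
  (cc_summable n).mul_left _

lemma hasFDerivAt_pos (he : l e = 1) (hp : HasFTaylorSeriesUpToOn ∞ f p {x | l x ≤ 0})
    (hb : ∀ n, ∃ C, ∀ x, l x ≤ 0 → ‖p x n‖ ≤ C) (n : ℕ) {x : V} (hx : 0 < l x) :
    HasFDerivAt (fun y => PP l e p y n) (PP l e p x (n + 1)).curryLeft x := by
  obtain ⟨C, hC⟩ := hb n
  obtain ⟨C', hC'⟩ := hb (n + 1)
  have hopen : IsOpen {x : V | 0 < l x} := isOpen_lt continuous_const l.continuous
  have hconv : Convex ℝ {x : V | 0 < l x} := by
    exact (convex_Ioi (0 : ℝ)).is_linear_preimage l.toLinearMap.isLinear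
  have key := hasFDerivAt_tsum_of_isPreconnected (𝕜 := ℝ) (s := {x : V | 0 < l x})
    (f := fun k y => cc k • (p (Ak l e k y) n).compContinuousLinearMap (fun _ => Ak l e k))
    (f' := fun k y => (cc k • (p (Ak l e k y) (n + 1)).compContinuousLinearMap
      (fun _ => Ak l e k)).curryLeft)
    (x₀ := x) (x := x) (summable_bound l e C' (n + 1)) hopen hconv.isPreconnected ?_ ?_ hx ?_ hx
  · have h1 : (fun y => PP l e p y n) =ᶠ[𝓝 x] fun y =>
        ∑' k, cc k • (p (Ak l e k y) n).compContinuousLinearMap (fun _ => Ak l e k) := by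
      filter_upwards [hopen.mem_nhds hx] with y hy
      simp only [PP, not_le.2 (show 0 < l y from hy), if_false]
    refine (key.congr_of_eventuallyEq h1).congr_fderiv ?_
    have h2 : PP l e p x (n + 1)
        = ∑' k, cc k • (p (Ak l e k x) (n + 1)).compContinuousLinearMap (fun _ => Ak l e k) := by
      simp only [PP, not_le.2 hx, if_false]
    rw [h2]
    have hs : Summable fun k =>
        cc k • (p (Ak l e k x) (n + 1)).compContinuousLinearMap (fun _ => Ak l e k) :=
      Summable.of_norm_bounded (summable_bound l e C' (n + 1)) fun k =>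
        term_bound he hC' k hx.le
    have h3 := ((continuousMultilinearCurryLeftEquiv ℝ (fun _ : Fin (n + 1) => V) F
      ).toContinuousLinearEquiv.toContinuousLinearMap).map_tsum hs
    exact h3.symm
  · intro k y hy
    have h1 := (hp.compContinuousLinearMap (Ak l e k)).fderivWithin n (by exact_mod_cast
      (WithTop.coe_lt_coe.2 (WithTop.coe_lt_top n))) y (by
        show l (Ak l e k y) ≤ 0
        rw [l_Ak he]; have : (0 : ℝ) < 2 ^ k := by positivity
        have hy' : 0 < l y := hy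
        nlinarith)
    have h2 : (Ak l e k) ⁻¹' {x | l x ≤ 0} ∈ 𝓝 y := by
      filter_upwards [hopen.mem_nhds hy] with z hz
      show l (Ak l e k z) ≤ 0
      rw [l_Ak he]; have : (0 : ℝ) < 2 ^ k := by positivity
      have hy' : 0 < l z := hz
      nlinarith
    exact (h1.hasFDerivAt h2).const_smul (cc k)
  · intro k y hy
    rw [ContinuousMultilinearMap.curryLeft_norm]
    exact term_bound he hC' k (le_of_lt hy)
  · exact Summable.of_norm_bounded (summable_bound l e C n) fun k => term_bound he hC k hx.le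

lemma tendsto_bdry (he : l e = 1) (hp : HasFTaylorSeriesUpToOn ∞ f p {x | l x ≤ 0})
    (hb : ∀ n, ∃ C, ∀ x, l x ≤ 0 → ‖p x n‖ ≤ C) (n : ℕ) {x : V} (hx : l x = 0) :
    Tendsto (fun y => PP l e p y n) (𝓝[{y | 0 < l y}] x) (𝓝 (p x n)) := by
  obtain ⟨C, hC⟩ := hb n
  have hAx : ∀ k, Ak l e k x = x := fun k => by rw [Ak_apply, hx]; simp
  have h1 : Tendsto (fun y => ∑' k, cc k • (p (Ak l e k y) n).compContinuousLinearMap
      (fun _ => Ak l e k)) (𝓝[{y | 0 < l y}] x)
      (𝓝 (∑' k, cc k • (p x n).compContinuousLinearMap (fun _ => Ak l e k))) := by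
    refine tendsto_tsum_of_dominated_convergence (summable_bound l e C n) (fun k => ?_) ?_
    · have h2 : Tendsto (fun y => p (Ak l e k y) n) (𝓝[{y | 0 < l y}] x) (𝓝 (p x n)) := by
        have h3 : ContinuousWithinAt (fun y => p y n) {x | l x ≤ 0} x :=
          hp.cont n (by exact_mod_cast le_top) x (by simp [hx])
        have h4 : Tendsto (fun y => Ak l e k y) (𝓝[{y | 0 < l y}] x)
            (𝓝[{x | l x ≤ 0}] x) := by
          refine tendsto_nhdsWithin_iff.2 ⟨?_, ?_⟩
          · have := (Ak l e k).continuous.tendsto x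
            rw [hAx] at this
            exact this.mono_left nhdsWithin_le_nhds
          · filter_upwards [self_mem_nhdsWithin] with y hy
            show l (Ak l e k y) ≤ 0
            rw [l_Ak he]; have : (0 : ℝ) < 2 ^ k := by positivity
            have hy' : 0 < l y := hy
            nlinarith
        exact h3.tendsto.comp h4
      have h5 := ((ContinuousMultilinearMap.compContinuousLinearMapL (F := F)
        (fun _ : Fin n => Ak l e k)).continuous.tendsto (p x n)).comp h2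
      exact h5.const_smul (cc k)
    · filter_upwards [self_mem_nhdsWithin] with y hy k
      exact term_bound he hC k (le_of_lt hy)
  have h6 : (∑' k, cc k • (p x n).compContinuousLinearMap (fun _ => Ak l e k)) = p x n := by
    have hs : Summable fun k => cc k • (p x n).compContinuousLinearMap (fun _ => Ak l e k) := by
      refine Summable.of_norm_bounded (summable_bound l e C n) fun k => ?_
      have := term_bound he hC k hx.ge
      rwa [hAx] at this
    ext v
    have h7 := (ContinuousMultilinearMap.apply ℝ (fun _ : Fin n => V) F v).map_tsum hs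
    simp only [ContinuousMultilinearMap.apply_apply] at h7
    rw [h7]
    exact tsum_comp_Ak l e n (p x n) v
  rw [h6] at h1
  refine h1.congr' ?_
  filter_upwards [self_mem_nhdsWithin] with y hy
  simp only [PP, not_le.2 (show 0 < l y from hy), if_false]

lemma hasFDerivAt_all (he : l e = 1) (hp : HasFTaylorSeriesUpToOn ∞ f p {x | l x ≤ 0})
    (hb : ∀ n, ∃ C, ∀ x, l x ≤ 0 → ‖p x n‖ ≤ C) (n : ℕ) (x : V) :
    HasFDerivAt (fun y => PP l e p y n) (PP l e p x (n + 1)).curryLeft x := by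
  rcases lt_trichotomy (l x) 0 with hx | hx | hx
  · have h1 := hp.fderivWithin n (by exact_mod_cast
      (WithTop.coe_lt_coe.2 (WithTop.coe_lt_top n))) x hx.le
    have hm : {x : V | l x ≤ 0} ∈ 𝓝 x := by
      filter_upwards [(isOpen_lt l.continuous continuous_const).mem_nhds hx] with z hz
      exact le_of_lt hz
    have h2 := h1.hasFDerivAt hm
    have h3 : (fun y => PP l e p y n) =ᶠ[𝓝 x] fun y => p y n := by
      filter_upwards [hm] with y hy
      simp only [PP, if_pos (show l y ≤ 0 from hy)]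
    refine (h2.congr_of_eventuallyEq h3).congr_fderiv ?_
    simp only [PP, if_pos hx.le]
  · -- boundary
    have hPx : ∀ m, PP l e p x m = p x m := fun m => by simp only [PP, if_pos hx.le]
    have hleft : HasFDerivWithinAt (fun y => PP l e p y n) (PP l e p x (n + 1)).curryLeft
        {x | l x ≤ 0} x := by
      rw [hPx]
      refine (hp.fderivWithin n (by exact_mod_cast
        (WithTop.coe_lt_coe.2 (WithTop.coe_lt_top n))) x hx.le).congr ?_ (hPx n)
      intro y hy
      simp only [PP, if_pos (show l y ≤ 0 from hy)]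
    have hopen : IsOpen {x : V | 0 < l x} := isOpen_lt continuous_const l.continuous
    have hconv : Convex ℝ {x : V | 0 < l x} := by
      exact (convex_Ioi (0 : ℝ)).is_linear_preimage l.toLinearMap.isLinear
    have hcl : closure {x : V | 0 < l x} ⊆ {x | 0 ≤ l x} :=
      closure_minimal (fun y (hy : 0 < l y) => (hy.le : (0 : ℝ) ≤ l y))
        (isClosed_le continuous_const l.continuous)
    have hcl' : {x : V | 0 ≤ l x} ⊆ closure {x : V | 0 < l x} := by
      intro y hy
      have h1 : Tendsto (fun t : ℝ => y + t • e) (𝓝[>] 0) (𝓝 y) := by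
        have : Tendsto (fun t : ℝ => y + t • e) (𝓝 0) (𝓝 (y + (0 : ℝ) • e)) :=
          (continuous_const.add (continuous_id.smul continuous_const)).tendsto 0
        rw [zero_smul, add_zero] at this
        exact this.mono_left nhdsWithin_le_nhds
      refine mem_closure_of_tendsto h1 ?_
      filter_upwards [self_mem_nhdsWithin] with t ht
      have h0 : (0 : ℝ) ≤ l y := hy
      have ht' : (0 : ℝ) < t := ht
      show 0 < l (y + t • e)
      rw [map_add, map_smul, he, smul_eq_mul, mul_one]; linarith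
    have hright : HasFDerivWithinAt (fun y => PP l e p y n) (PP l e p x (n + 1)).curryLeft
        (closure {x | 0 < l x}) x := by
      refine hasFDerivWithinAt_closure_of_tendsto_fderiv ?_ hconv hopen ?_ ?_
      · intro y hy
        exact (hasFDerivAt_pos he hp hb n hy).differentiableAt.differentiableWithinAt
      · intro y hy
        rcases (show (0 : ℝ) ≤ l y from hcl hy).eq_or_lt with h | h
        · have h1 := tendsto_bdry he hp hb n h.symm
          show Tendsto _ _ _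
          simpa only [PP, if_pos h.symm.le] using h1
        · exact (hasFDerivAt_pos he hp hb n h).continuousAt.continuousWithinAt
      · have h1 := tendsto_bdry he hp hb (n + 1) hx
        have h2 := ((continuousMultilinearCurryLeftEquiv ℝ (fun _ : Fin (n + 1) => V) F
          ).continuous.tendsto (p x (n + 1))).comp h1
        rw [hPx]
        refine Tendsto.congr' ?_ h2
        filter_upwards [self_mem_nhdsWithin] with y hy
        exact (hasFDerivAt_pos he hp hb n hy).fderiv.symm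
    have h3 := hleft.union (hright.mono hcl')
    have h4 : {x : V | l x ≤ 0} ∪ {x | 0 ≤ l x} = Set.univ := by
      ext y; simp [le_total]
    rw [h4] at h3
    exact hasFDerivWithinAt_univ.1 h3
  · exact hasFDerivAt_pos he hp hb n hx

theorem contDiff_FF (he : l e = 1) (hp : HasFTaylorSeriesUpToOn ∞ f p {x | l x ≤ 0})
    (hb : ∀ n, ∃ C, ∀ x, l x ≤ 0 → ‖p x n‖ ≤ C) : ContDiff ℝ ∞ (FF l e f) := by
  have hT : HasFTaylorSeriesUpTo ∞ (FF l e f) (PP l e p) := by
    refine ⟨fun x => ?_, fun m _ x => hasFDerivAt_all he hp hb m x, fun m _ => ?_⟩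
    · by_cases hx : l x ≤ 0
      · simp only [FF, PP, if_pos hx]
        exact hp.zero_eq x hx
      · simp only [FF, PP, if_neg hx]
        obtain ⟨C, hC⟩ := hb 0
        have hs : Summable fun k =>
            cc k • (p (Ak l e k x) 0).compContinuousLinearMap (fun _ => Ak l e k) :=
          Summable.of_norm_bounded (summable_bound l e C 0) fun k =>
            term_bound he hC k (not_le.1 hx).le
        have h7 := (ContinuousMultilinearMap.apply ℝ (fun _ : Fin 0 => V) F 0).map_tsum hs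
        simp only [ContinuousMultilinearMap.apply_apply] at h7
        refine h7.trans (tsum_congr fun k => ?_)
        have h8 : l (Ak l e k x) ≤ 0 := by
          rw [l_Ak he]; have : (0 : ℝ) < 2 ^ k := by positivity
          have := not_le.1 hx
          nlinarith
        rw [← hp.zero_eq _ h8]
        show cc k • (p (Ak l e k x) 0) (fun i => Ak l e k ((0 : Fin 0 → V) i))
          = cc k • (p (Ak l e k x) 0) 0
        congr 2
        funext i
        exact i.elim0
    · exact continuous_iff_continuousAt.2 fun x => (hasFDerivAt_all he hp hb m x).continuousAt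
  exact hT.contDiff

end


end Crest.Agent.R080.Seeley
end
end

-- ▼ part N207/B/Flow4
section

/-!
# Row 207, block B FLOW, part 4 (helper69): extension in time

`ext τ f` extends `f : ℝ × V → F`, smooth on `[0, τ] × U`, to a smooth function on `ℝ × U` which
agrees with `f` on `[0, τ/2] × V`. The extension is pointwise in the space variable and commutes with
linear maps (`ext_map`).
-/

set_option autoImplicit false

open Set Filter Topology
open scoped ContDiff

noncomputable section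

namespace Crest.Agent.N207.B.Fl

open Crest.Agent.R080.Seeley

variable {V F : Type*} [NormedAddCommGroup V] [NormedSpace ℝ V]
  [NormedAddCommGroup F] [NormedSpace ℝ F]

/-- Seeley's theorem with the explicit operator -/
theorem contDiff_FF' [CompleteSpace F] [FiniteDimensional ℝ V] {l : V →L[ℝ] ℝ} {e : V}
    (he : l e = 1) {f : V → F}
    (hf : ContDiffOn ℝ ∞ f {x | l x ≤ 0}) (R : ℝ) (hR : ∀ x, l x ≤ 0 → R < ‖x‖ → f x = 0) :
    ContDiff ℝ ∞ (FF l e f) := by
  set s : Set V := {x | l x ≤ 0} with hs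
  have hconv : Convex ℝ s := by
    exact (convex_Iic (0 : ℝ)).is_linear_preimage l.toLinearMap.isLinear
  have hint : (interior s).Nonempty := by
    refine ⟨-e, ?_⟩
    refine mem_interior.2 ⟨{x | l x < 0}, fun y (hy : l y < 0) => (hy.le : l y ≤ 0),
      isOpen_lt l.continuous continuous_const, ?_⟩
    show l (-e) < 0
    rw [map_neg, he]; norm_num
  have hu : UniqueDiffOn ℝ s := uniqueDiffOn_convex hconv hint
  have hp : HasFTaylorSeriesUpToOn ∞ f (ftaylorSeriesWithin ℝ f s) s := hf.ftaylorSeriesWithin hu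
  have hclosed : IsClosed s := isClosed_le l.continuous continuous_const
  refine contDiff_FF he hp ?_
  intro n
  have hK : IsCompact (s ∩ Metric.closedBall (0 : V) R) :=
    (isCompact_closedBall (0 : V) R).inter_left hclosed
  obtain ⟨C, hC⟩ := hK.exists_bound_of_continuousOn
    (f := fun x => ftaylorSeriesWithin ℝ f s x n)
    ((hp.cont n (by exact_mod_cast le_top)).mono Set.inter_subset_left)
  refine ⟨max C 0, fun x hx => ?_⟩
  by_cases hxR : ‖x‖ ≤ R
  · exact (hC x ⟨hx, by simpa using hxR⟩).trans (le_max_left _ _)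
  · have h1 : f =ᶠ[𝓝[s] x] fun _ => 0 := by
      have h2 : {y : V | R < ‖y‖} ∈ 𝓝 x := (isOpen_lt continuous_const continuous_norm).mem_nhds
        (not_le.1 hxR)
      filter_upwards [nhdsWithin_le_nhds h2, self_mem_nhdsWithin] with y hy hy'
      exact hR y hy' hy
    have h3 : ftaylorSeriesWithin ℝ f s x n = 0 := by
      have h4 := (Filter.EventuallyEq.iteratedFDerivWithin_eq (𝕜 := ℝ) h1
        (hR x hx (not_le.1 hxR)) n)
      rw [ftaylorSeriesWithin, h4]
      simp
    rw [h3, norm_zero]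
    exact le_max_right _ _

/-- cutoff in time: `1` for `t ≤ τ/2`, `0` for `t ≥ 3τ/4` -/
def chi (τ t : ℝ) : ℝ := Real.smoothTransition (3 - 4 * t / τ)

theorem contDiff_chi (τ : ℝ) : ContDiff ℝ ∞ (chi τ) := by
  unfold chi
  exact Real.smoothTransition.contDiff.comp (by fun_prop)

theorem chi_one {τ t : ℝ} (hτ : 0 < τ) (ht : t ≤ τ / 2) : chi τ t = 1 := by
  refine Real.smoothTransition.one_of_one_le ?_
  have : 4 * t / τ ≤ 2 := by rw [div_le_iff₀ hτ]; linarith
  linarith

theorem chi_zero {τ t : ℝ} (hτ : 0 < τ) (ht : 3 * τ / 4 ≤ t) : chi τ t = 0 := by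
  refine Real.smoothTransition.zero_of_nonpos ?_
  have : 3 ≤ 4 * t / τ := by rw [le_div_iff₀ hτ]; linarith
  linarith

variable (V) in
/-- `l (t, y) = -t` -/
def lT : ℝ × V →L[ℝ] ℝ := -ContinuousLinearMap.fst ℝ ℝ V

theorem lT_apply (p : ℝ × V) : lT V p = -p.1 := rfl

theorem lT_e : lT V ((-1 : ℝ), (0 : V)) = 1 := by simp [lT_apply]

theorem Ak_lT (k : ℕ) (p : ℝ × V) :
    Ak (lT V) ((-1 : ℝ), (0 : V)) k p = (-(2 : ℝ) ^ k * p.1, p.2) := by
  rw [Ak_apply, lT_apply]
  refine Prod.ext ?_ ?_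
  · simp
  · simp

/-- extension in time -/
def ext (τ : ℝ) (f : ℝ × V → F) : ℝ × V → F :=
  FF (lT V) ((-1 : ℝ), (0 : V)) fun q => chi τ q.1 • f q

theorem ext_of_nonneg (τ : ℝ) (f : ℝ × V → F) {t : ℝ} (ht : 0 ≤ t) (y : V) :
    ext τ f (t, y) = chi τ t • f (t, y) := by
  have h : lT V (t, y) ≤ 0 := by rw [lT_apply]; linarith
  simp only [ext, FF, if_pos h]

theorem ext_of_neg (τ : ℝ) (f : ℝ × V → F) {t : ℝ} (ht : t < 0) (y : V) :
    ext τ f (t, y) = ∑' k, cc k • (chi τ (-(2 : ℝ) ^ k * t) • f (-(2 : ℝ) ^ k * t, y)) := by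
  have h : ¬ lT V (t, y) ≤ 0 := by rw [lT_apply]; simp only [not_le]; linarith
  simp only [ext, FF, if_neg h, Ak_lT]

theorem ext_eq {τ : ℝ} (hτ : 0 < τ) (f : ℝ × V → F) {t : ℝ} (ht : t ∈ Icc 0 (τ / 2)) (y : V) :
    ext τ f (t, y) = f (t, y) := by
  rw [ext_of_nonneg τ f ht.1, chi_one hτ ht.2, one_smul]

theorem summable_ext {τ : ℝ} (hτ : 0 < τ) (f : ℝ × V → F) {t : ℝ} (ht : t < 0) (y : V) :
    Summable fun k => cc k • (chi τ (-(2 : ℝ) ^ k * t) • f (-(2 : ℝ) ^ k * t, y)) := by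
  obtain ⟨N, hN⟩ := pow_unbounded_of_one_lt (τ / (-t)) (by norm_num : (1 : ℝ) < 2)
  refine summable_of_ne_finset_zero (s := Finset.range N) fun k hk => ?_
  have h1 : (2 : ℝ) ^ N ≤ 2 ^ k := pow_le_pow_right₀ (by norm_num) (by simpa using hk)
  have h2 : τ < 2 ^ N * (-t) := by rwa [div_lt_iff₀ (by linarith)] at hN
  rw [chi_zero hτ (by nlinarith), zero_smul, smul_zero]

/-- the extension is pointwise in space and commutes with linear maps -/
theorem ext_map {V' F' : Type*} [NormedAddCommGroup V'] [NormedSpace ℝ V']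
    [NormedAddCommGroup F'] [NormedSpace ℝ F'] {τ : ℝ} (hτ : 0 < τ) {f : ℝ × V → F}
    {f' : ℝ × V' → F'} {y : V} {y' : V'} (L : F →L[ℝ] F')
    (h : ∀ t ∈ Icc 0 τ, f' (t, y') = L (f (t, y))) (t : ℝ) :
    ext τ f' (t, y') = L (ext τ f (t, y)) := by
  have key : ∀ r, 0 ≤ r → chi τ r • f' (r, y') = L (chi τ r • f (r, y)) := by
    intro r hr
    rw [map_smul]
    by_cases h1 : r ≤ τ
    · rw [h r ⟨hr, h1⟩]
    · rw [chi_zero hτ (by linarith [not_le.1 h1]), zero_smul, zero_smul]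
  rcases le_or_gt 0 t with ht | ht
  · rw [ext_of_nonneg τ f ht, ext_of_nonneg τ f' ht, key t ht]
  · rw [ext_of_neg τ f ht, ext_of_neg τ f' ht, L.map_tsum (summable_ext hτ f ht y)]
    refine tsum_congr fun k => ?_
    rw [map_smul, key]
    have : (0 : ℝ) < 2 ^ k := by positivity
    nlinarith

/-- the extension is smooth -/
theorem contDiffOn_ext [CompleteSpace F] [FiniteDimensional ℝ V] {τ : ℝ} (hτ : 0 < τ)
    {f : ℝ × V → F} {U : Set V} (hU : IsOpen U) (hf : ContDiffOn ℝ ∞ f (Icc 0 τ ×ˢ U)) :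
    ContDiffOn ℝ ∞ (ext τ f) (univ ×ˢ U) := by
  rintro ⟨t₀, y₀⟩ ⟨-, hy₀⟩
  obtain ⟨r, hr, hrU⟩ := Metric.nhds_basis_closedBall.mem_iff.1 (hU.mem_nhds hy₀)
  let β : ContDiffBump y₀ := ⟨r / 2, r, by positivity, by linarith⟩
  have hβ0 : ∀ y, r ≤ dist y y₀ → β y = 0 := fun y hy => β.zero_of_le_dist hy
  have h1 : ContDiff ℝ ∞ (ext τ fun q : ℝ × V => β q.2 • f q) := by
    refine contDiff_FF' lT_e ?_ (τ + ‖y₀‖ + r) ?_
    · rintro ⟨t, y⟩ hq
      have ht : 0 ≤ t := by
        have : lT V (t, y) ≤ 0 := hq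
        rw [lT_apply] at this
        linarith
      by_cases hc : t < τ ∧ y ∈ U
      · have h2 : ContDiffWithinAt ℝ ∞ f {x | lT V x ≤ 0} (t, y) := by
          refine (hf (t, y) ⟨⟨ht, hc.1.le⟩, hc.2⟩).mono_of_mem_nhdsWithin ?_
          have h3 : {q : ℝ × V | q.1 < τ ∧ q.2 ∈ U} ∈ 𝓝 (t, y) :=
            ((isOpen_lt continuous_fst continuous_const).inter
              (hU.preimage continuous_snd)).mem_nhds hc
          filter_upwards [nhdsWithin_le_nhds h3, self_mem_nhdsWithin] with q h4 h5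
          have h6 : lT V q ≤ 0 := h5
          rw [lT_apply] at h6
          exact ⟨⟨by linarith, h4.1.le⟩, h4.2⟩
        have h7 : ContDiff ℝ ∞ fun q : ℝ × V => chi τ q.1 := (contDiff_chi τ).comp contDiff_fst
        have h8 : ContDiff ℝ ∞ fun q : ℝ × V => β q.2 := β.contDiff.comp contDiff_snd
        exact h7.contDiffAt.contDiffWithinAt.smul (h8.contDiffAt.contDiffWithinAt.smul h2)
      · have h2 : (fun q : ℝ × V => chi τ q.1 • β q.2 • f q) =ᶠ[𝓝 (t, y)] fun _ => 0 := by
          rcases not_and_or.1 hc with h3 | h3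
          · have h4 : {q : ℝ × V | 3 * τ / 4 < q.1} ∈ 𝓝 (t, y) :=
              (isOpen_lt continuous_const continuous_fst).mem_nhds
                (show 3 * τ / 4 < t by linarith [not_lt.1 h3])
            filter_upwards [h4] with q hq
            rw [chi_zero hτ (le_of_lt hq), zero_smul]
          · have h5 : r < dist y y₀ := by
              by_contra h6
              exact h3 (hrU (Metric.mem_closedBall.2 (not_lt.1 h6)))
            have h4 : {q : ℝ × V | r < dist q.2 y₀} ∈ 𝓝 (t, y) :=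
              (isOpen_lt continuous_const (continuous_snd.dist continuous_const)).mem_nhds h5
            filter_upwards [h4] with q hq
            rw [hβ0 _ (le_of_lt hq), zero_smul, smul_zero]
        exact (contDiffAt_const.congr_of_eventuallyEq h2).contDiffWithinAt
    · rintro ⟨t, y⟩ hq hR
      have ht : 0 ≤ t := by
        rw [lT_apply] at hq
        linarith
      rw [Prod.norm_def, lt_max_iff] at hR
      rcases hR with hR | hR
      · have h2 : 3 * τ / 4 ≤ t := by
          simp only [Real.norm_of_nonneg ht] at hR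
          linarith [norm_nonneg y₀]
        show chi τ t • β y • f (t, y) = 0
        rw [chi_zero hτ h2, zero_smul]
      · have h2 : r ≤ dist y y₀ := by
          rw [dist_eq_norm]
          have := norm_sub_norm_le y y₀
          simp only at hR
          linarith
        show chi τ t • β y • f (t, y) = 0
        rw [hβ0 y h2, zero_smul, smul_zero]
  refine (h1.contDiffAt.congr_of_eventuallyEq ?_).contDiffWithinAt
  have h2 : {q : ℝ × V | dist q.2 y₀ < r / 2} ∈ 𝓝 (t₀, y₀) :=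
    (isOpen_lt (continuous_snd.dist continuous_const) continuous_const).mem_nhds
      (show dist y₀ y₀ < r / 2 by rw [dist_self]; positivity)
  filter_upwards [h2] with q hq
  have h3 : β q.2 = 1 := β.one_of_mem_closedBall (Metric.mem_closedBall.2 (le_of_lt hq))
  have h4 := ext_map (f := f) (f' := fun q : ℝ × V => β q.2 • f q) (y := q.2) (y' := q.2) hτ
    (ContinuousLinearMap.id ℝ F) (fun t _ => by simp [h3]) q.1
  exact h4.symm

end Crest.Agent.N207.B.Fl

end
end

-- ▼ part N207/B/Flow5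
section

/-!
# Row 207, block B FLOW, part 5 (helper69): the flow of a time dependent vector field on a compact
manifold

* `VCompat b J`: the chart components `b x (t, y)` transform as a vector field for `t ∈ J`
* `IsFlow b s φ ψ`: `φ t` is the flow of `b` on `[0, s]`, `ψ t` its inverse, all smooth on `ℝ × M`
* `exists_flow`, and `exists_flowW` for `W t p : TangentSpace`
-/

set_option autoImplicit false
set_option linter.unusedSectionVars false

open Set Filter Topology
open scoped ContDiff Manifold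
open Crest.Agent.R247

noncomputable section

namespace Crest.Agent.N207.B

open Fl

universe u

variable {n : ℕ} {M : Type u} [TopologicalSpace M] [ChartedSpace (En n) M]
  [IsManifold 𝓘(ℝ, En n) ∞ M]

/-- a family of maps read in the charts at `x` (source) and `z` (target) -/
def rdC (n : ℕ) {M : Type u} [TopologicalSpace M] [ChartedSpace (En n) M] (φ : ℝ → M → M)
    (x z : M) (p : ℝ × En n) : En n :=
  chartAt (En n) z (φ p.1 ((chartAt (En n) x).symm p.2))

/-- the chart components transform as a vector field -/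
def VCompat (b : M → ℝ × En n → En n) (J : Set ℝ) : Prop :=
  ∀ x₀ x₁ : M, ∀ t ∈ J, ∀ y ∈ Bo84.tdom (n := n) x₀ x₁,
    b x₁ (t, Bo84.trans x₀ x₁ y) = fderiv ℝ (Bo84.trans x₀ x₁) y (b x₀ (t, y))

/-- a family of maps, continuous on `ℝ × M` and jointly smooth in charts -/
structure SmMaps (n : ℕ) {M : Type u} [TopologicalSpace M] [ChartedSpace (En n) M]
    (φ : ℝ → M → M) : Prop where
  cont : Continuous fun p : ℝ × M => φ p.1 p.2
  sm : ∀ t x z, ∀ y ∈ tg n x, φ t ((chartAt (En n) x).symm y) ∈ (chartAt (En n) z).source →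
    ContDiffAt ℝ ∞ (rdC n φ x z) (t, y)

/-- `φ t` is the flow of `b` on `[0, s]` and `ψ t` is the inverse of `φ t` -/
structure IsFlow (b : M → ℝ × En n → En n) (s : ℝ) (φ ψ : ℝ → M → M) : Prop where
  zero : ∀ x, φ 0 x = x
  left_inv : ∀ t x, ψ t (φ t x) = x
  right_inv : ∀ t x, φ t (ψ t x) = x
  sm : SmMaps n φ
  sm_inv : SmMaps n ψ
  ode : ∀ t ∈ Icc 0 s, ∀ x z, φ t x ∈ (chartAt (En n) z).source →
    HasDerivAt (fun r => chartAt (En n) z (φ r x)) (b z (t, chartAt (En n) z (φ t x))) t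

namespace SmMaps

variable {φ : ℝ → M → M}



/-- the set where the reading in the charts makes sense is open -/
theorem isOpen_dom (h : SmMaps n φ) (x z : M) : IsOpen {p : ℝ × En n | p.2 ∈ tg n x ∧
    φ p.1 ((chartAt (En n) x).symm p.2) ∈ (chartAt (En n) z).source} := by
  have h1 : ContinuousOn (fun p : ℝ × En n => φ p.1 ((chartAt (En n) x).symm p.2))
      (Prod.snd ⁻¹' tg n x) := by
    refine h.cont.comp_continuousOn (f := fun p : ℝ × En n => (p.1, (chartAt (En n) x).symm p.2))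
      (continuousOn_fst.prodMk ?_)
    exact (chartAt (En n) x).continuousOn_symm.comp continuousOn_snd fun p hp => hp
  exact h1.isOpen_inter_preimage ((chartAt (En n) x).open_target.preimage continuous_snd)
    (chartAt (En n) z).open_source

theorem contDiffOn (h : SmMaps n φ) (x z : M) : ContDiffOn ℝ ∞ (rdC n φ x z)
    {p : ℝ × En n | p.2 ∈ tg n x ∧
      φ p.1 ((chartAt (En n) x).symm p.2) ∈ (chartAt (En n) z).source} :=
  fun p hp => (h.sm p.1 x z p.2 hp.1 hp.2).contDiffWithinAt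


/-- joint smoothness on `ℝ × M` -/
theorem contMDiff (h : SmMaps n φ) :
    ContMDiff (𝓘(ℝ, ℝ).prod 𝓘(ℝ, En n)) 𝓘(ℝ, En n) ∞ fun p : ℝ × M => φ p.1 p.2 := by
  rintro ⟨t, x⟩
  have hx := mem_chart_source (En n) x
  have hz := mem_chart_source (En n) (φ t x)
  have h1 : ContDiffAt ℝ ∞ (rdC n φ x (φ t x)) (t, chartAt (En n) x x) :=
    h.sm t x _ _ ((chartAt (En n) x).map_source hx) (by rwa [(chartAt (En n) x).left_inv hx])
  have h2 : ContMDiffAt (𝓘(ℝ, ℝ).prod 𝓘(ℝ, En n)) 𝓘(ℝ, ℝ × En n) ∞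
      (fun p : ℝ × M => (p.1, chartAt (En n) x p.2)) (t, x) := by
    refine contMDiffAt_fst.prodMk_space ?_
    exact ContMDiffAt.comp (g := chartAt (En n) x) (f := fun p : ℝ × M => p.2) (t, x)
      (contMDiffOn_chart.contMDiffAt ((chartAt (En n) x).open_source.mem_nhds hx)) contMDiffAt_snd
  have h3 : ContMDiffAt (𝓘(ℝ, ℝ).prod 𝓘(ℝ, En n)) 𝓘(ℝ, En n) ∞
      (fun p : ℝ × M => rdC n φ x (φ t x) (p.1, chartAt (En n) x p.2)) (t, x) :=
    ContMDiffAt.comp (g := rdC n φ x (φ t x)) (t, x) h1.contMDiffAt h2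
  have h4 : rdC n φ x (φ t x) (t, chartAt (En n) x x) = chartAt (En n) (φ t x) (φ t x) := by
    simp only [rdC, (chartAt (En n) x).left_inv hx]
  have h5 : ContMDiffAt (𝓘(ℝ, ℝ).prod 𝓘(ℝ, En n)) 𝓘(ℝ, En n) ∞
      (fun p : ℝ × M => (chartAt (En n) (φ t x)).symm
        (rdC n φ x (φ t x) (p.1, chartAt (En n) x p.2))) (t, x) := by
    refine ContMDiffAt.comp (g := (chartAt (En n) (φ t x)).symm) (t, x) ?_ h3
    refine contMDiffOn_chart_symm.contMDiffAt ((chartAt (En n) (φ t x)).open_target.mem_nhds ?_)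
    show rdC n φ x (φ t x) (t, chartAt (En n) x x) ∈ _
    rw [h4]
    exact (chartAt (En n) (φ t x)).map_source hz
  refine h5.congr_of_eventuallyEq ?_
  have e1 : ∀ᶠ p : ℝ × M in 𝓝 (t, x), p.2 ∈ (chartAt (En n) x).source :=
    continuousAt_snd.eventually ((chartAt (En n) x).open_source.mem_nhds hx)
  have e2 : ∀ᶠ p : ℝ × M in 𝓝 (t, x), φ p.1 p.2 ∈ (chartAt (En n) (φ t x)).source :=
    h.cont.continuousAt.eventually ((chartAt (En n) (φ t x)).open_source.mem_nhds hz)
  filter_upwards [e1, e2] with p h6 h7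
  simp only [rdC, (chartAt (En n) x).left_inv h6, (chartAt (En n) (φ t x)).left_inv h7]

theorem contMDiff_t (h : SmMaps n φ) (t : ℝ) : ContMDiff 𝓘(ℝ, En n) 𝓘(ℝ, En n) ∞ (φ t) :=
  h.contMDiff.comp (f := fun x : M => (t, x)) (contMDiff_const.prodMk contMDiff_id)

end SmMaps

namespace IsFlow

variable {b : M → ℝ × En n → En n} {s : ℝ} {φ ψ : ℝ → M → M}

theorem contMDiff (h : IsFlow b s φ ψ) (t : ℝ) : ContMDiff 𝓘(ℝ, En n) 𝓘(ℝ, En n) ∞ (φ t) :=
  h.sm.contMDiff_t t

theorem contMDiff_inv (h : IsFlow b s φ ψ) (t : ℝ) : ContMDiff 𝓘(ℝ, En n) 𝓘(ℝ, En n) ∞ (ψ t) :=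
  h.sm_inv.contMDiff_t t


theorem mfderiv_inv (h : IsFlow b s φ ψ) (t : ℝ) (x : M) (v : TangentSpace 𝓘(ℝ, En n) x) :
    mfderiv 𝓘(ℝ, En n) 𝓘(ℝ, En n) (ψ t) (φ t x) (mfderiv 𝓘(ℝ, En n) 𝓘(ℝ, En n) (φ t) x v) = v := by
  have h1 := mfderiv_comp x ((h.contMDiff_inv t (φ t x)).mdifferentiableAt (by simp))
    ((h.contMDiff t x).mdifferentiableAt (by simp))
  have h2 : ψ t ∘ φ t = id := funext (h.left_inv t)
  rw [h2, mfderiv_id] at h1
  exact (congrArg (fun L : En n →L[ℝ] En n => L v) h1).symm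

theorem inj (h : IsFlow b s φ ψ) (t : ℝ) (x : M) :
    Function.Injective (mfderiv 𝓘(ℝ, En n) 𝓘(ℝ, En n) (φ t) x) := by
  intro v w hvw
  rw [← h.mfderiv_inv t x v, ← h.mfderiv_inv t x w, hvw]


/-- the equation, read in the charts at `x` and `z` -/
theorem ode_rdC (h : IsFlow b s φ ψ) {t : ℝ} (ht : t ∈ Icc 0 s) {x z : M} {y : En n}
    (hz : φ t ((chartAt (En n) x).symm y) ∈ (chartAt (En n) z).source) :
    HasDerivAt (fun r => rdC n φ x z (r, y)) (b z (t, rdC n φ x z (t, y))) t :=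
  h.ode t ht _ z hz

end IsFlow

variable (n M) in
/-- the preferred charts -/
abbrev rch : RCh (En n) M where
  ι := M
  e x := chartAt (En n) x
  cover x := ⟨x, mem_chart_source _ x⟩
  sm x₀ x₁ := Bo84.contDiffOn_trans x₀ x₁

/-- **the flow of a time dependent vector field given in charts** -/
theorem exists_flow [CompactSpace M] [T2Space M] {τ : ℝ} (hτ : 0 < τ)
    {b : M → ℝ × En n → En n} (hb : ∀ x, ContDiffOn ℝ ∞ (b x) (Icc 0 τ ×ˢ tg n x))
    (hc : VCompat b (Icc 0 τ)) : ∃ φ ψ : ℝ → M → M, IsFlow b (τ / 2) φ ψ := by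
  let B : TVF (rch n M) :=
    { b := fun x => ext τ (b x)
      sm := fun x => contDiffOn_ext hτ (chartAt (En n) x).open_target (hb x)
      tr := fun x₀ x₁ t y hy =>
        ext_map hτ (fderiv ℝ (Bo84.trans x₀ x₁) y) (fun r hr => hc x₀ x₁ r hr y hy) t }
  have key : ∀ (t : ℝ) (x z : M), ∀ y ∈ tg n x, ∀ s : ℝ,
      B.Fl s t ((chartAt (En n) x).symm y) ∈ (chartAt (En n) z).source →
      ContDiffAt ℝ ∞ (B.rd x z) (s, t, y) := by
    intro t x z y hy s hz
    have h1 := B.rd_contDiffAt (s := s) (t := t) (i := x) (j := z)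
      (x := (chartAt (En n) x).symm y) ((chartAt (En n) x).map_target hy) hz
    have h2 : ((rch n M).e x) ((chartAt (En n) x).symm y) = y := (chartAt (En n) x).right_inv hy
    rwa [h2] at h1
  refine ⟨fun t => B.Fl 0 t, fun t => B.Fl t 0, fun x => TVF.Fl_self 0 x,
    fun t x => TVF.Fl_inv 0 t x, fun t x => TVF.Fl_inv t 0 x, ⟨?_, ?_⟩, ⟨?_, ?_⟩, ?_⟩
  · exact B.Fl_continuous.comp (by fun_prop : Continuous fun p : ℝ × M => ((0 : ℝ), p.1, p.2))
  · intro t x z y hy hz
    exact ContDiffAt.comp (g := B.rd x z) (f := fun p : ℝ × En n => ((0 : ℝ), p.1, p.2)) (t, y)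
      (key t x z y hy 0 hz) (by fun_prop)
  · exact B.Fl_continuous.comp (by fun_prop : Continuous fun p : ℝ × M => (p.1, (0 : ℝ), p.2))
  · intro t x z y hy hz
    exact ContDiffAt.comp (g := B.rd x z) (f := fun p : ℝ × En n => (p.1, (0 : ℝ), p.2)) (t, y)
      (key 0 x z y hy t hz) (by fun_prop)
  · intro t ht x z hz
    have h1 := TVF.Fl_hasDerivAt (B := B) (s := 0) (t := t) (x := x) (i := z) hz
    rw [← ext_eq hτ (b z) ht]
    exact h1






end Crest.Agent.N207.B

end
end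

-- ▼ part N207/B/Bridge
section

/-!
# Row 207, block B (helper8): from the Prelude's Ricci flows to `Flow` and back
-/

set_option autoImplicit false
set_option linter.style.haveILetI false
set_option linter.unusedSectionVars false

open scoped ContDiff Manifold Topology
open Set Bundle Filter
open Crest.GeometryTopology.CoordMetric Crest.GeometryTopology.ChartCurvature
  Crest.GeometryTopology.MetricFamily
open Crest.Agent.R247 Crest.Agent.R202.Tens

noncomputable section

namespace Crest.Agent.N207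

variable {n k : ℕ} {M : Type*} [TopologicalSpace M] [ChartedSpace (En n) M]
  [IsManifold 𝓘(ℝ, En n) ∞ M]

theorem famCoeff_eq (g : FormFamily 𝓘(ℝ, En n) M) (x : M) (t : ℝ) :
    famCoeff 𝓘(ℝ, En n) (ContinuousLinearEquiv.refl ℝ (En n)) M g x t = frmG (g t) x := rfl


theorem famTarget_eq (x : M) :
    famTarget 𝓘(ℝ, En n) (ContinuousLinearEquiv.refl ℝ (En n)) M x = tg n x := by
  ext y
  simp [famTarget, tg]

/-- the Ricci flow equation at the chart centres gives it in all charts -/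
theorem rfOn_of_centre {m : ℝ → Met n M} {J : Set ℝ}
    (h : ∀ x, ∀ t ∈ J, ∀ i j, HasDerivAt (fun s => (m s).G x (ctr n x) i j)
      (-2 * ricci ((m t).G x) (ctr n x) i j) t) : RFOn m J := by
  intro x t ht y hy i j
  set p := (chartAt (En n) x).symm y with hp
  have hd := mem_tdom_self hy
  have h1 : ∀ s, (m s).G x y i j = ∑ a, ∑ b, (m s).G p (ctr n p) a b *
      (fderiv ℝ (Bo84.trans x p) y (EuclideanSpace.single i 1)) a *
      (fderiv ℝ (Bo84.trans x p) y (EuclideanSpace.single j 1)) b := fun s =>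
    ((m s).pull_trans x p).pull y hd i j
  have h2 := ((m t).pull_trans x p).ricci_pull hd (EuclideanSpace.single i 1)
    (EuclideanSpace.single j 1)
  have h3 : ∑ a, ∑ b, ricci ((m t).G x) y a b * (EuclideanSpace.single i (1:ℝ) : En n) a *
      (EuclideanSpace.single j (1:ℝ) : En n) b = ricci ((m t).G x) y i j := by
    simp
  rw [h3] at h2
  simp_rw [h1]
  rw [h2, Finset.mul_sum]
  refine HasDerivAt.fun_sum fun a _ => ?_
  rw [Finset.mul_sum]
  refine HasDerivAt.fun_sum fun b _ => ?_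
  have h4 := ((h p t ht a b).mul_const
    ((fderiv ℝ (Bo84.trans x p) y (EuclideanSpace.single i 1)) a)).mul_const
    ((fderiv ℝ (Bo84.trans x p) y (EuclideanSpace.single j 1)) b)
  refine h4.congr_deriv ?_
  change _ = -2 * (ricci ((m t).G p) (ctr n p) a b * _ * _)
  ring

theorem SmFam.mono {m : ℝ → Met n M} {J J' : Set ℝ} (h : SmFam m J) (hJ : J' ⊆ J) :
    SmFam m J' := fun x i j => (h x i j).mono (prod_mono hJ Subset.rfl)

theorem SmFam.differentiableAt {m : ℝ → Met n M} {J : Set ℝ} (h : SmFam m J) {t : ℝ}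
    (ht : J ∈ 𝓝 t) (x : M) {y : En n} (hy : y ∈ tg n x) (i j : Fin n) :
    DifferentiableAt ℝ (fun s => (m s).G x y i j) t := by
  have h1 : ContDiffAt ℝ ∞ (fun p : ℝ × En n => (m p.1).G x p.2 i j) (t, y) :=
    (h x i j).contDiffAt (prod_mem_nhds ht ((chartAt (En n) x).open_target.mem_nhds hy))
  have h2 : DifferentiableAt ℝ (fun s : ℝ => (s, y)) t :=
    differentiableAt_id.prodMk (differentiableAt_const y)
  exact (h1.differentiableAt (by simp)).comp t h2

variable {M : Type*} [TopologicalSpace M] [ChartedSpace E4 M] [IsManifold 𝓘(ℝ, E4) ∞ M]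

/-- a Ricci flow of the Prelude as a `Flow` -/
theorem exists_flow {T : ℝ} (hT : 0 < T) {g : FormFamily 𝓘(ℝ, E4) M}
    (hg : IsRicciFlowOn 𝓘(ℝ, E4) (ContinuousLinearEquiv.refl ℝ E4) M g T) :
    ∃ F : Flow M, F.T = T ∧ ∀ t ∈ Ico 0 T, (F.m t).inner = g t := by
  classical
  have hs : ∀ t ∈ Ico 0 T, ∀ x i j, ContDiffOn ℝ ∞ (fun y => frmG (g t) x y i j) (tg 4 x) := by
    intro t ht x i j
    have h1 := (hg.1 x).1 i j
    rw [famTarget_eq] at h1
    have h2 : ContDiffOn ℝ ∞ (fun y : E4 => (t, y)) (tg 4 x) :=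
      (contDiff_const.prodMk contDiff_id).contDiffOn
    exact h1.comp h2 fun y hy => ⟨ht, hy⟩
  have hp : ∀ t ∈ Ico 0 T, ∀ x, (frmG (g t) x (ctr 4 x)).PosDef := by
    intro t ht x
    refine (hg.1 x).2 t ht _ ?_
    rw [famTarget_eq]
    exact mem_chart_target E4 x
  have h0 : (0:ℝ) ∈ Ico 0 T := ⟨le_rfl, hT⟩
  let m : ℝ → Met 4 M := fun t =>
    if ht : t ∈ Ico 0 T then Met.ofFrm (g t) (hs t ht) (hp t ht)
    else Met.ofFrm (g 0) (hs 0 h0) (hp 0 h0)
  have hm : ∀ t ∈ Ico 0 T, (m t).inner = g t := fun t ht => by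
    simp only [m, dif_pos ht]; rfl
  have hG : ∀ t ∈ Ico 0 T, ∀ x, (m t).G x = frmG (g t) x := fun t ht x => by
    rw [Met.G_eq_frmG, hm t ht]
  have hsm : SmFam m (Ico 0 T) := by
    intro x i j
    have h1 := (hg.1 x).1 i j
    rw [famTarget_eq] at h1
    refine h1.congr fun p hp => ?_
    rw [hG p.1 hp.1]; rfl
  refine ⟨⟨T, hT, m, hsm, rfOn_of_centre fun x t ht i j => ?_⟩, rfl, hm⟩
  have ht' : t ∈ Ico 0 T := Ioo_subset_Ico_self ht
  have hn : Ico 0 T ∈ 𝓝 t := Ico_mem_nhds ht.1 ht.2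
  have h1 := (hsm.differentiableAt hn x (mem_chart_target E4 x) i j).hasDerivAt
  have h2 : (fun s => (m s).G x (ctr 4 x) i j) =ᶠ[𝓝 t]
      fun s => frmG (g s) x (ctr 4 x) i j := by
    filter_upwards [hn] with s hs
    rw [hG s hs]
  rw [h2.deriv_eq] at h1
  have h3 := hg.2 x t ht i j
  rw [hG t ht']
  exact h3 ▸ h1

/-- a `Flow` is a Ricci flow of the Prelude -/
theorem Flow.isRicciFlowOn (F : Flow M) :
    IsRicciFlowOn 𝓘(ℝ, E4) (ContinuousLinearEquiv.refl ℝ E4) M (fun t => (F.m t).inner) F.T := by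
  refine ⟨fun x => ⟨fun i j => ?_, fun t _ y hy => ?_⟩, fun x t ht i j => ?_⟩
  · rw [famTarget_eq]
    exact F.sm x i j
  · rw [famTarget_eq] at hy
    exact ((F.m t).isRiem x).posDef y hy
  · exact (F.rf x t ht _ (mem_chart_target E4 x) i j).deriv

/-- **the bridge**: `S0319` for `M` follows from the extension property of `Flow`s with bounded
scalar curvature. -/
theorem s0319_of (H : ∀ (F : Flow M) (C : ℝ), F.BddR C → F.Extends)
    (T : ℝ) (hT : 0 < T) (g : FormFamily 𝓘(ℝ, E4) M)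
    (hg : IsRicciFlowOn 𝓘(ℝ, E4) (ContinuousLinearEquiv.refl ℝ E4) M g T)
    (hR : HasBoundedScalarCurvature 𝓘(ℝ, E4) (ContinuousLinearEquiv.refl ℝ E4) M g T) :
    ∃ ε : ℝ, 0 < ε ∧ ∃ g' : FormFamily 𝓘(ℝ, E4) M,
      IsRicciFlowOn 𝓘(ℝ, E4) (ContinuousLinearEquiv.refl ℝ E4) M g' (T + ε) ∧
        ∀ t ∈ Set.Ico 0 T, g' t = g t := by
  obtain ⟨F, hFT, hF⟩ := exists_flow hT hg
  obtain ⟨C, hC⟩ := hR
  have hB : F.BddR C := by
    intro t ht x
    rw [hFT] at ht
    have h1 := hC t ht x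
    rw [famCoeff_eq, ← hF t ht] at h1
    exact h1
  obtain ⟨F', h1, h2⟩ := H F C hB
  refine ⟨F'.T - T, by rw [← hFT]; linarith, fun t => (F'.m t).inner, ?_, fun t ht => ?_⟩
  · have : T + (F'.T - T) = F'.T := by ring
    rw [this]
    exact F'.isRicciFlowOn
  · have ht' : t ∈ Ico 0 F.T := by rw [hFT]; exact ht
    change (F'.m t).inner = g t
    rw [h2 t ht', hF t ht]

end Crest.Agent.N207

end
end

-- ▼ part N207/B/Pb2
section

/-!
# Row 207, block B PULLBACK, part 2 (helper69): pulling a Ricci–DeTurck flow back to a Ricci flow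
-/

set_option autoImplicit false
set_option linter.unusedSectionVars false

open scoped ContDiff Manifold Topology
open Set Filter
open Crest.GeometryTopology.CoordMetric Crest.GeometryTopology.ChartCurvature
open Crest.Agent.R247 Crest.Agent.R202.Tens

noncomputable section

namespace Crest.Agent.N207.B

universe u

variable {n : ℕ} {M : Type u} [TopologicalSpace M] [ChartedSpace (En n) M]
  [IsManifold 𝓘(ℝ, En n) ∞ M]

/-- `∂ₜ g = -2 Ric(g) - L_b g` in every preferred chart, at the times of `J` -/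
def RDTOn (g : ℝ → Met n M) (b : M → ℝ × En n → En n) (J : Set ℝ) : Prop :=
  ∀ x, ∀ t ∈ J, ∀ y ∈ tg n x, ∀ i j, HasDerivAt (fun s => (g s).G x y i j)
    (-2 * ricci ((g t).G x) y i j - lieG (fun z => b x (t, z)) ((g t).G x) y i j) t

namespace IsFlow

variable {b : M → ℝ × En n → En n} {s : ℝ} {φ ψ : ℝ → M → M}

/-- the family `φ_t^* g_t` -/
def pb (h : IsFlow b s φ ψ) (g : ℝ → Met n M) (t : ℝ) : Met n M :=
  pbM (g t) (φ t) (h.contMDiff t) (h.inj t)

theorem pb_zero (h : IsFlow b s φ ψ) (g : ℝ → Met n M) : h.pb g 0 = g 0 :=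
  pbM_of_eq_id _ (funext h.zero) _ _

theorem pb_G (h : IsFlow b s φ ψ) (g : ℝ → Met n M) {t : ℝ} {x z : M} {y : En n}
    (hy : y ∈ rdD n (φ t) x z) (i j : Fin n) :
    (h.pb g t).G x y i j = ∑ a, ∑ c, (g t).G z (rdC n φ x z (t, y)) a c *
      (fderiv ℝ (fun w => rdC n φ x z (t, w)) y (EuclideanSpace.single i 1)) a *
      (fderiv ℝ (fun w => rdC n φ x z (t, w)) y (EuclideanSpace.single j 1)) c :=
  pbM_G (g t) _ _ hy i j

theorem smFam_pb (h : IsFlow b s φ ψ) {g : ℝ → Met n M} {J : Set ℝ} (hg : SmFam g J) :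
    SmFam (h.pb g) J := by
  rintro x i j ⟨t, y⟩ ⟨ht, hy⟩
  have hd := mem_rdD_self (φ t) hy
  set z := φ t ((chartAt (En n) x).symm y)
  have h1 : ContDiffAt ℝ ∞ (rdC n φ x z) (t, y) := h.sm.sm t x z y hy hd.2
  have hn := (h.sm.isOpen_dom x z).mem_nhds (x := (t, y)) hd
  have h2 : ∀ (u : En n) (a : Fin n), ContDiffAt ℝ ∞
      (fun p : ℝ × En n => fderiv ℝ (fun w => rdC n φ x z (p.1, w)) p.2 u a) (t, y) := by
    intro u a
    have h3 : ContDiffAt ℝ ∞ (fun p : ℝ × En n => fderiv ℝ (fun w => rdC n φ x z (p.1, w)) p.2)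
        (t, y) := by
      refine ContDiffAt.fderiv (f := fun (p : ℝ × En n) w => rdC n φ x z (p.1, w))
        (g := fun p => p.2) (n := ∞) ?_ contDiffAt_snd (by simp)
      exact ContDiffAt.comp (g := rdC n φ x z)
        (f := fun q : (ℝ × En n) × En n => (q.1.1, q.2)) ((t, y), y) h1 (by fun_prop)
    exact (EuclideanSpace.proj a : En n →L[ℝ] ℝ).contDiff.contDiffAt.comp (t, y)
      (h3.clm_apply contDiffAt_const)
  have h4 : ∀ a c, ContDiffWithinAt ℝ ∞ (fun p : ℝ × En n => (g p.1).G z (rdC n φ x z p) a c)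
      (J ×ˢ tg n x) (t, y) := by
    intro a c
    have h5 : ContDiffWithinAt ℝ ∞ (fun p : ℝ × En n => (g p.1).G z p.2 a c) (J ×ˢ tg n z)
        ((fun p : ℝ × En n => (p.1, rdC n φ x z p)) (t, y)) :=
      hg z a c _ ⟨ht, (chartAt (En n) z).map_source hd.2⟩
    refine h5.comp_of_preimage_mem_nhdsWithin (f := fun p : ℝ × En n => (p.1, rdC n φ x z p))
      (t, y) (contDiffAt_fst.prodMk h1).contDiffWithinAt ?_
    filter_upwards [nhdsWithin_le_nhds hn, self_mem_nhdsWithin] with p h6 h7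
    exact ⟨h7.1, (chartAt (En n) z).map_source h6.2⟩
  have h8 : ContDiffWithinAt ℝ ∞ (fun p : ℝ × En n => ∑ a, ∑ c,
      (g p.1).G z (rdC n φ x z p) a c *
      (fderiv ℝ (fun w => rdC n φ x z (p.1, w)) p.2 (EuclideanSpace.single i 1)) a *
      (fderiv ℝ (fun w => rdC n φ x z (p.1, w)) p.2 (EuclideanSpace.single j 1)) c)
      (J ×ˢ tg n x) (t, y) :=
    ContDiffWithinAt.sum fun a _ => ContDiffWithinAt.sum fun c _ =>
      ((h4 a c).mul (h2 _ a).contDiffWithinAt).mul (h2 _ c).contDiffWithinAt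
  refine h8.congr_of_eventuallyEq ?_ (h.pb_G g hd i j)
  filter_upwards [nhdsWithin_le_nhds hn] with p hp using h.pb_G g hp i j

/-- derivative of the pulled-back family for an arbitrary time derivative `H` of `g` -/
theorem hasDerivAt_pb (h : IsFlow b s φ ψ) {g : ℝ → Met n M} {J : Set ℝ} (hg : SmFam g J)
    {t : ℝ} (ht : t ∈ Icc 0 s) (hJ : J ∈ 𝓝 t) {x z : M} {y : En n} (hy : y ∈ rdD n (φ t) x z)
    (hb : DifferentiableAt ℝ (fun w => b z (t, w)) (rdC n φ x z (t, y))) {H : Fin n → Fin n → ℝ}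
    (hH : ∀ a c, HasDerivAt (fun r => (g r).G z (rdC n φ x z (t, y)) a c) (H a c) t)
    (i j : Fin n) :
    HasDerivAt (fun r => (h.pb g r).G x y i j)
      (∑ a, ∑ c, (H a c + lieG (fun w => b z (t, w)) ((g t).G z) (rdC n φ x z (t, y)) a c) *
        (fderiv ℝ (fun w => rdC n φ x z (t, w)) y (EuclideanSpace.single i 1)) a *
        (fderiv ℝ (fun w => rdC n φ x z (t, w)) y (EuclideanSpace.single j 1)) c) t := by
  have hn := (h.sm.isOpen_dom x z).mem_nhds (x := (t, y)) hy
  have h1 := hasDerivAt_pull (Φ := rdC n φ x z) (G := fun r => (g r).G z)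
    (h.sm.sm t x z y hy.1 hy.2) hb ?_ ?_ hH (EuclideanSpace.single i 1) (EuclideanSpace.single j 1)
  · refine h1.congr_of_eventuallyEq ?_
    have c : ContinuousAt (fun r : ℝ => (r, y)) t := by fun_prop
    filter_upwards [c.eventually hn] with r hr using h.pb_G g hr i j
  · have c : ContinuousAt (fun w : En n => (t, w)) y := by fun_prop
    filter_upwards [c.eventually hn] with w hw using h.ode_rdC ht hw.2
  · intro a c
    exact ((hg z a c).contDiffAt (prod_mem_nhds hJ ((chartAt (En n) z).open_target.mem_nhds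
      ((chartAt (En n) z).map_source hy.2)))).differentiableAt (by simp)

theorem rfOn_pb (h : IsFlow b s φ ψ) {g : ℝ → Met n M} {J : Set ℝ} (hJ : IsOpen J)
    (hs : J ⊆ Icc 0 s) (hg : SmFam g J)
    (hb : ∀ x, ∀ t ∈ J, DifferentiableOn ℝ (fun w => b x (t, w)) (tg n x)) (he : RDTOn g b J) :
    RFOn (h.pb g) J := by
  intro x t ht y hy i j
  have hd := mem_rdD_self (φ t) hy
  set z := φ t ((chartAt (En n) x).symm y)
  have hz : rdC n φ x z (t, y) ∈ tg n z := (chartAt (En n) z).map_source hd.2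
  have h1 := h.hasDerivAt_pb hg (hs ht) (hJ.mem_nhds ht) hd
    ((hb z t ht).differentiableAt ((chartAt (En n) z).open_target.mem_nhds hz))
    (he z t ht _ hz) i j
  refine h1.congr_deriv ?_
  have h2 := ricci_pbM (g t) (h.contMDiff t) (h.inj t) hd i j
  rw [show ricci ((h.pb g t).G x) y i j = _ from h2, Finset.mul_sum]
  refine Finset.sum_congr rfl fun a _ => ?_
  rw [Finset.mul_sum]
  refine Finset.sum_congr rfl fun c _ => ?_
  change _ = -2 * (ricci ((g t).G z) (rdC n φ x z (t, y)) a c *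
    (fderiv ℝ (fun w => rdC n φ x z (t, w)) y (EuclideanSpace.single i 1)) a *
    (fderiv ℝ (fun w => rdC n φ x z (t, w)) y (EuclideanSpace.single j 1)) c)
  ring

end IsFlow

/-- **a solution of `∂ₜ g = -2 Ric - L_b g` gives a Ricci flow with the same initial metric** -/
theorem exists_rf [CompactSpace M] [T2Space M] {τ : ℝ} (hτ : 0 < τ) {g : ℝ → Met n M}
    {b : M → ℝ × En n → En n} (hg : SmFam g (Icc 0 τ))
    (hb : ∀ x, ContDiffOn ℝ ∞ (b x) (Icc 0 τ ×ˢ tg n x)) (hc : VCompat b (Icc 0 τ))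
    (he : RDTOn g b (Ioo 0 τ)) :
    ∃ m : ℝ → Met n M, SmFam m (Icc 0 (τ / 2)) ∧ RFOn m (Ioo 0 (τ / 2)) ∧ m 0 = g 0 := by
  obtain ⟨φ, ψ, h⟩ := exists_flow hτ hb hc
  have h1 : Ioo 0 (τ / 2) ⊆ Ioo 0 τ := Ioo_subset_Ioo_right (by linarith)
  refine ⟨h.pb g, h.smFam_pb (hg.mono (Icc_subset_Icc_right (by linarith))),
    h.rfOn_pb isOpen_Ioo Ioo_subset_Icc_self (hg.mono (h1.trans Ioo_subset_Icc_self)) ?_
      (fun x t ht => he x t (h1 ht)), h.pb_zero g⟩
  intro x t ht
  refine ((hb x).comp (f := fun w : En n => (t, w)) (by fun_prop) fun w hw =>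
    ⟨Ioo_subset_Icc_self (h1 ht), hw⟩).differentiableOn (by simp)


end Crest.Agent.N207.B

end
end

-- ▼ part N207/B/Ste2
section

/-!
# Row 207, block B STE, part 5 (helper69): short time existence of the Ricci flow from the
quasilinear solver
-/

set_option autoImplicit false
set_option linter.unusedSectionVars false

open scoped ContDiff Manifold Topology Matrix
open Set Filter
open Crest.GeometryTopology.CoordMetric Crest.GeometryTopology.ChartCurvature
open Crest.Agent.R247 Crest.Agent.R202.Tens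

noncomputable section

namespace Crest.Agent.N207.B

universe u

variable {n : ℕ} {M : Type u} [TopologicalSpace M] [ChartedSpace (En n) M]
  [IsManifold 𝓘(ℝ, En n) ∞ M] {V : Type} [NormedAddCommGroup V] [NormedSpace ℝ V]

theorem DT_congr {G G' : MetricField n} {y : En n} (h : G =ᶠ[𝓝 y] G') (H : MetricField n)
    (i j : Fin n) : DT G H y i j = DT G' H y i j := by
  have h1 : dtV G H =ᶠ[𝓝 y] dtV G' H := by
    filter_upwards [h, chr_congr_ev h] with z h2 h3
    simp only [dtV, h2, h3]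
  have h2 : ∀ m k, pderiv m (fun z => dtV G H z k) y = pderiv m (fun z => dtV G' H z k) y :=
    fun m k => pd_congr m (h1.mono fun z hz => by simp only [hz])
  have h3 : ∀ k, pderiv k (fun z => G z i j) y = pderiv k (fun z => G' z i j) y :=
    fun k => pd_congr k (h.mono fun z hz => by simp only [hz])
  simp only [DT, lieG, ricci_congr h, h1.eq_of_nhds, h.eq_of_nhds, h2, h3]

theorem contMDiff_of_rd {u : M → V} (hu : ∀ x, ContDiffOn ℝ ∞ (P.rd n x u) (tg n x)) :
    ContMDiff 𝓘(ℝ, En n) 𝓘(ℝ, V) ∞ u := by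
  intro x
  have hx := mem_chart_source (En n) x
  have h1 : ContMDiffAt 𝓘(ℝ, En n) 𝓘(ℝ, En n) ∞ (chartAt (En n) x) x :=
    contMDiffOn_chart.contMDiffAt ((chartAt (En n) x).open_source.mem_nhds hx)
  have h2 : ContDiffAt ℝ ∞ (P.rd n x u) (chartAt (En n) x x) :=
    (hu x).contDiffAt ((isOpen_tg x).mem_nhds (ctr_mem x))
  refine (h2.contMDiffAt.comp x h1).congr_of_eventuallyEq ?_
  filter_upwards [(chartAt (En n) x).open_source.mem_nhds hx] with p hp
  exact congrArg u ((chartAt (En n) x).left_inv hp).symm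

namespace Emb

variable (E : Emb n M V)

/-- the function of a metric -/
def ofMet (h : Met n M) (p : M) : V := ∑ i, ∑ j, h.G p (ctr n p) i j • E.e p (ctr n p) i j

theorem rd_ofMet (h : Met n M) {x : M} {y : En n} (hy : y ∈ tg n x) :
    P.rd n x (E.ofMet h) y = ∑ i, ∑ j, h.G x y i j • E.e x y i j :=
  (E.tre x _ y (mem_tdom_self hy) _ _ ((h.pull_trans x _).pull y (mem_tdom_self hy))).symm

theorem sm_ofMet (h : Met n M) : ContMDiff 𝓘(ℝ, En n) 𝓘(ℝ, V) ∞ (E.ofMet h) :=
  contMDiff_of_rd fun x => ContDiffOn.congr (ContDiffOn.sum fun i _ => ContDiffOn.sum fun j _ =>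
    ContDiffOn.smul (f := fun y => h.G x y i j) ((h.isRiem x).contDiffOn i j) (E.se x i j))
    fun _ hy => E.rd_ofMet h hy

theorem Gf_ofMet (h : Met n M) {x : M} {y : En n} (hy : y ∈ tg n x) :
    E.Gf x (P.rd n x (E.ofMet h)) y = h.G x y := by
  ext i j
  show E.c x y i j (P.rd n x (E.ofMet h) y) = _
  rw [E.rd_ofMet h hy]
  exact E.dual x y hy _ (metric_symm (h.isRiem x) hy) i j

theorem ofMet_mem (h : Met n M) (p : M) : (p, E.ofMet h p) ∈ E.O := by
  have h1 := E.Gf_ofMet h (ctr_mem (n := n) p)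
  have h2 := (posDef_iff (E := E) (ctr_mem (n := n) p) (P.rd n p (E.ofMet h) (ctr n p))).1
    (by
      have h3 := (h.isRiem p).posDef _ (ctr_mem p)
      rwa [← h1] at h3)
  rwa [P.rd, symm_ctr] at h2

/-- the metric of an admissible function -/
def toMet (u : M → V) (hu : ContMDiff 𝓘(ℝ, En n) 𝓘(ℝ, V) ∞ u) (hO : ∀ p, (p, u p) ∈ E.O) :
    Met n M :=
  Met.ofCT (fun x => matT (E.Gf x (P.rd n x u)))
    ⟨fun x => SmT.met (riemOn_mono (riem_rd isOpen_univ hu.contMDiffOn (fun p _ => hO p) x)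
      (isOpen_tg x) fun _ hy => ⟨hy, mem_univ _⟩),
    fun x₀ x₁ _ hy => AI.matT_pull (pull_rd isOpen_univ hu.contMDiffOn (fun p _ => hO p) x₀ x₁)
      ⟨hy, hy.1, mem_univ _⟩⟩
    fun x => (riem_rd isOpen_univ hu.contMDiffOn (fun p _ => hO p) x).posDef _
      ⟨ctr_mem x, mem_univ _⟩

theorem toMet_G (u : M → V) (hu hO) {x : M} {y : En n} (hy : y ∈ tg n x) :
    (E.toMet u hu hO).G x y = E.Gf x (P.rd n x u) y := by
  ext i j
  exact Met.ofCT_G _ _ _ x hy i j

end Emb

theorem sm_dtV_fam {g : ℝ → Met n M} {J : Set ℝ} (hg : SmFam g J) (h : Met n M) (x : M) :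
    ContDiffOn ℝ ∞ (fun q : ℝ × En n => dtV ((g q.1).G x) (h.G x) q.2) (J ×ˢ tg n x) := by
  have c1 := hg.cfam x
  have c2 := (smFam_const h J).cfam x
  refine contDiffOn_euclidean.2 fun k => ?_
  have h1 : ContDiffOn ℝ ∞ (fun q : ℝ × En n => -∑ p, ∑ r, ((g q.1).G x q.2)⁻¹ p r *
      (christoffel ((g q.1).G x) q.2 k p r - christoffel (h.G x) q.2 k p r)) (J ×ˢ tg n x) :=
    (ContDiffOn.sum fun p _ => ContDiffOn.sum fun q _ =>
      (c1.st_inv p q).mul ((c1.st_chris k p q).sub (c2.st_chris k p q))).neg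
  exact h1

theorem vcompat_dtV (g : ℝ → Met n M) (h : Met n M) (J : Set ℝ) :
    VCompat (fun x (q : ℝ × En n) => dtV ((g q.1).G x) (h.G x) q.2) J := by
  intro x₀ x₁ t _ y hy
  have h1 := dtV_pull ((g t).pull_trans x₀ x₁) (h.pull_trans x₀ x₁) hy
  simpa only using h1

/-- **short time existence of the Ricci–DeTurck flow and of the Ricci flow** -/
theorem ste_of_emb [CompactSpace M] [T2Space M] (E : Emb n M V) (hQL : P.QLStmt n M V)
    (h : Met n M) : ∃ τ : ℝ, 0 < τ ∧ ∃ (g : ℝ → Met n M) (b : M → ℝ × En n → En n),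
      SmFam g (Icc 0 τ) ∧ (∀ x, ContDiffOn ℝ ∞ (b x) (Icc 0 τ ×ˢ tg n x)) ∧
      VCompat b (Icc 0 τ) ∧ RDTOn g b (Ioo 0 τ) ∧ g 0 = h := by
  classical
  obtain ⟨τ, hτ, -, u, hu0, sol⟩ := hQL 0 1 E.O (fun _ => E.Op h) (E.qlop h _) (E.ofMet h) one_pos
    Emb.isOpen_O (E.sm_ofMet h) (E.ofMet_mem h)
  have hu : ∀ t ∈ Icc 0 τ, ContMDiff 𝓘(ℝ, En n) 𝓘(ℝ, V) ∞ (u t) := fun t ht =>
    contMDiff_of_rd fun x => (sol.sm x).comp (f := fun y : En n => (t, y)) (by fun_prop)
      fun _ hy => ⟨ht, hy⟩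
  let g : ℝ → Met n M := fun t =>
    if ht : t ∈ Icc 0 τ then E.toMet (u t) (hu t ht) (sol.mem t ht) else h
  have hG : ∀ t ∈ Icc 0 τ, ∀ x, ∀ y ∈ tg n x, (g t).G x y = E.Gf x (P.rd n x (u t)) y := by
    intro t ht x y hy
    simp only [g, dif_pos ht]
    exact E.toMet_G _ _ _ hy
  have hg : SmFam g (Icc 0 τ) := by
    intro x i j
    have h1 : ContDiffOn ℝ ∞ (fun q : ℝ × En n => E.c x q.2 i j) (Icc 0 τ ×ˢ tg n x) :=
      (E.sc x i j).comp contDiffOn_snd fun q hq => hq.2
    refine ContDiffOn.congr (h1.clm_apply (sol.sm x)) fun q hq => ?_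
    exact congrFun (congrFun (hG q.1 hq.1 x q.2 hq.2) i) j
  refine ⟨τ, hτ, g, fun x q => dtV ((g q.1).G x) (h.G x) q.2, hg, sm_dtV_fam hg h,
    vcompat_dtV g h _, ?_, ?_⟩
  · intro x t ht y hy i j
    have ht' := Ioo_subset_Icc_self ht
    have hn : Icc 0 τ ∈ 𝓝 t := Icc_mem_nhds ht.1 ht.2
    have h1 := (sol.eqn t ht' ((chartAt (En n) x).symm y)).hasDerivAt hn
    have h2 := (E.c x y i j).hasFDerivAt.comp_hasDerivAt t h1
    have hr := Emb.riem_rd isOpen_univ (hu t ht').contMDiffOn (fun p _ => sol.mem t ht' p) x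
    rw [add_zero, Emb.Op_chart isOpen_univ (hu t ht').contMDiffOn (fun p _ => sol.mem t ht' p) hy
      (mem_univ _), Emb.c_opC hr ⟨hy, mem_univ _⟩ hy] at h2
    have h3 : (g t).G x =ᶠ[𝓝 y] E.Gf x (P.rd n x (u t)) := by
      filter_upwards [(isOpen_tg x).mem_nhds hy] with z hz using hG t ht' x z hz
    rw [← DT_congr h3] at h2
    have h4 : HasDerivAt (fun s => (g s).G x y i j) (DT ((g t).G x) (h.G x) y i j) t := by
      refine HasDerivAt.congr_of_eventuallyEq h2 ?_
      filter_upwards [hn] with s hs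
      exact congrFun (congrFun (hG s hs x y hy) i) j
    exact h4
  · refine Met.ext_G fun x => ?_
    rw [hG 0 ⟨le_rfl, hτ.le⟩ x _ (ctr_mem x), hu0, E.Gf_ofMet h (ctr_mem x)]

/-- **(STE)**, general dimension -/
theorem ste_rf [CompactSpace M] [T2Space M] (hQL : ∀ N : ℕ, P.QLStmt n M (Fin N → Fin N → ℝ))
    (h : Met n M) : ∃ s : ℝ, 0 < s ∧ ∃ m : ℝ → Met n M,
      SmFam m (Icc 0 s) ∧ RFOn m (Ioo 0 s) ∧ m 0 = h := by
  obtain ⟨N, ⟨E⟩⟩ := exists_emb (n := n) (M := M)
  obtain ⟨τ, hτ, g, b, h1, h2, h3, h4, h5⟩ := ste_of_emb E (hQL N) h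
  obtain ⟨m, k1, k2, k3⟩ := exists_rf hτ h1 h2 h3 h4
  exact ⟨τ / 2, by linarith, m, k1, k2, k3.trans h5⟩

/-- **(STE)** -/
theorem ste {M : Type u} [TopologicalSpace M] [ChartedSpace E4 M] [IsManifold 𝓘(ℝ, E4) ∞ M]
    [CompactSpace M] [T2Space M] (hQL : ∀ N : ℕ, P.QLStmt 4 M (Fin N → Fin N → ℝ))
    (m0 : Met 4 M) : ∃ F : Flow M, F.m 0 = m0 := by
  obtain ⟨s, hs, m, h1, h2, h3⟩ := ste_rf hQL m0
  exact ⟨⟨s, hs, m, h1.mono Ico_subset_Icc_self, h2⟩, h3⟩

end Crest.Agent.N207.B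

end
end

-- ▼ part N207/B/Ste3
section

/-!
# Row 207, block B STE, part 6 (helper69): short time existence of the Ricci flow
-/

set_option autoImplicit false

open scoped ContDiff Manifold

namespace Crest.Agent.N207.B

universe u

/-- **short time existence of the Ricci flow** on a closed four-manifold -/
theorem ste' {M : Type u} [TopologicalSpace M] [ChartedSpace E4 M] [IsManifold 𝓘(ℝ, E4) ∞ M]
    [CompactSpace M] [T2Space M] (m0 : Met 4 M) : ∃ F : Flow M, F.m 0 = m0 :=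
  ste (fun _ => P.qlS 4 M _) m0

end Crest.Agent.N207.B
end

-- ▼ part N207/Sk/Base

/-!
# Row 207 (helper40): the blocks A - E glued; the statement modulo four blocks
-/

set_option autoImplicit false
set_option linter.unusedSectionVars false

open scoped ContDiff Manifold Topology
open Set MeasureTheory Filter
open Crest.GeometryTopology.CoordMetric Crest.GeometryTopology.ChartCurvature
  Crest.GeometryTopology.MetricFamily

noncomputable section

namespace Crest.Agent.N207.Sk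

section

variable {M : Type*} [TopologicalSpace M] [ChartedSpace E4 M] [IsManifold 𝓘(ℝ, E4) ∞ M]
  [T3Space M] [ConnectedSpace M] [MeasurableSpace M] [BorelSpace M] [CompactSpace M]
  [SecondCountableTopology M]

theorem hc_ok (F : Flow M) {C : ℝ} (hC : F.BddR C) : F.hc.Ok where
  alg := F.alg
  int := V.intg F
  evo := AI.evo F F.alg (A.cevo 4) hC
  solv := F.hc_solv
  dist := F.hc_dist
  sob0 := SB.sob0 F
  bump := SB.bump F F.alg
  gbv := V.gbv F

/-- the blocks A - E -/
theorem base (F : Flow M) {C : ℝ} (hC : F.BddR C) : Base F := by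
  obtain ⟨c, d, p, e⟩ := HC.cde (hc_ok F hC) F.hc_solv2
  exact ⟨hc_ok F hC, F.hc_solv2, c, d, p, e⟩

/-- bounded curvature gives the extension -/
theorem extends_of_bddRm (F : Flow M) (hB : Base F) (h : F.BddRm) : F.Extends := by
  refine F.extends_of_shi (fun j => ?_) fun m₀ => B.ste' m₀
  obtain ⟨C, hC⟩ := F.shi hB.ok.evo h j
  exact ⟨C, fun t ht x => hC t ⟨by linarith [ht.1, F.hT], ht.2⟩ x⟩

theorem extends_of (F : Flow M) {C : ℝ} (hC : F.BddR C) (hT : TOP F) (hP : PEST F) (hΦ : PHI' F)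
    (hW : WL' F) : F.Extends :=
  extends_of_bddRm F (base F hC) (asm (base F hC) hT hP hΦ hW)

end

/-- the statement, from the four blocks -/
theorem s0319_mod (M : Type*) [TopologicalSpace M] [T2Space M] [SecondCountableTopology M]
    [CompactSpace M] [ConnectedSpace M] [ChartedSpace E4 M] [IsManifold 𝓘(ℝ, E4) ∞ M]
    (H : ∀ [T3Space M] [MeasurableSpace M] [BorelSpace M] (F : Flow M) (C : ℝ), F.BddR C → Base F →
      TOP F ∧ PEST F ∧ PHI' F ∧ WL' F)
    (T : ℝ) (hT : 0 < T) (g : FormFamily 𝓘(ℝ, E4) M)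
    (hg : IsRicciFlowOn 𝓘(ℝ, E4) (ContinuousLinearEquiv.refl ℝ E4) M g T)
    (hR : HasBoundedScalarCurvature 𝓘(ℝ, E4) (ContinuousLinearEquiv.refl ℝ E4) M g T) :
    ∃ ε : ℝ, 0 < ε ∧ ∃ g' : FormFamily 𝓘(ℝ, E4) M,
      IsRicciFlowOn 𝓘(ℝ, E4) (ContinuousLinearEquiv.refl ℝ E4) M g' (T + ε) ∧
        ∀ t ∈ Set.Ico 0 T, g' t = g t := by
  letI : MeasurableSpace M := borel M
  haveI : BorelSpace M := ⟨rfl⟩
  refine s0319_of (fun F C hC => ?_) T hT g hg hR
  obtain ⟨h1, h2, h3, h4⟩ := H F C hC (base F hC)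
  exact extends_of F hC h1 h2 h3 h4

end Crest.Agent.N207.Sk

end
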