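import Crest.Agent.N207.U.Curv_Mg
import Crest.Agent.N207.GE.Dist
import Crest.Agent.N207.I.Cfg2
import Crest.Agent.N207.I.Greedy
import Crest.Agent.N207.I.Tree2
import Crest.Agent.N207.V.Gbv
import Crest.Agent.N207.Sk.Defs
import Crest.Agent.N207.I.NkExt
import Crest.Agent.N207.Sk.Dyn2
import Crest.Agent.N207.T.Pers3
import Crest.Agent.N207.I.Pre3
import Crest.Agent.N207.I.NkRot
import Crest.Agent.N207.A.Arr
import Crest.Agent.N207.V.Area
import Crest.Agent.N207.AI.Par2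
import Crest.Agent.N207.Sk.Sta
import Crest.Agent.N207.Rad.Crd
import Crest.Agent.N207.Sk.Sta2
import Crest.Agent.N207.I.Pre
import Crest.Agent.N207.I.NkRs
import Crest.Agent.N207.F.Tm1
import Crest.Agent.N207.A.Co3
import Crest.Agent.N207.F.Nc8
import Crest.Agent.N207.F.Stat
import Crest.Agent.N207.I.Act1
import Crest.Agent.N207.I.Car3
import Crest.Agent.N207.Sk.Base
import Crest.Agent.N207.G.Main
import Crest.Agent.N207.T.Wd4_Mg
import Crest.Agent.N207.T.TopB

-- ▼ part N207/NP/Fin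
section

/-!
# Row 207, block P (helper85): `PEST`
-/

set_option autoImplicit false
set_option linter.dupNamespace false

open scoped ContDiff Manifold

namespace Crest.Agent.N207.NP

variable {M : Type*} [TopologicalSpace M] [ChartedSpace E4 M] [IsManifold 𝓘(ℝ, E4) ∞ M]
  [T3Space M] [ConnectedSpace M] [MeasurableSpace M] [BorelSpace M] [CompactSpace M]

/-- block P -/
theorem pestF {F : Flow M} (hB : Sk.Base F) : Sk.PEST F :=
  pest (Rad.rad hB (Sk.distN hB)) U.npCurv (ph_main hB.ok hB.e.reg)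

end Crest.Agent.N207.NP
end

-- ▼ part N207/I/Geo1
section

/-!
# Row 207, block I (helper98): metric geometry of a tree of necks at one index
-/

set_option autoImplicit false
set_option linter.unusedSectionVars false

open scoped ContDiff Topology Manifold
open Set Filter Metric

noncomputable section

namespace Crest.Agent.N207.I

open Sk

variable {M : Type*} [TopologicalSpace M] [ChartedSpace E4 M] [IsManifold 𝓘(ℝ, E4) ∞ M]

/-- normalised necks `N v` (unit `s v`) with centres `c v` -/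
structure TG {V : Type} (root : V) (par : V → V) (dep : V → ℕ) (r : ℝ) (N : V → Nk M) (s L : V → ℝ)
    (c : V → M) (d : M → M → ℝ) (K : ℝ) : Prop where
  pd : PD d
  dep_root : dep root = 0
  dep_par : ∀ w, w ≠ root → dep w = dep (par w) + 1
  r_pos : 0 < r
  r_le : r ≤ 1 / 100
  top : ∀ v, (N v).Top
  a_eq : ∀ v, (N v).a = 3 / 4
  b_root : (N root).b = 6
  b_kid : ∀ w, w ≠ root → (N w).b = 2 * r * Real.exp (L w)
  long : ∀ w, w ≠ root → 64 ≤ r * Real.exp (L w)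
  s_pos : ∀ v, 0 < s v
  s_par : ∀ w, w ≠ root → s (par w) = Real.exp (L w) * s w
  c_in : ∀ v, c v ∈ (N v).In
  lo : ∀ v p q, 9 / 10 * s v * ((N v).rad p - (N v).rad q) ≤ d q p
  up : ∀ v t, 0 ≤ t → t ≤ (N v).b → ∀ p ∈ (N v).Om t, d (c v) p ≤ s v * (2 * t + K)
  K_le : ∀ w, w ≠ root → K ≤ r * Real.exp (L w)
  ctr : ∀ w, w ≠ root → (N (par w)).rad (c w) ≤ 13 / 16
  sib : ∀ w w', w ≠ root → w' ≠ root → par w = par w' → w ≠ w' → 10 * r * s (par w) < d (c w) (c w')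

/-- the core region -/
def creg {M : Type*} {V : Type} (root : V) (par : V → V) (r : ℝ) (N : V → Nk M) (L : V → ℝ) (v : V) :
    Set M :=
  {p | p ∈ (N v).Om 2 ∧ ∀ w, w ≠ root ∧ par w = v → p ∉ (N w).Om (r / 2 * Real.exp (L w))}

namespace TG

variable {V : Type} {root : V} {par : V → V} {dep : V → ℕ} {r : ℝ} {N : V → Nk M} {s L : V → ℝ}
  {c : V → M} {d : M → M → ℝ} {K : ℝ} (h : TG root par dep r N s L c d K)
include h

theorem b_ge (v : V) : 6 ≤ (N v).b := by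
  by_cases hv : v = root
  · rw [hv, h.b_root]
  · rw [h.b_kid v hv]; linarith [h.long v hv]

theorem mem_Om (v : V) {t : ℝ} (h1 : 3 / 4 < t) (h2 : t ≤ (N v).b) {p : M} :
    p ∈ (N v).Om t ↔ (N v).rad p < t := (h.top v).mem_Om ⟨by rw [h.a_eq]; exact h1, h2⟩

theorem near {w : V} (hw : w ≠ root) {p : M} (hp : p ∈ (N w).Om (N w).b) :
    d (c w) p ≤ 5 * r * s (par w) := by
  have h1 := h.up w _ (by linarith [h.b_ge w]) le_rfl p hp
  have h2 := mul_le_mul_of_nonneg_left (h.K_le w hw) (h.s_pos w).le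
  rw [h.b_kid w hw] at h1
  rw [h.s_par w hw]
  nlinarith

theorem nest {w : V} (hw : w ≠ root) : (N w).Om (N w).b ⊆ (N (par w)).Om (7 / 8) := fun p hp => by
  rw [h.mem_Om _ (by norm_num) (by linarith [h.b_ge (par w)])]
  have h1 := (h.lo (par w) p (c w)).trans (h.near hw hp)
  have h2 := h.s_pos (par w)
  have h3 := h.ctr w hw
  have h4 := mul_le_mul_of_nonneg_right h.r_le h2.le
  by_contra h5
  have h6 := mul_le_mul_of_nonneg_left
    (show (1 : ℝ) / 16 ≤ (N (par w)).rad p - (N (par w)).rad (c w) by linarith) h2.le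
  linarith

theorem sib' {w w' : V} (hw : w ≠ root) (hw' : w' ≠ root) (e : par w = par w') (hne : w ≠ w') :
    Disjoint ((N w).Om (N w).b) ((N w').Om (N w').b) := by
  refine disjoint_left.2 fun p hp hp' => ?_
  have h1 := h.near hw hp
  have h2 := h.near hw' hp'
  have h3 := h.pd.tri (c w) p (c w')
  rw [h.pd.symm p] at h3
  rw [← e] at h2
  linarith [h.sib w w' hw hw' e hne]

theorem sub_root (v : V) (hv : v ≠ root) : (N v).Om (N v).b ⊆ (N root).Om (7 / 8) := by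
  induction hd : dep v generalizing v with
  | zero => have := h.dep_par v hv; omega
  | succ n ih =>
    by_cases hp : par v = root
    · exact hp ▸ h.nest hv
    · exact ((h.nest hv).trans ((N _).om_mono (by linarith [h.b_ge (par v)]))).trans
        (ih _ hp (by have := h.dep_par v hv; omega))

theorem creg_sub (v : V) : creg root par r N L v ⊆ (N root).Om 3 := fun p hp => by
  by_cases hv : v = root
  · subst hv; exact (N _).om_mono (by norm_num) hp.1
  · exact (N _).om_mono (by norm_num)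
      (h.sub_root v hv ((N _).om_mono (by linarith [h.b_ge v]) hp.1))

theorem creg_up {v : V} {p : M} (hp : p ∈ creg root par r N L v) : d (c v) p ≤ s v * (4 + K) := by
  have := h.up v 2 (by norm_num) (by linarith [h.b_ge v]) p hp.1
  linarith

theorem creg_rad {v w : V} (hw : w ≠ root) (e : par w = v) {p : M} (hp : p ∈ creg root par r N L v) :
    r / 2 * Real.exp (L w) ≤ (N w).rad p := by
  have h1 := hp.2 w ⟨hw, e⟩
  have h2 := h.long w hw
  rwa [h.mem_Om w (by linarith) (by rw [h.b_kid w hw]; linarith), not_lt] at h1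

theorem creg_lo {v w : V} (hw : w ≠ root) (e : par w = v) {p : M} (hp : p ∈ creg root par r N L v) :
    2 / 5 * r * s v ≤ d p (c w) := by
  have h1 := h.lo w p (c w)
  rw [(h.top w).rad_In (h.c_in w), h.a_eq, h.pd.symm] at h1
  have h2 := h.creg_rad hw e hp
  have h3 := h.long w hw
  have h4 := mul_le_mul_of_nonneg_left
    (show 4 / 9 * (r * Real.exp (L w)) ≤ (N w).rad p - 3 / 4 by linarith) (h.s_pos w).le
  rw [← e, h.s_par w hw]
  nlinarith

end TG

/-- **the configuration from the metric data** -/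
theorem TG.cfg {T0 : TD M} {N : T0.V → Nk M} {s L : T0.V → ℝ} {c : T0.V → M} {d : M → M → ℝ} {K : ℝ}
    (h : TG T0.root T0.par T0.dep T0.r N s L c d K) (grp : ∀ v, (N v).Γ = T0.Γ v)
    {φ : T0.B → E4 → M} {y : T0.B → M} {σ : T0.V → ℝ} (hσ : ∀ v, σ v ≤ T0.r * s v / 50)
    (par : ∀ a, Par (φ a) (ball 0 4)) (inj : ∀ a, InjOn (φ a) (ball 0 4))
    (hy : ∀ a, y a ∈ creg T0.root T0.par T0.r N L (T0.vx a))
    (h4 : ∀ a, ∀ x ∈ ball (0 : E4) 4, d (φ a x) (y a) < 4 * σ (T0.vx a))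
    (h1 : ∀ a p, d p (y a) < σ (T0.vx a) → p ∈ φ a '' ball 0 1)
    (net : ∀ v, ∀ p ∈ creg T0.root T0.par T0.r N L v, ∃ a, T0.vx a = v ∧ d p (y a) < σ v) :
    T0.Cfg N φ L := by
  have hr := h.r_pos
  refine ⟨⟨h.dep_root, h.dep_par, hr, by linarith [h.r_le]⟩, h.top, grp, h.a_eq, h.b_root, h.b_kid,
    h.long, par, inj, fun v w hk => hk.2 ▸ h.nest hk.1,
    fun v w w' hk hk' hw => h.sib' hk.1 hk'.1 (hk.2.trans hk'.2.symm) hw, fun a x hx => ?_,
    fun a w hk x hx => ?_, fun v p hp hp' => ?_⟩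
  · have hb := h.b_ge (T0.vx a)
    have h2 := (h.mem_Om _ (by norm_num) (by linarith)).1 (hy a).1
    rw [h.mem_Om _ (by norm_num) (by linarith)]
    have h3 := h.lo (T0.vx a) (φ a x) (y a)
    rw [h.pd.symm] at h3
    have h5 := h.s_pos (T0.vx a)
    have h6 := mul_le_mul_of_nonneg_right h.r_le h5.le
    by_contra h7
    have h8 := mul_le_mul_of_nonneg_left
      (show (1 : ℝ) ≤ (N (T0.vx a)).rad (φ a x) - (N (T0.vx a)).rad (y a) by linarith) h5.le
    linarith [h4 a x hx, hσ (T0.vx a)]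
  · have h2 := h.creg_rad hk.1 hk.2 (hy a)
    have h3 := h.long w hk.1
    rw [h.mem_Om w (by linarith) (by rw [h.b_kid w hk.1]; linarith), not_lt]
    have h5 := (h.lo w (y a) (φ a x)).trans_lt (h4 a x hx)
    have h6 := hσ (T0.vx a)
    have h9 := h.s_par w hk.1
    rw [hk.2] at h9
    rw [h9] at h6
    by_contra h7
    have h8 := mul_le_mul_of_nonneg_left (show 1 / 10 * (T0.r * Real.exp (L w)) ≤
      (N w).rad (y a) - (N w).rad (φ a x) by linarith) (h.s_pos w).le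
    have h10 := mul_pos (mul_pos hr (Real.exp_pos (L w))) (h.s_pos w)
    nlinarith
  · obtain ⟨a, ha, h2⟩ := net v p ⟨hp, hp'⟩
    exact ⟨a, ha, h1 a p (ha ▸ h2)⟩

end Crest.Agent.N207.I

end
end

-- ▼ part N207/I/Dich
section

/-!
# Row 207, block I (helper56): the neck dichotomy and the bubble tree of a sequence of time slices
-/

set_option autoImplicit false

open scoped ContDiff Topology Manifold
open Set Filter MeasureTheory

noncomputable section

namespace Crest.Agent.N207.I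

open Sk

variable {M : Type*} [TopologicalSpace M] [ChartedSpace E4 M] [IsManifold 𝓘(ℝ, E4) ∞ M]
  [T3Space M] [ConnectedSpace M]

theorem pd_d (g : Met 4 M) : PD g.d :=
  ⟨fun x => dist_self (α := Sl g) x, fun x y => dist_comm (α := Sl g) x y,
    fun x y z => dist_triangle (α := Sl g) x y z⟩

theorem cont_d (g : Met 4 M) (z : M) : Continuous (g.d z) :=
  (continuous_const.dist continuous_id : Continuous fun q : Sl g => dist (α := Sl g) z q)

theorem ball_eq (g : Met 4 M) (x : M) (r : ℝ) : g.ball x r = {y | g.d x y < r} := by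
  ext y; simp only [Met.ball, mem_setOf_eq, (pd_d g).symm y x]

theorem isOpen_gball (g : Met 4 M) (x : M) (r : ℝ) : IsOpen {y | g.d x y < r} :=
  isOpen_lt (cont_d g x) continuous_const

variable [MeasurableSpace M] [BorelSpace M]

theorem meas_gball (g : Met 4 M) (x : M) (r : ℝ) : MeasurableSet {y | g.d x y < r} :=
  (isOpen_gball g x r).measurableSet

/-- the energy measure -/
def enM (g : Met 4 M) : Measure M := g.vol.withDensity fun p => ENNReal.ofReal (g.rm 0 p)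

variable [CompactSpace M]

theorem rm_int (g : Met 4 M) : Integrable (g.rm 0) g.vol :=
  V.integrable_cont g (V.sm_rm g 0).continuous

instance (g : Met 4 M) : IsFiniteMeasure (enM g) :=
  isFiniteMeasure_withDensity_ofReal (rm_int g).2

theorem enM_real (g : Met 4 M) {A : Set M} (hA : MeasurableSet A) :
    (enM g).real A = ∫ p in A, g.rm 0 p ∂g.vol := by
  rw [measureReal_def, enM, withDensity_apply _ hA, integral_eq_lintegral_of_nonneg_ae (f := g.rm 0)
    (Eventually.of_forall fun p => V.nsq_nonneg g _ p) (rm_int g).1.restrict]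

theorem enM_ball (g : Met 4 M) (x : M) (r : ℝ) : (enM g).real {y | g.d x y < r} = en g x r := by
  rw [enM_real g (meas_gball g x r), en, ball_eq]

theorem en_mono (g : Met 4 M) {x y : M} {r r' : ℝ} (h : g.d x y + r ≤ r') :
    en g x r ≤ en g y r' := by
  rw [← enM_ball, ← enM_ball]
  refine measureReal_mono fun w (hw : g.d x w < r) => ?_
  have := (pd_d g).tri y x w
  rw [(pd_d g).symm y x] at this
  show g.d y w < r'
  linarith

theorem en_mono' (g : Met 4 M) (x : M) {r r' : ℝ} (h : r ≤ r') : en g x r ≤ en g x r' :=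
  en_mono g (by rwa [(pd_d g).self, zero_add])

variable {F : Flow M}

theorem late_pos {t : ℝ} (ht : t ∈ late F) : t ∈ Ioo 0 F.T :=
  ⟨lt_of_lt_of_le (half_pos F.hT) ht.1, ht.2⟩

theorem exists_en_bd (hB : Base F) : ∃ E, ∀ t ∈ late F, (enM (F.m t)).real univ ≤ E := by
  obtain ⟨E, -, h, -⟩ := hB.d.glob _ (half_pos F.hT)
  refine ⟨E, fun t ht => ?_⟩
  rw [enM_real _ MeasurableSet.univ, Measure.restrict_univ]
  exact h t ht

theorem exists_vol_lo (hB : Base F) : ∃ κ, 0 < κ ∧ ∀ t ∈ late F, ∀ x, ∀ r ∈ Ioc (0 : ℝ) 1,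
    κ * r ^ 4 ≤ (F.m t).vol.real {y | (F.m t).d x y < r} := hB.c.lo _ (half_pos F.hT)

theorem exists_vol_up (hB : Base F) : ∃ C, 0 < C ∧ ∀ t ∈ late F, ∀ x, ∀ r > 0,
    (F.m t).vol.real {y | (F.m t).d x y < r} ≤ C * r ^ 4 := hB.c.up _ (half_pos F.hT)

/-- at a fixed time small balls have small energy -/
theorem exists_r1 (hB : Base F) {t : ℝ} (ht : t ∈ late F) {ε : ℝ} (hε : 0 < ε) :
    ∃ r1, 0 < r1 ∧ ∀ x, en (F.m t) x r1 ≤ ε := by
  obtain ⟨C, hC, h⟩ := exists_vol_up hB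
  obtain ⟨A, hA⟩ := (isCompact_range (V.sm_rm (F.m t) 0).continuous).isBounded.exists_norm_le
  haveI := V.isFinite (F.m t)
  have hA' : 0 < |A| + 1 := by positivity
  have h1 : 0 < min 1 (ε / ((|A| + 1) * C)) := by positivity
  refine ⟨_, h1, fun x => ?_⟩
  have h2 := min_le_left 1 (ε / ((|A| + 1) * C))
  have h3 := min_le_right 1 (ε / ((|A| + 1) * C))
  generalize min 1 (ε / ((|A| + 1) * C)) = r at h1 h2 h3
  rw [le_div_iff₀ (by positivity)] at h3
  have h4 := norm_setIntegral_le_of_norm_le_const (μ := (F.m t).vol) (s := (F.m t).ball x r)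
    (f := (F.m t).rm 0) (C := |A| + 1) (measure_lt_top _ _)
    fun p _ => (hA _ ⟨p, rfl⟩).trans (by linarith [le_abs_self A])
  have h5 := h t ht x r h1
  rw [← ball_eq] at h5
  have h6 : r ^ 4 ≤ r := pow_le_of_le_one h1.le h2 (by norm_num)
  calc en (F.m t) x r ≤ (|A| + 1) * (F.m t).vol.real ((F.m t).ball x r) := (le_abs_self _).trans h4
    _ ≤ (|A| + 1) * (C * r) :=
        mul_le_mul_of_nonneg_left (h5.trans (mul_le_mul_of_nonneg_left h6 hC.le)) hA'.le
    _ ≤ ε := by linarith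

/-- a good neck around `z` between the radii `a` and `b` -/
def GN (g : Met 4 M) (z : M) (a b : ℝ) (m : ℕ) (η : ℝ) (Cs : ℕ → ℝ) (n0 : ℕ) : Prop :=
  ∃ N : Nk M, N.Top ∧ N.a = a ∧ N.b = b ∧ z ∈ N.In ∧ Good g N m η Cs 6 ∧ Nat.card N.Γ ≤ n0

omit [CompactSpace M] in
theorem rough_of_good {g : Met 4 M} {N : Nk M} {m : ℕ} {η V η' : ℝ} {Cs : ℕ → ℝ} (hN : N.Top)
    (h : Good g N m η Cs V) (hη : 0 ≤ η) (h2 : 2 * η ≤ η') : Rough g N 0 η' V := by
  refine ⟨fun x hx k hk i j => (h.jet x hx k (hk.trans (Nat.zero_le _)) i j).trans ?_, h.vol⟩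
  have h0 : 0 < ‖x‖ := hN.a_pos.trans hx.1
  have h1 : √(N.a / ‖x‖) ≤ 1 := Real.sqrt_le_one.2 ((div_le_one h0).2 hx.1.le)
  have h3 : √(‖x‖ / N.b) ≤ 1 := Real.sqrt_le_one.2 ((div_le_one (h0.trans hx.2)).2 hx.2.le)
  unfold wt
  nlinarith

/-- **The dichotomy**: away from the bad scales, either small energy or a good neck. -/
theorem dich (hC : CONE F) (hH : HDEC F) (hV : VOLN F) (m : ℕ) {η ε : ℝ} (hη : 0 < η)
    (hη' : η ≤ 1 / 200) (hε : 0 < ε) : ∃ (K K' r1 : ℝ) (n0 : ℕ) (Cs : ℕ → ℝ), 1 ≤ K ∧ 0 < r1 ∧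
      ∀ t ∈ late F, ∀ z, ∃ Bad : Finset ℝ, Bad.card ≤ n0 ∧ ∀ a b, 0 < a → a < b → b ≤ r1 →
        (∀ s ∈ Bad, s ∉ Icc a b) → en (F.m t) z b ≤ ε ∨ (ε ≤ en (F.m t) z a ∧
          (K' * a ≤ b → GN (F.m t) z (K * a) (b / K) m η Cs n0)) := by
  classical
  obtain ⟨η1, hη1, hH⟩ := hH
  obtain ⟨V, K1, r1, n1, hK1, hr1, hC⟩ := hC η1 ε hη1 hε
  obtain ⟨K2, r2, Cs, hK2, hr2, hH⟩ := hH V m η hη
  obtain ⟨n2, K3, r3, hr3, hV⟩ := hV.2 6
  refine ⟨K1 * K2, (K1 * K2) ^ 2 * (K2 + |K3|), min r1 (min r2 r3), n1 + 1 + n2, Cs, by nlinarith,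
    by positivity, fun t ht z => ?_⟩
  obtain ⟨Bad, hBad, hC⟩ := hC t ht z
  refine ⟨insert (sInf {r | 0 < r ∧ ε < en (F.m t) z r}) (Bad.image fun j => (2 : ℝ) ^ j),
    (Finset.card_insert_le _ _).trans (le_trans (Nat.succ_le_succ (Finset.card_image_le.trans hBad))
      (Nat.le_add_right _ _)), fun a b ha hab hb hs => ?_⟩
  refine (le_or_gt _ _).imp_right fun hlt => ?_
  have hb0 : 0 < b := ha.trans hab
  have hne : b ∈ {r | 0 < r ∧ ε < en (F.m t) z r} := ⟨hb0, hlt⟩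
  have h1 : sInf {r | 0 < r ∧ ε < en (F.m t) z r} < a := by
    by_contra h
    exact hs _ (Finset.mem_insert_self _ _)
      ⟨not_lt.1 h, csInf_le ⟨0, fun r hr => hr.1.le⟩ hne⟩
  obtain ⟨r, hr, hra⟩ := exists_lt_of_csInf_lt ⟨b, hne⟩ h1
  refine ⟨hr.2.le.trans (en_mono' _ _ hra.le), fun hK => ?_⟩
  have p1 : 0 < K1 := by linarith
  have p2 : 0 < K2 := by linarith
  have p3 := abs_nonneg K3
  have e1 : K1 * a / K1 = a := by field_simp
  have e2 : K1 * (b / K1) = b := by field_simp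
  have q1 : b / K1 ≤ b := div_le_self hb0.le (by linarith)
  have q2 : b / K1 / K2 ≤ b := (div_le_self (by positivity) (by linarith)).trans q1
  have q3 : K2 ^ 3 * (K1 * a) ≤ b / K1 := by
    rw [le_div_iff₀ p1]
    have : 0 ≤ (K1 * K2) ^ 2 * |K3| * a := by positivity
    nlinarith
  have q4 : K1 * a < b / K1 := by
    have : 1 < K2 ^ 3 := one_lt_pow₀ (by linarith) (by norm_num)
    nlinarith [mul_pos p1 ha]
  obtain ⟨N, hN, ea, eb, hz, hR⟩ := hC (K1 * a) (b / K1) (by positivity) q4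
    (q1.trans (hb.trans (min_le_left _ _))) (fun j hj => by
      rw [e1, e2]
      by_contra h
      push Not at h
      exact hs _ (Finset.mem_insert_of_mem (Finset.mem_image_of_mem _ hj)) h)
    (by rw [e1]; exact hr.2.le.trans (en_mono' _ _ hra.le))
  obtain ⟨N', hN', ea', eb', hIn, hG, -⟩ := hH t ht N hN hR
    (by rw [eb]; exact q1.trans (hb.trans ((min_le_right _ _).trans (min_le_left _ _))))
    (by rw [ea, eb]; exact q3)
  refine ⟨N', hN', by rw [ea', ea]; ring, by rw [eb', eb, div_div], hIn hz, hG,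
    (hV t ht N' hN' (rough_of_good hN' hG hη.le (by linarith)) ?_ ?_).trans (by omega)⟩
  · rw [eb', eb]; exact q2.trans (hb.trans ((min_le_right _ _).trans (min_le_right _ _)))
  · rw [ea', eb', ea, eb, le_div_iff₀ p2, le_div_iff₀ p1]
    have h2 : 0 ≤ (K1 * K2) ^ 2 * K2 * a := by positivity
    have h3 : (K1 * K2) ^ 2 * a * K3 ≤ (K1 * K2) ^ 2 * a * |K3| :=
      mul_le_mul_of_nonneg_left (le_abs_self _) (by positivity)
    nlinarith

/-- **The bubble tree of a sequence of time slices** (metric skeleton with good necks). -/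
theorem tree_geo (hB : Base F) (hC : CONE F) (hH : HDEC F) (hV : VOLN F) (m : ℕ) {η ε : ℝ}
    (hη : 0 < η) (hη' : η ≤ 1 / 200) (hε : 0 < ε) : ∃ (r1 : ℝ) (n0 : ℕ) (Cs : ℕ → ℝ), 0 < r1 ∧
    ∀ {ι : Type} (U : Ultrafilter ι) (t top : ι → ℝ) (Ω : ι → Set M) (x0 : ι → M) (B : ℝ),
      (∀ i, t i ∈ late F) → (∀ i, 0 < top i ∧ top i ≤ r1) → Tendsto top U (𝓝 0) →
      (∀ i, x0 i ∈ Ω i) → (∀ i, ∀ x ∈ Ω i, (F.m (t i)).d (x0 i) x ≤ B * top i) →
    ∃ (V : Type) (_ : Fintype V) (root : V) (par : V → V) (dep : V → ℕ) (lam : ℕ → ι → ℝ)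
      (ctr : V → ι → M) (C : ℝ), IsTree root par dep ∧ lam 0 = top ∧ Chain U lam ∧ 1 ≤ C ∧
      (∀ i, ctr root i = x0 i) ∧ (∀ v i, ctr v i ∈ Ω i) ∧
      (∀ᶠ i in U, ∀ v, (F.m (t i)).d (ctr v i) (ctr (par v) i) ≤ C * lam (dep (par v)) i) ∧
      (∀ᶠ i in U, ∀ v w, v ≠ w → dep v = dep w →
        lam (dep (par v)) i ≤ C * (F.m (t i)).d (ctr v i) (ctr w i)) ∧
      (∀ A, C ≤ A → ∀ᶠ i in U, ∀ v, v ≠ root → GN (F.m (t i)) (ctr v i) (A * lam (dep v) i)
        (lam (dep (par v)) i / A) m η Cs n0 ∧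
          ε ≤ en (F.m (t i)) (ctr v i) (A * lam (dep v) i)) ∧
      ∀ ρ, 0 < ρ → ∃ c, 0 < c ∧ ∀ R, ∀ᶠ i in U, ∀ v, ∀ x ∈ Ω i,
        (F.m (t i)).d x (ctr v i) ≤ R * lam (dep v) i →
        (∀ w, w ≠ root → par w = v → ρ * lam (dep v) i ≤ (F.m (t i)).d x (ctr w i)) →
        en (F.m (t i)) x (c * lam (dep v) i) ≤ ε := by
  obtain ⟨K, K', r1, n0, Cs, hK, hr1, hD⟩ := dich hC hH hV m hη hη' hε
  obtain ⟨E, hE⟩ := exists_en_bd hB
  refine ⟨r1, n0, Cs, hr1, fun {ι} U t top Ω x0 B ht htop hlim hx0 hΩ => ?_⟩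
  obtain ⟨V, hV, root, par, dep, lam, ctr, C, hT, h0, hc, hC1, h1, h2, h3, h4, h5, h6⟩ :=
    tree_met U (fun i => (htop i).1) hlim (fun i => pd_d (F.m (t i))) (fun i => enM (F.m (t i)))
      (fun i => meas_gball _) hε (fun i => hE _ (ht i)) one_pos one_pos Ω x0 hx0
      (fun i => (htop i).1) hΩ
      (fun i => (exists_r1 hB (ht i) hε).imp fun r hr => ⟨hr.1, fun x _ => by
        rw [enM_ball]; exact hr.2 x⟩)
      (fun i z a b => ε ≤ en (F.m (t i)) z a ∧
        (K' * a ≤ b → GN (F.m (t i)) z (K * a) (b / K) m η Cs n0)) (N0 := n0)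
      (fun i z _ => (hD _ (ht i) z).imp fun Bad hB => ⟨hB.1, fun a b ha hab hb hs => by
        rw [enM_ball, div_one]
        exact hB.2 a b ha hab (by linarith [(htop i).2]) hs⟩)
  have hK0 : 0 < K := by linarith
  have hCK : C ≤ C * K := le_mul_of_one_le_right (by linarith) hK
  refine ⟨V, hV, root, par, dep, lam, ctr, C * K, hT, h0, hc, by linarith, h1, h2, ?_, ?_,
    fun A hA => ?_, fun ρ hρ => (h6 ρ hρ).imp fun c hc => ⟨hc.1, fun R => by
      simpa only [enM_ball] using hc.2 R⟩⟩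
  · filter_upwards [h3] with i hi v
    exact (hi v).trans (mul_le_mul_of_nonneg_right hCK (hc.pos _ i).le)
  · filter_upwards [h4] with i hi v w h h'
    exact (hi v w h h').trans (mul_le_mul_of_nonneg_right hCK ((pd_d _).nonneg _ _))
  · have hA0 : 0 < A / K := div_pos (by linarith) hK0
    filter_upwards [h5 (A / K) ((le_div_iff₀ hK0).2 hA), eventually_all.2 fun v : V =>
      hc.ll (dep (par v)) (1 / ((|K'| + 1) * (A / K) ^ 2)) (by positivity)] with i hi hi' v hv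
    have h7 := hi' v
    rw [hT.dep_par v hv] at h7
    have h8 := (hi v hv).2 (by
      rw [le_div_iff₀ hA0]
      rw [one_div, inv_mul_eq_div, le_div_iff₀ (by positivity)] at h7
      have h9 : K' * ((A / K) ^ 2 * lam (dep v) i) ≤ (|K'| + 1) * ((A / K) ^ 2 * lam (dep v) i) :=
        mul_le_mul_of_nonneg_right (by linarith [le_abs_self K']) (by
          have := hc.pos (dep v) i; positivity)
      nlinarith)
    have e1 : K * (A / K * lam (dep v) i) = A * lam (dep v) i := by field_simp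
    have e2 : lam (dep (par v)) i / (A / K) / K = lam (dep (par v)) i / A := by
      have : 0 < A := by linarith
      field_simp
    rw [e1, e2] at h8
    refine ⟨h8, (hi v hv).1.trans (en_mono' _ _ ?_)⟩
    rw [← e1]
    exact le_mul_of_one_le_left (mul_pos hA0 (hc.pos _ i)).le hK

end Crest.Agent.N207.I

end
end

-- ▼ part N207/I/Geo2
section

/-!
# Row 207, block I (helper98): normalised necks
-/

set_option autoImplicit false
set_option linter.unusedSectionVars false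

open scoped ContDiff Topology Manifold
open Set Filter Metric MeasureTheory
open Crest.GeometryTopology.CoordMetric Crest.Agent.R202.Tens

noncomputable section

namespace Crest.Agent.N207.I

open Sk

/-- the neck in the unit `s`, rotated by `O`, cut at the radius `b` -/
def _root_.Crest.Agent.N207.Sk.Nk.nn {M : Type*} (N : Nk M) (s : ℝ) (O : Iso4) (Γ0 : Subgroup Iso4)
    (b : ℝ) : Nk M := ⟨Γ0, fun x => N.Ψ (s • O x), N.In, 3 / 4, b⟩

variable {M : Type*} [TopologicalSpace M] [ChartedSpace E4 M] [IsManifold 𝓘(ℝ, E4) ∞ M]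
  [T3Space M] [ConnectedSpace M] [MeasurableSpace M] [BorelSpace M]

/-- a neck before normalisation -/
structure Raw (g : Met 4 M) (N : Nk M) (z : M) (s b K : ℝ) : Prop where
  top : N.Top
  s_pos : 0 < s
  a_eq : N.a = 3 / 4 * s
  b_gt : 3 / 4 < b
  b_le : s * b ≤ N.b
  z_in : z ∈ N.In
  jet : ∀ x ∈ shell N.a N.b, JG 0 (g.pm N.Ψ) x ‖x‖ (1 / 100)
  K_nn : 0 ≤ K
  up1 : ∀ x ∈ shell N.a N.b, g.d z (N.Ψ x) ≤ 2 * ‖x‖ + K * N.a
  up2 : ∀ z' ∈ N.In, g.d z z' ≤ K * N.a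

namespace Raw

variable {g : Met 4 M} {N : Nk M} {z : M} {s b K : ℝ} (h : Raw g N z s b K)
  {O : Iso4} {Γ0 : Subgroup Iso4}
include h

theorem a_div : N.a / s = 3 / 4 := by rw [h.a_eq]; field_simp [h.s_pos.ne']

theorem sub : shell (3 / 4) b ⊆ shell (N.a / s) (N.b / s) :=
  shell_mono h.a_div.le ((le_div_iff₀' h.s_pos).2 h.b_le)

theorem mem (O : Iso4) {x : E4} (hx : x ∈ shell (3 / 4) b) : s • O x ∈ shell N.a N.b :=
  (sim_mem_shell h.s_pos O).2 (h.sub hx)

theorem nn_eq (O : Iso4) (Γ0 : Subgroup Iso4) :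
    N.nn s O Γ0 b = { N.rs s O Γ0 with b := b } := by
  simp only [Nk.nn, Nk.rs, h.a_div]

theorem nn_Om (O : Iso4) (Γ0 : Subgroup Iso4) (r : ℝ) : (N.nn s O Γ0 b).Om r = N.Om (s * r) := by
  rw [h.nn_eq, ← rs_Om N h.s_pos O Γ0]; rfl

theorem nn_top (hc : Cj Γ0 O N.Γ) : (N.nn s O Γ0 b).Top := by
  have h1 := top_rs h.top h.s_pos hc
  have h2 : b ≤ (N.rs s O Γ0).b := (le_div_iff₀' h.s_pos).2 h.b_le
  have h3 : shell (N.rs s O Γ0).a b ⊆ shell (N.rs s O Γ0).a (N.rs s O Γ0).b := shell_mono le_rfl h2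
  rw [h.nn_eq]
  exact ⟨h1.grp, h1.a_pos, h.a_div.trans_lt h.b_gt, Gs.par_mono h1.par (isOpen_shell _ _) h3,
    fun x hx y hy => h1.fib x (h3 hx) y (h3 hy), fun x hx => h1.disj x (h3 hx),
    fun r hr => h1.opn r ⟨hr.1, hr.2.trans h2⟩, fun r hr => h1.cls r ⟨hr.1, hr.2.trans_le h2⟩, h1.ne⟩

theorem nn_lo [CompactSpace M] (hc : Cj Γ0 O N.Γ) (p q : M) :
    9 / 10 * s * ((N.nn s O Γ0 b).rad p - (N.nn s O Γ0 b).rad q) ≤ g.d q p := by
  have hs := h.s_pos
  refine (h.nn_top hc).rad_lip g (by positivity) (fun x hx v => ?_) p q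
  have hy := h.mem O hx
  have h1 := Gs.pm_comp_bil g (T := sim s O) (y := x) (Gs.par_md h.top.par hy)
    (sim s O).differentiableAt v v
  rw [ContinuousLinearMap.fderiv] at h1
  refine le_trans ?_ (((h.jet _ hy).near.le_bil (by norm_num) (sim s O v)).trans h1.ge)
  rw [sim_apply, norm_sim hs]
  nlinarith [sq_nonneg (s * ‖v‖)]

theorem nn_up (O : Iso4) (Γ0 : Subgroup Iso4) {t : ℝ} (h0 : 0 ≤ t) (ht : t ≤ b) {p : M}
    (hp : p ∈ (N.nn s O Γ0 b).Om t) : g.d z p ≤ s * (2 * t + K) := by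
  have hs := h.s_pos
  have h1 := mul_nonneg h.K_nn hs.le
  have h2 := mul_nonneg hs.le h0
  rw [h.nn_Om] at hp
  rcases hp with hp | ⟨x, hx, rfl⟩
  · have := h.up2 p hp
    rw [h.a_eq] at this; nlinarith
  · have := h.up1 x ⟨hx.1, hx.2.trans_le ((mul_le_mul_of_nonneg_left ht hs.le).trans h.b_le)⟩
    rw [h.a_eq] at this; nlinarith [hx.2]

end Raw

theorem jg_congr {m : ℕ} {G G' : MetricField 4} {x : E4} {s c : ℝ} (h : JG m G x s c)
    (e : G' =ᶠ[𝓝 x] G) : JG m G' x s c := fun k hk i j => by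
  have : Sk.dv G' i j =ᶠ[𝓝 x] Sk.dv G i j := e.mono fun y hy => by simp only [Sk.dv, hy]
  rw [J1, (this.iteratedFDeriv ℝ k).eq_of_nhds]; exact h k hk i j

section ext

variable {g : Met 4 M} {N : Nk M} {G : MetricField 4} {ρ e y η V : ℝ} {Cs : ℕ → ℝ}
  (h : Ext' g N G ρ e y η Cs V)
include h

theorem ext'_ev {x : E4} (hx : x ∈ shell N.a N.b) : g.pm N.Ψ =ᶠ[𝓝 x] G :=
  mem_of_superset ((isOpen_shell _ _).mem_nhds hx) fun z hz => (h.eq z hz).symm

theorem ext'_w {x : E4} (hx : x ∈ shell N.a N.b) : √(ρ / 32 / ‖x‖) ≤ 1 :=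
  Real.sqrt_le_one.2 ((div_le_one (h.top.a_pos.trans hx.1)).2 (h.a_eq ▸ hx.1.le))

theorem ext'_rough (hη : 0 ≤ η) : Rough g N 4 η (32 ^ 4 * V) := by
  refine ⟨fun x hx => jg_congr (fun k hk i j => (h.jet x (h.a_eq ▸ hx.1) k hk i j).trans
    (mul_le_of_le_one_right hη (ext'_w h hx))) (ext'_ev h hx), h.vol.trans (le_of_eq ?_)⟩
  rw [h.a_eq]; ring

end ext

variable {F : Flow M}

/-- rough necks are raw necks -/
theorem exists_raw [CompactSpace M] (hB : Base F) (V : ℝ) : ∃ K r1 : ℝ, 0 ≤ K ∧ 0 < r1 ∧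
    ∀ t ∈ late F, ∀ (N : Nk M) (z : M) (s b : ℝ), N.Top →
      Rough (F.m t) N 0 (1 / 100) V → N.b ≤ r1 → N.a = 3 / 4 * s → 2 ≤ b → s * b ≤ N.b → z ∈ N.In →
      Raw (F.m t) N z s b K := by
  obtain ⟨K, r1, hK, hr1, h⟩ := distN hB V
  refine ⟨K, r1, by linarith, hr1, fun t ht N z s b hN hR hb ha h2 hs hz => ?_⟩
  have hs0 : 0 < s := by linarith [hN.a_pos]
  obtain ⟨h3, -, h4⟩ := h t ht N _ hN hR (by norm_num) hb (by nlinarith) z hz
  exact ⟨hN, hs0, ha, by linarith, hs, hz, hR.jet, by linarith,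
    fun x hx => by linarith [(h3 x hx).2, norm_nonneg x], h4⟩

theorem Raw.mono {g : Met 4 M} {N : Nk M} {z : M} {s b K K' : ℝ}
    (h : Raw g N z s b K) (hK : K ≤ K') : Raw g N z s b K' :=
  have := mul_le_mul_of_nonneg_right hK h.top.a_pos.le
  ⟨h.top, h.s_pos, h.a_eq, h.b_gt, h.b_le, h.z_in, h.jet, h.K_nn.trans hK,
    fun x hx => by linarith [h.up1 x hx], fun z' hz' => by linarith [h.up2 z' hz']⟩

/-- the energy does not concentrate in the collar -/
theorem en_collar [CompactSpace M] (hB : Base F) : ∃ Q : ℝ, 0 < Q ∧ ∀ t ∈ late F, ∀ (N : Nk M) (z0 : M)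
    (s K W : ℝ) (O : Iso4) (Γ0 : Subgroup Iso4), Raw (F.m t) N z0 s 6 K →
      Cj Γ0 O N.Γ → Rough (F.m t) N 2 (1 / 100) W → ∀ z, 13 / 16 < (N.nn s O Γ0 6).rad z →
      (N.nn s O Γ0 6).rad z < 3 → ∀ θ, 0 < θ → θ ≤ 1 / 20 → en (F.m t) z (θ * s) ≤ Q * θ ^ 4 := by
  obtain ⟨C, hC, hcv⟩ := T.curv (M := M)
  obtain ⟨Cv, hCv, hv⟩ := exists_vol_up hB
  refine ⟨C * Cv, by positivity, fun t ht N z0 s K W O Γ0 h hc hR z h1 h2 θ h3 h4 => ?_⟩
  have hs := h.s_pos
  have := V.isFinite (F.m t)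
  have h5 := norm_setIntegral_le_of_norm_le_const (μ := (F.m t).vol) (s := (F.m t).ball z (θ * s))
    (f := (F.m t).rm 0) (C := C / s ^ 4) (measure_lt_top _ _) fun p hp => by
      have hp' : (F.m t).d p z < θ * s := hp
      have h6 := h.nn_lo hc z p
      have h7 := h.nn_lo hc p z
      rw [(pd_d _).symm] at h7
      obtain ⟨x, hx, rfl, -⟩ := (h.nn_top hc).exists_of_rad (p := p)
        (show 3 / 4 < _ by nlinarith) (show _ < 6 by nlinarith)
      have hy := h.mem O hx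
      have h8 : 3 / 4 * s < ‖s • O x‖ := h.a_eq ▸ hy.1
      rw [Real.norm_of_nonneg (show 0 ≤ (F.m t).rm 0 _ from V.nsq_nonneg _ _ _)]
      refine (hcv _ _ _ _ _ _ h.top.par hy (by linarith) (by norm_num) le_rfl (hR.jet _ hy)).trans ?_
      rw [div_le_div_iff₀ (by have : 0 < ‖s • O x‖ := by linarith
                              positivity) (by positivity)]
      have h9 : (3 / 4 * s) ^ 4 ≤ ‖s • O x‖ ^ 4 := pow_le_pow_left₀ (by positivity) h8.le 4
      nlinarith [mul_le_mul_of_nonneg_left h9 hC.le, mul_pos hC (pow_pos hs 4)]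
  have h6 := hv t ht z (θ * s) (by positivity)
  rw [← ball_eq] at h6
  calc en (F.m t) z (θ * s) ≤ C / s ^ 4 * (F.m t).vol.real ((F.m t).ball z (θ * s)) :=
        (le_abs_self _).trans h5
    _ ≤ C / s ^ 4 * (Cv * (θ * s) ^ 4) := mul_le_mul_of_nonneg_left h6 (by positivity)
    _ = C * Cv * θ ^ 4 := by field_simp

namespace TD

open Jt

/-- the outer radius of the normalised necks -/
def bb {M : Type*} (T : TD M) (L : T.V → ℝ) (w : T.V) : ℝ :=
  if w = T.root then 6 else 2 * T.r * Real.exp (L w)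

/-- the output of the geometric step -/
structure GOut (T : TD M) {ι : Type} (l : Filter ι) (m : ι → Met 4 M) (N0 : ι → Nk M)
    (X : ι → MetricField 4) (ρ e y : ι → ℝ) (s : ι → T.V → ℝ) (R : ι → T.V → Nk M)
    (O : ι → T.V → Iso4) (φ : ι → T.B → E4 → M) : Prop where
  s_root : ∀ i, s i T.root = ρ i / 24
  R_root : ∀ i, R i T.root = N0 i
  an : T.An l m s R O X ρ e y
  top : ∀ w, w ≠ T.root → Tendsto (fun i => T.ls (s i) w) l atTop
  cmb : T.Cmb
  cfg : ∀ᶠ i in l, T.Cfg (fun w => (R i w).nn (s i w) (O i w) (T.Γ w) (T.bb (T.ls (s i)) w)) (φ i)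
    (T.ls (s i))
  muB : ∀ a, MU l (fun i y => (s i (T.vx a) ^ 2)⁻¹ • (m i).pm (φ i a) y) fun _ => ball 0 3

theorem GOut.preS {T : TD M} {ι : Type} {l : Filter ι} {m : ι → Met 4 M} {N0 : ι → Nk M}
    {X : ι → MetricField 4} {ρ e y : ι → ℝ} {s : ι → T.V → ℝ} {R : ι → T.V → Nk M}
    {O : ι → T.V → Iso4} {φ : ι → T.B → E4 → M} (h : T.GOut l m N0 X ρ e y s R O φ) :
    T.PreS l m s φ fun i w => ((R i w).rs (s i w) (O i w) (T.Γ w)).Ψ :=
  ⟨h.an.s_pos, h.cmb.r_pos, h.cmb.dep_root, h.cmb.dep_par, h.cfg.mono fun _ hi => hi.long',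
    fun a => h.cfg.mono fun _ hi => ⟨Gs.par_mono (hi.par a) isOpen_ball
      (ball_subset_ball (by norm_num)), (hi.inj a).mono (ball_subset_ball (by norm_num))⟩,
    h.muB, fun w => h.cfg.mono fun _ hi => hi.parN w, fun w => h.cfg.mono fun _ hi => hi.fibN w,
    h.an.jet, h.an.small, fun v w w' hw => h.cfg.mono fun _ hi => hi.disjO v w w' hw⟩

end TD

/-- the statement of the geometric step -/
def GEO (F : Flow M) : Prop :=
  ∀ (Cs : ℕ → ℝ) (V : ℝ), ∃ δ0 : ℝ, 0 < δ0 ∧ ∀ {ι : Type} (U : Ultrafilter ι) (t ρ e y : ι → ℝ)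
    (N0 : ι → Nk M) (X : ι → MetricField 4),
    (∀ i, t i ∈ late F ∧ ρ i ≤ δ0 ∧
      Ext' (F.m (t i)) (N0 i) (X i) (ρ i) (e i) (y i) (1 / 3200) Cs V) → Tendsto ρ U (𝓝 0) →
    ∃ (T : TD M) (s : ι → T.V → ℝ) (R : ι → T.V → Nk M) (O : ι → T.V → Iso4)
      (φ : ι → T.B → E4 → M), T.GOut U (fun i => F.m (t i)) N0 X ρ e y s R O φ

end Crest.Agent.N207.I

end
end

-- ▼ part N207/I/Fin1
section

/-!
# Row 207, block I (helper24): the density `√det |Ric|²`, multiplicity, small integrals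
-/

set_option autoImplicit false
open Set Filter Topology Function Metric MeasureTheory
open scoped ContDiff Manifold ENNReal
open Crest.GeometryTopology.CoordMetric Crest.GeometryTopology.MetricFamily
open Crest.Agent.R202.Tens

noncomputable section

namespace Crest.Agent.N207.I

open Jt

/-- the scale invariant density `√det G |Ric|²` -/
def rd (G : MetricField 4) (x : E4) : ℝ := √(G x).det * nsq G (ricT G) x

variable {G : MetricField 4} {U : Set E4} {x : E4}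

theorem sqrt_det_smul {c : ℝ} (A : Matrix (Fin 4) (Fin 4) ℝ) : √(c • A).det = c ^ 2 * √A.det := by
  rw [Matrix.det_smul, Fintype.card_fin, show c ^ 4 = (c ^ 2) ^ 2 by ring,
    Real.sqrt_mul (sq_nonneg _), Real.sqrt_sq (sq_nonneg _)]

theorem nsq_ric_smul {c : ℝ} (hc : c ≠ 0) (G : MetricField 4) (x : E4) :
    nsq (fun y => c • G y) (ricT fun y => c • G y) x = c⁻¹ ^ 2 * nsq G (ricT G) x := by
  have e : ricT (fun y => c • G y) = ricT G := by
    funext y I; exact ricci_csmul hc G y _ _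
  rw [e, nsq, ip, minv_smul hc, Ar.ipA_scale]; rfl

theorem rd_smul {c : ℝ} (hc : c ≠ 0) (G : MetricField 4) (x : E4) :
    rd (fun y => c • G y) x = rd G x := by
  rw [rd, sqrt_det_smul, nsq_ric_smul hc, rd]; field_simp

theorem scal_smul {c : ℝ} (hc : c ≠ 0) (G : MetricField 4) (x : E4) :
    scalarCurv (fun y => c • G y) x = c⁻¹ * scalarCurv G x := by
  simp only [scalarCurv, ricci_csmul hc, minv_smul hc, Matrix.smul_apply, smul_eq_mul,
    Finset.mul_sum, mul_assoc]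

theorem rd_nonneg (h : (G x).PosDef) : 0 ≤ rd G x :=
  mul_nonneg (Real.sqrt_nonneg _) (Ar.ipA_nonneg h (ricT G x))

theorem ricci_of_rd (h : (G x).PosDef) (h0 : rd G x = 0) (p q : Fin 4) : ricci G x p q = 0 :=
  congrFun (Ar.eq_zero_of_ipA h (B := ricT G x) ((mul_eq_zero.1 h0).resolve_left
    (Real.sqrt_pos.2 h.det_pos).ne')) ![p, q]

theorem rd_sc {u : ℝ} (hu : 0 < u) (h : IsRiemannianOn G U) (hx : u • x ∈ U) :
    rd (fun y => G (u • y)) x = u ^ 4 * rd G (u • x) := by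
  have e : rot G u 1 = fun y => G (u • y) := by
    funext y; ext p q; simp [rot, AI.eb]
  have h1 := AI.nsq_covN_ric_pull (pull_rot hu 1 h) (y := x) hx 0
  rw [e] at h1
  rw [← rd_smul (pow_pos hu 2).ne', rd, sqrt_det_smul, rd]
  erw [h1]
  simp only [covN, sim_apply, LinearIsometryEquiv.coe_one, id_eq]
  ring

theorem lintegral_sc {u : ℝ} (hu : 0 < u) {B : Set E4} (hB : MeasurableSet B) (f : E4 → ℝ≥0∞) :
    ∫⁻ y in B, ENNReal.ofReal (u ^ 4) * f (u • y) = ∫⁻ z in (fun y => u • y) '' B, f z := by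
  rw [lintegral_image_eq_lintegral_abs_det_fderiv_mul volume hB
    (f := fun y => u • y) (f' := fun _ => u • ContinuousLinearMap.id ℝ E4)
    (fun y _ => ((hasFDerivAt_id y).const_smul u).hasFDerivWithinAt)
    (smul_right_injective _ hu.ne').injOn]
  have : (u • ContinuousLinearMap.id ℝ E4).det = u ^ 4 := by
    simp [ContinuousLinearMap.det, LinearMap.det_smul]
  rw [this, abs_of_pos (pow_pos hu 4)]

/-- near the identity matrix -/
theorem rd_le (hs : ∀ a b, G x a b = G x b a) (h : ∀ a b, |TD.dv G a b x| ≤ 1 / 100) :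
    √(G x).det ≤ 20 ∧ rd G x ≤ 80 * ∑ p, ∑ q, ricci G x p q ^ 2 := by
  have hp := pos_of_small hs h
  have h1 : √(G x).det ≤ 20 := by
    have := Matrix.det_le (abv := AbsoluteValue.abs) (A := G x) (x := 2) fun a b => by
      have h2 := h a b
      have h3 : |(1 : Matrix (Fin 4) (Fin 4) ℝ) a b| ≤ 1 := by
        rw [Matrix.one_apply]; split_ifs <;> simp
      have h4 := abs_sub_abs_le_abs_sub (G x a b) ((1 : Matrix (Fin 4) (Fin 4) ℝ) a b)
      simp only [TD.dv] at h2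
      simp only [AbsoluteValue.abs_apply]
      linarith
    simp only [AbsoluteValue.abs_apply, Fintype.card_fin, Nat.factorial, nsmul_eq_mul] at this
    exact Real.sqrt_le_iff.2 ⟨by norm_num, (le_abs_self _).trans (this.trans (by norm_num))⟩
  refine ⟨h1, ?_⟩
  have h2 := Ar.ipA_le_sum_sq (hp.posDef one_half_pos) (c := 2) zero_le_two
    (fun v => by linarith [hp.2 v]) (ricT G x)
  have h3 : ∑ I : Fin 2 → Fin 4, ricT G x I ^ 2 = ∑ p, ∑ q, ricci G x p q ^ 2 := by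
    simp only [AI.sum_cons (k := 1), AI.sum_cons (k := 0), Fintype.sum_unique]
    rfl
  rw [h3] at h2
  calc rd G x ≤ 20 * (2 ^ 2 * ∑ p, ∑ q, ricci G x p q ^ 2) :=
        mul_le_mul h1 h2 (Ar.ipA_nonneg (hp.posDef one_half_pos) (ricT G x)) (by norm_num)
    _ = _ := by ring

/-- functions with bounded gradient and small integral are small -/
theorem tendsto_of_lintegral {ι : Type} {l : Filter ι} {f : ι → E4 → ℝ} {r : ℝ} (hr : 0 < r)
    (h : UB l f fun _ => ball x r) (h0 : ∀ᶠ i in l, 0 ≤ f i x)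
    (hI : Tendsto (fun i => ∫⁻ y in ball x r, ENNReal.ofReal (f i y)) l (𝓝 0)) :
    Tendsto (fun i => f i x) l (𝓝 0) := by
  obtain ⟨C, hC⟩ := (ub_iff.1 h).2 1
  refine Metric.tendsto_nhds.2 fun ε hε => ?_
  set δ := min r (ε / (2 * (|C| + 1))) with hδ
  have hδ0 : 0 < δ := lt_min hr (by positivity)
  have hη : 0 < ENNReal.ofReal (ε / 2) * volume (ball x δ) :=
    ENNReal.mul_pos (by simpa using hε) (measure_ball_pos _ _ hδ0).ne'
  filter_upwards [hC, (ub_iff.1 h).1, h0, hI.eventually (gt_mem_nhds hη)] with i h1 h2 h3 h4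
  rw [Real.dist_eq, sub_zero, abs_of_nonneg h3]
  by_contra hn
  refine absurd h4 (not_lt.2 ?_)
  rw [← setLIntegral_const]
  refine (setLIntegral_mono' measurableSet_ball fun y hy => ENNReal.ofReal_le_ofReal ?_).trans
    (lintegral_mono_set (ball_subset_ball (min_le_left _ _)))
  have h5 := (convex_ball x r).norm_image_sub_le_of_norm_fderiv_le (C := |C| + 1)
    (fun z hz => (h2 z hz).differentiableAt (by simp)) (fun z hz => by
      have := h1 z hz
      rw [← norm_iteratedFDeriv_fderiv, norm_iteratedFDeriv_zero] at this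
      linarith [le_abs_self C]) (mem_ball_self hr) (ball_subset_ball (min_le_left _ _) hy)
  have h6 : ‖y - x‖ ≤ ε / (2 * (|C| + 1)) := (mem_ball_iff_norm.1 hy).le.trans (min_le_right _ _)
  have h7 : (|C| + 1) * ‖y - x‖ ≤ ε / 2 := by
    calc _ ≤ (|C| + 1) * (ε / (2 * (|C| + 1))) := by gcongr
      _ = _ := by field_simp
  rw [Real.norm_eq_abs] at h5
  linarith [(abs_le.1 h5).1, not_lt.1 hn]

theorem me_rd {ι : Type} {l : Filter ι} {g g' : ι → MetricField 4} {x x' : ι → E4}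
    (h : ME l g x g' x') : GE l (fun j => rd (g j)) x (fun j => rd (g' j)) x' :=
  h.sqrt_det.mul (h.nsq h.ricT)

/-- **the limit is Ricci flat** when `∫ |Ric|²` tends to zero -/
theorem ricci_of_int {ι : Type} {𝒰 : Ultrafilter ι} {H : ι → MetricField 4} {O : Set E4}
    (h : LocB 𝒰 H O) (hx : x ∈ O) {r : ℝ} (hr : 0 < r)
    (hI : Tendsto (fun i => ∫⁻ y in ball x r, ENNReal.ofReal (rd (H i) y)) 𝒰 (𝓝 0)) (p q : Fin 4) :
    ricci (mlim 𝒰 H) x p q = 0 := by
  obtain ⟨O', hO', hK, hb, hp⟩ := h {x} isCompact_singleton (singleton_subset_iff.2 hx)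
  obtain ⟨r', hr', hB⟩ := Metric.isOpen_iff.1 hO' x (hK rfl)
  have h1 : MU (𝒰 : Filter ι) H fun _ => ball x (min r r') := (mu_iff.2 ⟨hb, hp⟩).mono
    (.of_forall fun _ => (ball_subset_ball (min_le_right _ _)).trans hB)
  obtain ⟨c, hc, h2⟩ := (h.me hx).pos
  have h3 := tendsto_of_lintegral (f := fun i => rd (H i)) (lt_min hr hr') (me_rd h1.me).left
    (h2.mono fun i hi => rd_nonneg (hi.1.posDef hc))
    (tendsto_of_tendsto_of_tendsto_of_le_of_le tendsto_const_nhds hI (fun _ => zero_le)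
      fun i => lintegral_mono_set (ball_subset_ball (min_le_left _ _)))
  have h4 := h3.sub (me_rd (h.me hx)).val
  simp only [sub_sub_cancel, sub_zero] at h4
  obtain ⟨i, hi⟩ := h2.exists
  exact ricci_of_rd (hi.2.posDef hc) (tendsto_nhds_unique tendsto_const_nhds h4) p q

variable {M : Type*} [TopologicalSpace M] [ChartedSpace E4 M] [IsManifold 𝓘(ℝ, E4) ∞ M]
  {Ψ : E4 → M}

theorem scal_pm (hP : Par Ψ U) (m : Met 4 M) {s : ℝ} (hs : 0 < s) (hx : x ∈ U) :
    scalarCurv (fun y => (s ^ 2)⁻¹ • m.pm Ψ y) x = s ^ 2 * m.scal (Ψ x) := by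
  rw [scal_smul (by positivity), inv_inv, hP.par_scal m hx]

theorem rd_pm (hP : Par Ψ U) (m : Met 4 M) {c : ℝ} (hc : c ≠ 0) (hx : x ∈ U) :
    rd (fun y => c • m.pm Ψ y) x = V.pdens m Ψ x * m.rc 0 (Ψ x) := by
  rw [rd_smul hc, hP.par_rc m 0 hx]; rfl

variable [T3Space M] [ConnectedSpace M] [MeasurableSpace M] [BorelSpace M] [CompactSpace M]

/-- the area formula with multiplicity at most `card Γ` -/
theorem lintegral_par_fib (hP : Par Ψ U) (m : Met 4 M) (Γ : Subgroup Iso4) [Finite Γ] {B : Set E4}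
    (hB : B ⊆ U) (hBm : MeasurableSet B)
    (hf : ∀ x ∈ B, ∀ y ∈ B, Ψ x = Ψ y → ∃ γ ∈ Γ, γ x = y) (f : M → ℝ≥0∞) :
    ∫⁻ y in B, ENNReal.ofReal (V.pdens m Ψ y) * f (Ψ y) ≤
      Nat.card Γ * ∫⁻ z in Ψ '' B, f z ∂m.vol := by
  have := Fintype.ofFinite Γ
  set o := embeddingReal E4
  have ho := measurableEmbedding_embeddingReal E4
  set D : Γ → Set E4 := fun γ => B ∩ ⋂ δ : Γ, {x | o (γ.1 x) ≤ o (δ.1 x)} with hD
  have hm : ∀ γ : Γ, Measurable fun x => o (γ.1 x) := fun γ =>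
    ho.measurable.comp γ.1.continuous.measurable
  have h1 : B ⊆ ⋃ γ, D γ := fun x hx => by
    obtain ⟨γ, hγ⟩ := Finite.exists_min fun γ : Γ => o (γ.1 x)
    exact mem_iUnion.2 ⟨γ, hx, mem_iInter.2 hγ⟩
  refine (lintegral_mono_set h1).trans ((lintegral_iUnion_le _ _).trans ?_)
  rw [tsum_fintype, Nat.card_eq_fintype_card, ← nsmul_eq_mul, ← Finset.card_univ]
  refine Finset.sum_le_card_nsmul _ _ _ fun γ _ => ?_
  rw [← V.lintegral_par hP m (inter_subset_left.trans hB)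
    (hBm.inter (MeasurableSet.iInter fun δ => measurableSet_le (hm γ) (hm δ))) ?_ f]
  · exact lintegral_mono_set (image_mono inter_subset_left)
  · intro x hx y hy e
    obtain ⟨δ, hδ, rfl⟩ := hf x hx.1 y hy.1 e
    have a1 := mem_iInter.1 hx.2 (γ * ⟨δ, hδ⟩)
    have a2 := mem_iInter.1 hy.2 (γ * ⟨δ, hδ⟩⁻¹)
    have a3 : (γ * ⟨δ, hδ⟩⁻¹ : Γ).1 (δ x) = γ.1 x := congrArg γ.1 (δ.symm_apply_apply x)
    rw [mem_ofPred_eq, a3] at a2
    exact γ.1.injective (ho.injective (le_antisymm a1 a2))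

end Crest.Agent.N207.I

end
end

-- ▼ part N207/I/Fin2
section

/-!
# Row 207, block I (helper24): the glued metrics converge to Ricci flat limits; the bound on `EE`
-/

set_option autoImplicit false
open Set Filter Topology Function Metric MeasureTheory
open scoped ContDiff Manifold ENNReal
open Crest.GeometryTopology.CoordMetric Crest.GeometryTopology.MetricFamily
open Crest.Agent.R202.Tens

noncomputable section

namespace Crest.Agent.N207.I

open Jt

namespace TD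

variable {M : Type*} {T : TD M} {ι : Type}

theorem Ok.ev_ball (h : T.Ok) {l : Filter ι} {L : ι → T.V → ℝ}
    (ht : ∀ w, w ≠ T.root → Tendsto (fun i => L i w) l atTop) {v : T.V} {s : T.S} {x : E4}
    (hx : x ∈ (T.core v).U s) :
    ∃ r > 0, ∀ᶠ i in l, ∀ z ∈ ball x r, T.sg (L i) v s • z ∈ (T.glob (L i)).U s := by
  obtain ⟨r, hr, hb⟩ := Metric.isOpen_iff.1 ((h.core_ok v).isOpen s) x hx
  cases s with
  | inl a =>
    exact ⟨r, hr, .of_forall fun i z hz => by
      simpa [sg, mem_glob_inl] using (mem_core_inl.1 (hb hz)).2⟩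
  | inr w =>
    by_cases hw : w = v
    · subst hw
      refine ⟨r, hr, (h.ev_out ht w (‖x‖ + r)).mono fun i hi z hz => ?_⟩
      rw [sg_out, one_smul]
      exact (hi z (mem_core_out.1 (hb hz)) (norm_lt_of_mem_ball hz)).1
    · obtain ⟨hk, h0, -⟩ := (mem_core_inn hw).1 hx
      refine ⟨min r (‖x‖ / 2), by positivity, (h.ev_inn ht hk (half_pos h0)).mono
        fun i hi z hz => ?_⟩
      rw [sg_inn _ hw]
      have h1 := norm_sub_norm_le x z
      have h2 := (mem_ball_iff_norm'.1 hz).trans_le (min_le_right _ _)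
      exact (hi z (by linarith)
        ((mem_core_inn hw).1 (hb (ball_subset_ball (min_le_left _ _) hz))).2.2).1

/-- the limits are Ricci flat when `∫ |Ric|²` tends to zero in every chart -/
theorem Ok.lim_of_int (h : T.Ok) {𝒰 : Ultrafilter ι} {L : ι → T.V → ℝ} {γ : ℝ}
    {G : ι → T.S → MetricField 4} (hγ : 0 < γ) (hB : T.Bd γ 𝒰 L G)
    (hI : ∀ s, Tendsto (fun i => ∫⁻ x in (T.glob (L i)).U s, ENNReal.ofReal (rd (G i s) x)) 𝒰
      (𝓝 0)) : T.Lim (T.glim 𝒰 L G) γ := by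
  refine h.lim_glim hγ hB fun v s x hx p q => ?_
  obtain ⟨r, hr, hb⟩ := h.ev_ball hB.top hx
  refine ricci_of_int (h.locB hγ.le hB v s) hx hr (tendsto_of_tendsto_of_tendsto_of_le_of_le'
    tendsto_const_nhds (hI s) (.of_forall fun _ => zero_le) ?_) p q
  filter_upwards [hb, hB.met] with i h1 h2
  have hu := sg_pos (L i) v s
  have he : (T.eps (L i) (T.un s) ^ 2)⁻¹ ≠ 0 := (inv_pos.2 (pow_pos (eps_pos _ _) 2)).ne'
  refine le_trans (le_of_eq ?_) (lintegral_mono_set (s := (fun y => T.sg (L i) v s • y) '' ball x r)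
    (image_subset_iff.2 h1))
  rw [← lintegral_sc hu measurableSet_ball]
  refine setLIntegral_congr_fun measurableSet_ball fun y hy => ?_
  have e : rd (T.hm (L i) (G i) v s) y = T.sg (L i) v s ^ 4 * rd (G i s) (T.sg (L i) v s • y) :=
    (rd_smul he (fun z => G i s (T.sg (L i) v s • z)) y).trans (rd_sc hu (h2.2.riem s) (h1 y hy))
  simp only [e, ENNReal.ofReal_mul (pow_pos hu 4).le]

/-- the weight -/
def om (T : TD M) (s : T.S) (x : E4) : ℝ := if s = Sum.inr T.root then ‖x‖ ^ 2 else 1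

theorem one_le_om {L : T.V → ℝ} {s : T.S} {x : E4} (hx : x ∈ (T.glob L).U s) : 1 ≤ T.om s x := by
  unfold om
  split_ifs with hs
  · subst hs; exact one_le_pow₀ hx.1.le
  · rfl

theorem Ok.eps_le (h : T.Ok) {L : T.V → ℝ} (hL : T.Long L) (v : T.V) : T.eps L v ≤ 1 := by
  refine h.ind (P := fun v => T.eps L v ≤ 1) (h.eps_root L).le (fun w hw ih => ?_) v
  have h1 := Real.exp_pos (L w)
  have h2 : 1 ≤ Real.exp (L w) := by nlinarith [hL w hw, h.r_lt]
  rw [h.eps_kid L hw, Real.exp_neg]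
  exact mul_le_one₀ ih (by positivity) (inv_le_one_of_one_le₀ h2)

theorem Ok.rw_le (h : T.Ok) {L : T.V → ℝ} (hL : T.Long L) {s : T.S} {x : E4}
    (hx : x ∈ (T.glob L).U s) : Sk.rw T L s x ^ 2 ≤ T.om s x := by
  cases s with
  | inl a =>
    simp only [Sk.rw, om, Sum.elim_inl, mul_one, reduceCtorEq, if_false]
    exact pow_le_one₀ (eps_pos _ _).le (h.eps_le hL _)
  | inr w =>
    by_cases hw : w = T.root
    · subst hw; simp [Sk.rw, om, un, h.eps_root]
    · simp only [Sk.rw, om, un, Sum.elim_inr, id, Sum.inr.injEq, if_neg hw]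
      have h1 := eps_pos L (T.par w)
      refine pow_le_one₀ (mul_nonneg (eps_pos _ _).le (norm_nonneg _)) ?_
      rw [h.eps_kid L hw, mul_assoc, Real.exp_neg, inv_mul_eq_div]
      refine mul_le_one₀ (h.eps_le hL _) (by positivity) ?_
      rw [div_le_one (Real.exp_pos _)]
      nlinarith [hx.2 hw, h.r_lt, Real.exp_pos (L w)]

theorem Ok.ee_le (h : T.Ok) {L : T.V → ℝ} (hL : T.Long L) {G : T.S → MetricField 4}
    (hG : (T.glob L).IsMet G) : Sk.EE T L G ≤
      ∑ s, ∫⁻ x in (T.glob L).U s, ENNReal.ofReal (T.om s x * rd (G s) x) := by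
  have hP := h.glob_pou hL
  have hO := h.glob_ok hL
  refine Finset.sum_le_sum fun s _ => setLIntegral_mono' (hO.isOpen s).measurableSet fun x hx => ?_
  have h1 : T.χ s ((T.glob L).c s x) ≤ 1 := (hP.sum s x hx) ▸
    Finset.single_le_sum (f := fun a => T.χ a ((T.glob L).c s x)) (fun a _ => hP.nonneg a _)
      (Finset.mem_univ s)
  have h0 := hP.nonneg s ((T.glob L).c s x)
  have h2 : (Nat.card ((T.glob L).Γ s) : ℝ)⁻¹ ≤ 1 := by
    have := hO.fin s
    exact inv_le_one_of_one_le₀ (by exact_mod_cast Nat.card_pos)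
  have h3 : 0 ≤ nsq (G s) (ricT (G s)) x := Ar.ipA_nonneg ((hG.riem s).posDef x hx) (ricT (G s) x)
  have h4 : (T.glob L).den T.χ G s x ≤ √(G s x).det :=
    (mul_le_of_le_one_left (by positivity) h2).trans (mul_le_of_le_one_left (by positivity) h1)
  have h5 : 0 ≤ (T.glob L).den T.χ G s x := by unfold Atl.den; positivity
  rw [← ENNReal.ofReal_mul h5]
  refine ENNReal.ofReal_le_ofReal ?_
  calc _ ≤ √(G s x).det * (T.om s x * nsq (G s) (ricT (G s)) x) := by
        gcongr; exact h.rw_le hL hx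
    _ = _ := by rw [rd]; ring

variable [TopologicalSpace M] [ChartedSpace E4 M] [IsManifold 𝓘(ℝ, E4) ∞ M] [T3Space M]
  [ConnectedSpace M] [MeasurableSpace M] [BorelSpace M] [CompactSpace M]

theorem lint_rd_le {Ψ : E4 → M} {U B : Set E4} (hP : Par Ψ U) (m : Met 4 M) {c : ℝ} (hc : c ≠ 0)
    (Γ : Subgroup Iso4) [Finite Γ] (hB : B ⊆ U) (hBm : MeasurableSet B)
    (hf : ∀ x ∈ B, ∀ y ∈ B, Ψ x = Ψ y → ∃ γ ∈ Γ, γ x = y) :
    ∫⁻ y in B, ENNReal.ofReal (rd (fun y => c • m.pm Ψ y) y) ≤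
      Nat.card Γ * ∫⁻ z in Ψ '' B, ENNReal.ofReal (m.rc 0 z) ∂m.vol := by
  refine le_trans (le_of_eq ?_) (lintegral_par_fib hP m Γ hB hBm hf _)
  refine setLIntegral_congr_fun hBm fun y hy => ?_
  simp only [rd_pm hP m hc (hB hy), ENNReal.ofReal_mul (V.pdens_nonneg m Ψ y)]

variable (T) in
/-- the integral hypotheses -/
structure PreI (l : Filter ι) (m : ι → Met 4 M) (s : ι → T.V → ℝ) (φ : ι → T.B → E4 → M)
    (Ψ : ι → T.V → E4 → M) (X : ι → MetricField 4) (Ω : ι → Set M) (Y E : ι → ℝ) : Prop where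
  ball : ∀ᶠ i in l, ∀ a, φ i a '' ball 0 3 ⊆ Ω i
  neck : ∀ᶠ i in l, ∀ w, w ≠ T.root → Ψ i w '' T.nk (T.ls (s i)) w ⊆ Ω i
  mass : ∀ᶠ i in l, ∫⁻ p in Ω i, ENNReal.ofReal ((m i).rc 0 p) ∂(m i).vol ≤ ENNReal.ofReal (Y i)
  xric : ∀ᶠ i in l, ∫⁻ x in {x : E4 | 1 < ‖x‖},
    ENNReal.ofReal (‖x‖ ^ 2 * ∑ p, ∑ q, ricci (X i) x p q ^ 2) ≤ ENNReal.ofReal (E i ^ 2)
  nonneg : ∀ᶠ i in l, 0 ≤ Y i
  Y0 : Tendsto Y l (𝓝 0)
  E0 : Tendsto E l (𝓝 0)

variable {m : ι → Met 4 M} {s : ι → T.V → ℝ} {φ : ι → T.B → E4 → M} {Ψ : ι → T.V → E4 → M}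
  {X : ι → MetricField 4} {γ : ℝ} {Ω : ι → Set M} {Y E : ι → ℝ}

/-- the bound in every chart -/
theorem PreI.chart {l : Filter ι} (h : T.PreS l m s φ Ψ) (hX : T.PreX l m s Ψ X γ)
    (hI : T.PreI l m s φ Ψ X Ω Y E) (fin : ∀ v, Finite (T.Γ v)) {ψ : ι → T.B → E4 → M}
    (hψ : ∀ᶠ i in l, ∀ a, Par (ψ i a) (Metric.ball 0 2) ∧ InjOn (ψ i a) (Metric.ball 0 2) ∧
      ψ i a '' Metric.ball 0 2 ⊆ φ i a '' Metric.ball 0 3) :
    ∃ C : ℝ, 0 ≤ C ∧ ∀ᶠ i in l, ∀ t, ∫⁻ x in (T.glob (T.ls (s i))).U t, ENNReal.ofReal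
      (T.om t x * rd (T.gm (m i) (s i T.root) (ψ i) (Ψ i) (X i) t) x) ≤
        ENNReal.ofReal (C * (Y i + E i ^ 2)) := by
  set N : ℕ := 80 + ∑ w, Nat.card (T.Γ w) with hN
  refine ⟨N, Nat.cast_nonneg _, ?_⟩
  filter_upwards [hψ, hI.ball, hI.neck, hI.mass, hI.xric, hI.nonneg, eventually_all.2 h.parN,
    eventually_all.2 h.fib, hX.riem, hX.small] with i a1 a2 a3 a4 a5 a6 a7 a8 a9 a10 t
  have hc : (s i T.root ^ 2)⁻¹ ≠ 0 := (inv_pos.2 (pow_pos (h.s_pos i _) 2)).ne'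
  have key : ∀ (n : ℕ) (y : ℝ), n ≤ N → y ≤ Y i + E i ^ 2 →
      (n : ℝ≥0∞) * ENNReal.ofReal y ≤ ENNReal.ofReal (N * (Y i + E i ^ 2)) := fun n y h1 h2 => by
    rw [ENNReal.ofReal_mul (Nat.cast_nonneg _), ENNReal.ofReal_natCast]
    gcongr
  have hY : Y i ≤ Y i + E i ^ 2 := le_add_of_nonneg_right (sq_nonneg _)
  cases t with
  | inl a =>
    simp only [om, reduceCtorEq, if_false, one_mul]
    refine (lint_rd_le (a1 a).1 (m i) hc ⊥ subset_rfl measurableSet_ball fun x hx y hy e =>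
      ⟨1, one_mem _, (a1 a).2.1 hx hy e⟩).trans (le_trans ?_ (key 1 _ (by omega) hY))
    rw [Subgroup.card_bot]
    gcongr
    exact (lintegral_mono_set ((a1 a).2.2.trans (a2 a))).trans a4
  | inr w =>
    by_cases hw : w = T.root
    · subst hw
      rw [glob_root, gm_root]
      refine le_trans ?_ (key 80 (E i ^ 2) (by omega) (by linarith))
      refine le_trans ?_ (mul_le_mul_right a5 _)
      rw [← lintegral_const_mul' _ _ (by simp)]
      refine setLIntegral_mono' a9.isOpen.measurableSet fun x hx => ?_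
      rw [← ENNReal.ofReal_natCast, ← ENNReal.ofReal_mul (by norm_num)]
      refine ENNReal.ofReal_le_ofReal ?_
      have := (rd_le (fun a b => metric_symm a9 hx a b) fun a b => a10 a b x hx).2
      simp only [om, if_true]
      push_cast
      nlinarith [sq_nonneg ‖x‖]
    · have := fin w
      have hs : (T.glob (T.ls (s i))).U (Sum.inr w) ⊆ T.nk (T.ls (s i)) w :=
        fun x hx => glob_nk h.r_pos hw hx
      simp only [om, Sum.inr.injEq, if_neg hw, one_mul, gm_neck _ _ _ _ _ hw]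
      refine (lint_rd_le (a7 w) (m i) hc (T.Γ w) hs (glob_open w).measurableSet
        fun x hx y hy e => (a8 w x (hs hx) y (hs hy)).1 e).trans
        (le_trans ?_ (key (Nat.card (T.Γ w)) _ ?_ hY))
      · gcongr
        exact (lintegral_mono_set ((image_mono hs).trans (a3 w hw))).trans a4
      · have := Finset.single_le_sum (f := fun w => Nat.card (T.Γ w)) (fun _ _ => Nat.zero_le _)
          (Finset.mem_univ w)
        omega

/-- **FIN** -/
theorem PreS.fin {𝒰 : Ultrafilter ι} (h : T.PreS 𝒰 m s φ Ψ) (hX : T.PreX 𝒰 m s Ψ X γ)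
    (hI : T.PreI 𝒰 m s φ Ψ X Ω Y E) (hγ : 0 < γ) {C0 : ℝ}
    (hR : ∀ᶠ i in (𝒰 : Filter ι), ∀ p, |(m i).scal p| ≤ C0) :
    ∀ᶠ i0 in (𝒰 : Filter ι), (T.inst (φ i0) (Ψ i0) (T.ls (s i0))).Ok →
      ∃ (G : ι → T.S → MetricField 4) (g : T.V → T.S → MetricField 4) (C : ℝ), 0 ≤ C ∧
        (T.inst (φ i0) (Ψ i0) (T.ls (s i0))).Lim g γ ∧
        (T.inst (φ i0) (Ψ i0) (T.ls (s i0))).Seq g γ 𝒰 (fun i => T.ls (s i)) G ∧
        (T.inst (φ i0) (Ψ i0) (T.ls (s i0))).Bd γ 𝒰 (fun i => T.ls (s i)) G ∧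
        (∀ i, G i (Sum.inr T.root) = X i) ∧ ∀ᶠ i in (𝒰 : Filter ι),
          Sk.EE (T.inst (φ i0) (Ψ i0) (T.ls (s i0))) (T.ls (s i)) (G i) ≤
            ENNReal.ofReal (C * (Y i + E i ^ 2)) ∧
          ∀ t, t ≠ Sum.inr T.root → ∀ x ∈ (T.glob (T.ls (s i))).U t,
            |scalarCurv (G i t) x| ≤ C0 * s i T.root ^ 2 := by
  filter_upwards [h.bd hX] with i0 h0 hO
  obtain ⟨ψ, hψ, hB⟩ := h0 hO
  obtain ⟨C, hC, hb⟩ := PreI.chart h hX hI hO.fin hψ
  have h1 : Tendsto (fun i => ENNReal.ofReal (C * (Y i + E i ^ 2))) 𝒰 (𝓝 0) := by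
    simpa using ENNReal.tendsto_ofReal ((hI.Y0.add (hI.E0.pow 2)).const_mul C)
  refine ⟨_, _, Fintype.card T.S * C, by positivity, hO.lim_of_int hγ hB fun t => ?_,
    hO.seq_glim hγ.le hB, hB, fun i => gm_root _ _ _ _ _, ?_⟩
  · refine tendsto_of_tendsto_of_tendsto_of_le_of_le' tendsto_const_nhds h1
      (.of_forall fun _ => zero_le) ?_
    filter_upwards [hb, hB.met] with i a1 a2
    refine le_trans (setLIntegral_mono' (a2.2.riem t).isOpen.measurableSet fun x hx =>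
      ENNReal.ofReal_le_ofReal ?_) (a1 t)
    exact le_mul_of_one_le_left (rd_nonneg ((a2.2.riem t).posDef x hx)) (one_le_om (T := T) hx)
  · filter_upwards [hb, hB.met, hψ, eventually_all.2 h.parN, hR] with i a1 a2 a3 a4 a5
    refine ⟨(hO.ee_le a2.1 a2.2).trans ((Finset.sum_le_card_nsmul _ _ _ fun t _ => a1 t).trans ?_),
      fun t ht x hx => ?_⟩
    · rw [mul_assoc, ENNReal.ofReal_mul (Nat.cast_nonneg _), ENNReal.ofReal_natCast, nsmul_eq_mul]
      rfl
    · have hs := h.s_pos i T.root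
      have key : ∀ p, |s i T.root ^ 2 * (m i).scal p| ≤ C0 * s i T.root ^ 2 := fun p => by
        rw [abs_mul, abs_of_pos (pow_pos hs 2), mul_comm]
        gcongr; exact a5 p
      cases t with
      | inl a => exact (congrArg abs (scal_pm (a3 a).1 (m i) hs hx)).trans_le (key _)
      | inr w =>
        have hw : w ≠ T.root := fun e => ht (by rw [e])
        rw [gm_neck _ _ _ _ _ hw, scal_pm (a4 w) (m i) hs (glob_nk h.r_pos hw hx)]
        exact key _

end TD

end Crest.Agent.N207.I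

end
end

-- ▼ part N207/I/Mass
section

/-!
# Row 207, block I (helper65): the Ricci mass inside an admissible extension
-/

set_option autoImplicit false
set_option linter.unusedSectionVars false

open scoped ContDiff Manifold Topology ENNReal
open Set Filter MeasureTheory
open Crest.GeometryTopology.CoordMetric
open Crest.Agent.N207.Sk

noncomputable section

namespace Crest.Agent.N207.I

theorem jg_sqrt_det {m : ℕ} {G : MetricField 4} {x : E4} {s η : ℝ} (h : JG m G x s η)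
    (hη : η ≤ 1 / 100) : √(G x).det ≤ 20 := by
  have h1 := Matrix.det_le (abv := AbsoluteValue.abs) (A := G x) (x := 2)
    fun i j => Rad.jg_ent_le h hη i j
  rw [Real.sqrt_le_left (by norm_num)]
  have h2 : |(G x).det| ≤ 384 := by
    refine le_trans h1 ?_
    simp [Nat.factorial]; norm_num
  linarith [le_abs_self (G x).det]

theorem sum_two (B : Arr 4 2) : ∑ I, B I ^ 2 = ∑ i, ∑ j, B ![i, j] ^ 2 := by
  rw [← (piFinTwoEquiv fun _ => Fin 4).symm.sum_comp, Fintype.sum_prod_type]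
  rfl

theorem jg_nsq_ric {m : ℕ} {G : MetricField 4} {x : E4} {s η : ℝ} (h : JG m G x s η)
    (hη : η ≤ 1 / 100) (hp : (G x).PosDef) :
    nsq G (ricT G) x ≤ 4 * ∑ i, ∑ j, ricci G x i j ^ 2 := by
  have h1 := Ar.ipA_le_sum_sq hp two_pos.le (Rad.jg_low h hη) (ricT G x)
  rw [sum_two] at h1
  exact h1.trans_eq (by norm_num; rfl)

variable {M : Type*} [TopologicalSpace M] [ChartedSpace E4 M] [IsManifold 𝓘(ℝ, E4) ∞ M]
  [T3Space M] [ConnectedSpace M] [MeasurableSpace M] [BorelSpace M] [CompactSpace M]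

theorem rc_nonneg (g : Met 4 M) (j : ℕ) (p : M) : 0 ≤ g.rc j p :=
  Ar.ipA_nonneg ((g.isRiem p).posDef _ (V.ctr_mem p)) _

/-- the mass in the shell -/
theorem mass_shell {g : Met 4 M} {N : Nk M} {G : MetricField 4} {ρ e y η W : ℝ} {Cs : ℕ → ℝ}
    (h : Ext' g N G ρ e y η Cs W) (hη : η ≤ 1 / 100) :
    ∫⁻ p in N.Ψ '' shell N.a N.b, ENNReal.ofReal (g.rc 0 p) ∂g.vol ≤
      ENNReal.ofReal (81920 * e ^ 2) := by
  have hP := h.top.par
  have a0 : 0 < ρ / 32 := h.a_eq ▸ h.top.a_pos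
  have ρ0 : 0 < ρ := by linarith
  have sub : shell N.a N.b ⊆ {x | ρ / 32 < ‖x‖} := fun x hx => h.a_eq ▸ hx.1
  refine (V.lintegral_par_le hP g Subset.rfl hP.isOpen.measurableSet _).trans ?_
  calc _ ≤ ∫⁻ x in shell N.a N.b, ENNReal.ofReal
        (81920 / ρ ^ 2 * (‖x‖ ^ 2 * ∑ i, ∑ j, ricci G x i j ^ 2)) := by
        refine setLIntegral_mono' hP.isOpen.measurableSet fun x hx => ?_
        rw [← ENNReal.ofReal_mul (V.pdens_nonneg g _ x)]
        refine ENNReal.ofReal_le_ofReal ?_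
        have hx' : ρ / 32 < ‖x‖ := sub hx
        have ev : g.pm N.Ψ =ᶠ[𝓝 x] G := by
          filter_upwards [hP.isOpen.mem_nhds hx] with z hz using (h.eq z hz).symm
        have w : η * √(ρ / 32 / ‖x‖) ≤ 1 / 100 := by
          have : √(ρ / 32 / ‖x‖) ≤ 1 :=
            Real.sqrt_le_one.2 ((div_le_one (a0.trans hx')).2 hx'.le)
          nlinarith [Real.sqrt_nonneg (ρ / 32 / ‖x‖)]
        have e1 : g.rc 0 (N.Ψ x) = nsq G (ricT G) x := by
          rw [hP.par_rc g 0 hx]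
          show ipA (g.pm N.Ψ x)⁻¹ (ricT (g.pm N.Ψ) x) (ricT (g.pm N.Ψ) x) =
            ipA (G x)⁻¹ (ricT G x) (ricT G x)
          rw [(AI.ricT_congr ev).eq_of_nhds, ev.eq_of_nhds]
        have k1 := jg_sqrt_det (h.jet x hx') w
        have k2 := jg_nsq_ric (h.jet x hx') w (h.riem.posDef x hx')
        rw [V.pdens, ev.eq_of_nhds]
        have k3 : (1 : ℝ) ≤ 1024 / ρ ^ 2 * ‖x‖ ^ 2 := by
          rw [div_mul_eq_mul_div, le_div_iff₀ (by positivity)]; nlinarith
        have s0 : 0 ≤ ∑ i, ∑ j, ricci G x i j ^ 2 := by positivity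
        calc _ ≤ 20 * (4 * ∑ i, ∑ j, ricci G x i j ^ 2) :=
              mul_le_mul k1 (e1.trans_le k2) (rc_nonneg g 0 _) (by norm_num)
          _ ≤ 80 * (1024 / ρ ^ 2 * ‖x‖ ^ 2 * ∑ i, ∑ j, ricci G x i j ^ 2) := by
              nlinarith [mul_le_mul_of_nonneg_right k3 s0]
          _ = _ := by ring
    _ ≤ ∫⁻ x in {x : E4 | ρ / 32 < ‖x‖}, ENNReal.ofReal
        (81920 / ρ ^ 2 * (‖x‖ ^ 2 * ∑ i, ∑ j, ricci G x i j ^ 2)) := lintegral_mono_set sub
    _ = ENNReal.ofReal (81920 / ρ ^ 2 *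
          ∫ x in {x : E4 | ρ / 32 < ‖x‖}, ‖x‖ ^ 2 * ∑ i, ∑ j, ricci G x i j ^ 2) := by
        rw [← integral_const_mul, ofReal_integral_eq_lintegral_ofReal (h.ric_int.const_mul _)
          (Eventually.of_forall fun x => by positivity)]
    _ ≤ _ := by
        refine ENNReal.ofReal_le_ofReal ((mul_le_mul_of_nonneg_left h.ric (by positivity)).trans_eq ?_)
        field_simp

theorem lintegral_rc (g : Met 4 M) (j : ℕ) (S : Set M) :
    ∫⁻ p in S, ENNReal.ofReal (g.rc j p) ∂g.vol = ENNReal.ofReal (∫ p in S, g.rc j p ∂g.vol) :=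
  (ofReal_integral_eq_lintegral_ofReal (V.integrable_cont g (g.sm_rc j).continuous).integrableOn
    (Eventually.of_forall fun p => rc_nonneg g j p)).symm

/-- **MASS** -/
theorem mass_le {g : Met 4 M} {N : Nk M} {G : MetricField 4} {ρ e y η W : ℝ} {Cs : ℕ → ℝ}
    (h : Ext' g N G ρ e y η Cs W) (hη : η ≤ 1 / 100) :
    ∫⁻ p in N.Om N.b, ENNReal.ofReal (g.rc 0 p) ∂g.vol ≤
      ENNReal.ofReal (y ^ 2 + 81920 * e ^ 2) := by
  refine (lintegral_union_le _ _ _).trans ?_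
  rw [ENNReal.ofReal_add (sq_nonneg y) (by positivity)]
  refine add_le_add ?_ (mass_shell h hη)
  rw [lintegral_rc]
  exact ENNReal.ofReal_le_ofReal h.mass


end Crest.Agent.N207.I

end
end

-- ▼ part N207/I/Wl
section

/-!
# Row 207, block I (helper24): the final glue `SWL' M → WL' F`
-/

set_option autoImplicit false
set_option linter.unusedSectionVars false

open scoped ContDiff Topology Manifold ENNReal
open Set Filter Metric MeasureTheory
open Crest.GeometryTopology.CoordMetric Crest.GeometryTopology.MetricFamily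

noncomputable section

namespace Crest.Agent.N207.I

open Sk

/-- scaling of the exterior action -/
def ACTa : Prop :=
  ∀ (G : MetricField 4) (a0 a s : ℝ) (O : Iso4), 0 < a0 → a0 ≤ a → 0 < s →
    IsRiemannianOn G {x | a0 < ‖x‖} → (∃ R' : ℝ, ∀ x : E4, R' ≤ ‖x‖ → G x = 1) →
    act G a = s ^ 2 * act (rot G s O) (a / s)

/-- the total scalar curvature is the exterior action, up to the size of the scalar curvature -/
def ACTb (M : Type*) : Prop :=
  ∀ (T : TD M) (g : T.V → T.S → MetricField 4) (γ : ℝ) (l : Filter ℕ) (L : ℕ → T.V → ℝ)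
    (G : ℕ → T.S → MetricField 4) (c : ℕ → ℝ), T.Ok → 0 < γ → T.Seq g γ l L G →
    (∀ᶠ i in l, Flat T (G i)) →
    (∀ᶠ i in l, ∀ s, ∀ x ∈ (T.glob (L i)).U s, (s = Sum.inr T.root → ‖x‖ < 6) →
      |scalarCurv (G i s) x| ≤ c i) →
    ∃ C : ℝ, ∀ᶠ i in l,
      |SR T (L i) (G i) - act (G i (Sum.inr T.root)) (9 / 4) / Nat.card (T.Γ T.root)| ≤ C * c i

/-- the Ricci energy inside the outer radius of the neck of an extension -/
def MASS (M : Type*) [TopologicalSpace M] [ChartedSpace E4 M] [IsManifold 𝓘(ℝ, E4) ∞ M]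
    [T3Space M] [ConnectedSpace M] [MeasurableSpace M] [BorelSpace M] : Prop :=
  ∃ C : ℝ, ∀ (g : Met 4 M) (N : Nk M) (G : MetricField 4) (ρ e y η V : ℝ) (Cs : ℕ → ℝ),
    Ext' g N G ρ e y η Cs V → η ≤ 1 / 100 →
    ∫⁻ p in N.Om N.b, ENNReal.ofReal (g.rc 0 p) ∂g.vol ≤ ENNReal.ofReal (y ^ 2 + C * e ^ 2)

variable {M : Type*} [TopologicalSpace M] [ChartedSpace E4 M] [IsManifold 𝓘(ℝ, E4) ∞ M]
  [T3Space M] [ConnectedSpace M] [MeasurableSpace M] [BorelSpace M]

theorem xt_nn_Om {g : Met 4 M} {N : Nk M} {G : MetricField 4} {ρ e y η V : ℝ} {Cs : ℕ → ℝ}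
    (h : Ext' g N G ρ e y η Cs V) (O : Iso4) (Γ0 : Subgroup Iso4) (b : ℝ) :
    (N.nn (ρ / 24) O Γ0 b).Om 6 = N.Om N.b := by
  have hρ := xt_pos h
  have h1 := rs_image N (s := ρ / 24) (by positivity) O Γ0 (3 / 4) 6
  rw [show ρ / 24 * (3 / 4) = N.a by rw [h.a_eq]; ring,
    show ρ / 24 * 6 = N.b by rw [h.b_eq]; ring] at h1
  exact congrArg (N.In ∪ ·) h1

theorem xt_scal {g : Met 4 M} {N : Nk M} {G : MetricField 4} {ρ e y η V C0 : ℝ} {Cs : ℕ → ℝ}
    (h : Ext' g N G ρ e y η Cs V) (O : Iso4) (hR : ∀ p, |g.scal p| ≤ C0) {x : E4} (h1 : 1 < ‖x‖)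
    (h2 : ‖x‖ < 6) : |scalarCurv (rot G (ρ / 24) O) x| ≤ C0 * (ρ / 24) ^ 2 := by
  have hρ := xt_pos h
  have hs : 0 < ρ / 24 := by positivity
  have hx : x ∈ shell (ρ / 32 / (ρ / 24)) (ρ / 4 / (ρ / 24)) := by
    rw [show ρ / 32 / (ρ / 24) = 3 / 4 by field_simp; norm_num,
      show ρ / 4 / (ρ / 24) = 6 by field_simp; norm_num]
    exact ⟨by linarith, h2⟩
  have e1 := (AI.scalarCurv_congr (mem_of_superset ((isOpen_shell _ _).mem_nhds hx)
    fun z hz => xt_eq h hs O ⊥ hz)).eq_of_nhds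
  rw [← h.a_eq, ← h.b_eq] at hx
  rw [e1, show (N.rs (ρ / 24) O ⊥).Ψ = fun x => N.Ψ ((ρ / 24) • O x) from rfl,
    scal_pm (par_rot hs O h.top.par) g hs ((sim_mem_shell hs O).2 hx), abs_mul,
    abs_of_pos (pow_pos hs 2), mul_comm]
  gcongr
  exact hR _

namespace TD

variable {T : TD M} {ι : Type} {l : Filter ι} {m : ι → Met 4 M} {N0 : ι → Nk M}
  {X : ι → MetricField 4} {ρ e y : ι → ℝ} {s : ι → T.V → ℝ} {R : ι → T.V → Nk M}
  {O : ι → T.V → Iso4} {φ : ι → T.B → E4 → M} {V : ℝ} {Cs : ℕ → ℝ}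

theorem GOut.preI [CompactSpace M] (h : T.GOut l m N0 X ρ e y s R O φ) (hM : MASS M)
    (hE : ∀ i, Ext' (m i) (N0 i) (X i) (ρ i) (e i) (y i) (1 / 3200) Cs V)
    (he : Tendsto e l (𝓝 0)) (hy : Tendsto y l (𝓝 0)) : ∃ C : ℝ, 0 ≤ C ∧
      T.PreI l m s φ (fun i w => ((R i w).rs (s i w) (O i w) (T.Γ w)).Ψ)
        (fun i => rot (X i) (s i T.root) (O i T.root)) (fun i => (N0 i).Om (N0 i).b)
        (fun i => y i ^ 2 + C * e i ^ 2) fun i => 1536 * e i := by
  obtain ⟨C, hC⟩ := hM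
  have e1 : ∀ i b, ((R i T.root).nn (s i T.root) (O i T.root) (T.Γ T.root) b).Om 6 =
      (N0 i).Om (N0 i).b := fun i b => by rw [h.R_root, h.s_root]; exact xt_nn_Om (hE i) _ _ _
  refine ⟨|C|, abs_nonneg _, h.cfg.mono fun i hi a => ?_, h.cfg.mono fun i hi w _ => ?_,
    .of_forall fun i => (hC _ _ _ _ _ _ _ _ _ (hE i) (by norm_num)).trans
      (ENNReal.ofReal_le_ofReal ?_), .of_forall fun i => ?_, .of_forall fun i => by positivity,
    ?_, ?_⟩
  · rintro _ ⟨x, hx, rfl⟩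
    exact e1 i _ ▸ hi.ball_sub a (ball_subset_ball (by norm_num) hx)
  · rintro _ ⟨x, hx, rfl⟩
    exact e1 i _ ▸ hi.sub_root w (hi.psi_mem w (hi.nk_sub w hx))
  · gcongr; exact le_abs_self C
  · have hρ := xt_pos (hE i)
    have := xt_ric (hE i) (h.an.s_pos i T.root) (O i T.root) (r := 1) (by
      rw [h.s_root, div_le_one (by positivity)]; linarith)
    rwa [show 64 * (ρ i / s i T.root) * e i = 1536 * e i by rw [h.s_root]; field_simp; ring]
      at this
  · simpa using (hy.pow 2).add ((he.pow 2).const_mul |C|)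
  · simpa using he.const_mul 1536

end TD

theorem mass_stmt [CompactSpace M] : MASS M := ⟨81920, fun _ _ _ _ _ _ _ _ _ h hη => mass_le h hη⟩

variable [CompactSpace M] {F : Flow M}

/-- the inequality along an ultrafilter -/
theorem wl_seq (hB : Base F) (hA : ACTa) (hA' : ACTb M) (hM : MASS M) (hS : SWL' M)
    {U : Ultrafilter ℕ} {t ρ e y p : ℕ → ℝ} {N0 : ℕ → Nk M} {X : ℕ → MetricField 4} {V η0 : ℝ}
    {Cs : ℕ → ℝ} (hη0 : 0 < η0) (ht : ∀ i, t i ∈ late F)
    (hE : ∀ i, Ext' (F.m (t i)) (N0 i) (X i) (ρ i) (e i) (y i) (1 / 3200) Cs V)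
    (hp : ∀ i, |p i - act (X i) (3 * (ρ i / 32)) / Nat.card (N0 i).Γ| ≤ V * ρ i ^ 4)
    (h0 : ∀ i, 0 ≤ e i ∧ 0 ≤ y i) (hρ : Tendsto ρ U (𝓝 0)) (he : Tendsto e U (𝓝 0))
    (hy : Tendsto y U (𝓝 0)) (hp0 : Tendsto (fun i => |p i| / ρ i ^ 2) U (𝓝 0))
    {T : TD M} {s : ℕ → T.V → ℝ} {R : ℕ → T.V → Nk M} {O : ℕ → T.V → Iso4}
    {φ : ℕ → T.B → E4 → M} (h : T.GOut U (fun i => F.m (t i)) N0 X ρ e y s R O φ) :
    ∃ C : ℝ, ∀ᶠ i in (U : Filter ℕ), |p i| ≤ η0 * ρ i ^ 2 * (y i + e i) + C * ρ i ^ 4 := by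
  obtain ⟨C0, hC0⟩ := hB.ok.evo.R_bd
  have hR : ∀ i q, |(F.m (t i)).scal q| ≤ C0 := fun i q => hC0 _ (late_pos (ht i)) q
  obtain ⟨Cm, hCm, hI⟩ := h.preI hM hE he hy
  obtain ⟨i0, h1, h2⟩ := ((h.preS.fin (h.an.preX h.top) hI one_half_pos
    (.of_forall hR)).and h.cfg).exists
  set T' : TD M := T.inst (φ i0) (fun w => ((R i0 w).rs (s i0 w) (O i0 w) (T.Γ w)).Ψ)
    (T.ls (s i0)) with hT'
  have hO : T'.Ok := h2.ok
  obtain ⟨G, g, C, hC, hL, hQ, -, hG, hb⟩ := h1 hO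
  have hρ0 := fun i => xt_pos (hE i)
  have hF : ∀ᶠ i in (U : Filter ℕ), Flat T' (G i) := .of_forall fun i => by
    have := rot_flat (h.an.s_pos i T.root) (O i T.root) (hE i).flat
    rwa [← hG] at this
  obtain ⟨C3, h3⟩ := hA' T' g _ U _ G (fun i => C0 * s i T.root ^ 2) hO one_half_pos hQ hF
    (hb.mono fun i hi u x hx hx' => by
      by_cases hu : u = Sum.inr T.root
      · subst hu
        rw [hG, h.s_root]
        exact xt_scal (hE i) _ (hR i) hx.1 (hx' rfl)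
      · exact hi.2 u hu x hx)
  set S : ℕ → ℝ := fun i => SR T' (T.ls (s i)) (G i) with hSd
  obtain ⟨η', V', Cs', -, -, h4⟩ := h.an.ext
  have h5 : ∀ᶠ i in (U : Filter ℕ),
      |p i - (ρ i / 24) ^ 2 * S i| ≤ (V + C3 * C0 / 24 ^ 4) * ρ i ^ 4 := by
    filter_upwards [h3, h4] with i a1 a2
    have hr := hρ0 i
    have a3 := hA (X i) (ρ i / 32) (3 * (ρ i / 32)) (ρ i / 24) (O i T.root) (by positivity)
      (by linarith) (by positivity) (hE i).riem (hE i).flat
    have a4 := hp i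
    have a5 := a2.2.1.card
    rw [h.R_root] at a5
    rw [show 3 * (ρ i / 32) / (ρ i / 24) = 9 / 4 by field_simp; norm_num] at a3
    rw [a3, ← a5, mul_div_assoc] at a4
    rw [hG, h.s_root] at a1
    have a6 := mul_le_mul_of_nonneg_left a1 (sq_nonneg (ρ i / 24))
    rw [← abs_of_nonneg (sq_nonneg (ρ i / 24)), ← abs_mul, abs_of_nonneg (sq_nonneg (ρ i / 24)),
      mul_sub, abs_sub_comm] at a6
    refine (abs_sub_le _ _ _).trans ((add_le_add a4 a6).trans (le_of_eq (by ring)))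
  have h6 : Tendsto S U (𝓝 0) := by
    have a1 : Tendsto (fun i => 576 * (|p i| / ρ i ^ 2 + (V + C3 * C0 / 24 ^ 4) * ρ i ^ 2)) U
        (𝓝 0) := by
      simpa using (hp0.add ((hρ.pow 2).const_mul (V + C3 * C0 / 24 ^ 4))).const_mul 576
    refine squeeze_zero_norm' (h5.mono fun i hi => ?_) a1
    have hr := hρ0 i
    have a2 := abs_sub_abs_le_abs_sub ((ρ i / 24) ^ 2 * S i) (p i)
    rw [abs_sub_comm, abs_mul, abs_of_nonneg (sq_nonneg _)] at a2
    rw [Real.norm_eq_abs, ← mul_le_mul_iff_right₀ (show 0 < (ρ i / 24) ^ 2 by positivity)]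
    refine (sub_le_iff_le_add.1 (a2.trans hi)).trans (le_of_eq ?_)
    field_simp
    ring
  set K : ℝ := C * (1 + Cm + 1536 ^ 2) with hK
  have hK0 : 0 ≤ K := by positivity
  have hY : ∀ i, 0 ≤ C * (y i ^ 2 + Cm * e i ^ 2 + (1536 * e i) ^ 2) := fun i => by positivity
  have h7 : ∀ i, √(C * (y i ^ 2 + Cm * e i ^ 2 + (1536 * e i) ^ 2)) ≤ (√K + 1) * (y i + e i) :=
    fun i => by
      obtain ⟨a1, a2⟩ := h0 i
      refine (Real.sqrt_le_sqrt (show _ ≤ K * (y i + e i) ^ 2 from ?_)).trans ?_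
      · rw [hK, mul_assoc]
        refine mul_le_mul_of_nonneg_left ?_ hC
        have a3 : e i ^ 2 ≤ (y i + e i) ^ 2 := by gcongr; linarith
        have a4 : y i ^ 2 ≤ (y i + e i) ^ 2 := by gcongr; linarith
        nlinarith [mul_le_mul_of_nonneg_left a3 hCm]
      · rw [Real.sqrt_mul hK0, Real.sqrt_sq (by positivity)]
        nlinarith
  have h8 := hS T' g U _ G (fun i => √(C * (y i ^ 2 + Cm * e i ^ 2 + (1536 * e i) ^ 2))) hO
    h2.conn hL hQ hF (fun i => Real.sqrt_nonneg _)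
    (hb.mono fun i hi => by rw [Real.sq_sqrt (hY i)]; exact hi.1)
    (squeeze_zero (fun i => Real.sqrt_nonneg _) h7 (by simpa using (hy.add he).const_mul (√K + 1)))
    h6 (η0 / (√K + 1)) (by positivity)
  refine ⟨V + C3 * C0 / 24 ^ 4, ?_⟩
  filter_upwards [h5, h8] with i a1 a2
  obtain ⟨a3, a4⟩ := h0 i
  have a5 : |S i| ≤ η0 * (y i + e i) := a2.trans ((mul_le_mul_of_nonneg_left (h7 i)
    (by positivity)).trans (le_of_eq (by field_simp)))
  have a6 := abs_sub_abs_le_abs_sub (p i) ((ρ i / 24) ^ 2 * S i)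
  rw [abs_mul, abs_of_nonneg (sq_nonneg (ρ i / 24))] at a6
  have a7 : (ρ i / 24) ^ 2 * |S i| ≤ ρ i ^ 2 * (η0 * (y i + e i)) :=
    mul_le_mul (by nlinarith [sq_nonneg (ρ i)]) a5 (abs_nonneg _) (sq_nonneg _)
  linarith

/-- **block I** -/
theorem wl_of (hB : Base F) (hG : GEO F) (hA : ACTa) (hA' : ACTb M) (hS : SWL' M) : WL' F := by
  refine ⟨1 / 3200, by norm_num, fun Cs V η0 hη0 => ?_⟩
  obtain ⟨δ0, hδ0, hG⟩ := hG Cs V
  by_contra hc
  push Not at hc
  choose t ht ρ e y p h1 h2 h3 h4 h5 h6 h7 h8 h9 using fun n : ℕ =>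
    hc (min δ0 (1 / ((n : ℝ) + 1))) (n + 1) (by positivity) (by positivity)
  choose N0 X hE hp using h8
  have hU : ((hyperfilter ℕ : Ultrafilter ℕ) : Filter ℕ) ≤ atTop := Nat.hyperfilter_le_atTop
  have hz : ∀ {u : ℕ → ℝ}, (∀ n, 0 ≤ u n) → (∀ n, u n ≤ min δ0 (1 / ((n : ℝ) + 1))) →
      Tendsto u (hyperfilter ℕ) (𝓝 0) := fun a1 a2 =>
    (squeeze_zero a1 (fun n => (a2 n).trans (min_le_right _ _))
      tendsto_one_div_add_atTop_nhds_zero_nat).mono_left hU
  have hρ := hz (fun n => (h1 n).le) h2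
  obtain ⟨T, s, R, O, φ, h⟩ := hG (hyperfilter ℕ) t ρ e y N0 X
    (fun i => ⟨ht i, (h2 i).trans (min_le_left _ _), hE i⟩) hρ
  obtain ⟨C, hC⟩ := wl_seq hB hA hA' mass_stmt hS hη0 ht hE hp (fun i => ⟨h3 i, h5 i⟩) hρ (hz h3 h4)
    (hz h5 h6) (hz (fun n => by positivity) fun n => (div_le_iff₀ (pow_pos (h1 n) 2)).2 (h7 n)) h
  obtain ⟨i, a1, a2⟩ := (hC.and (hU ((tendsto_natCast_atTop_atTop (R := ℝ)).eventually_ge_atTop
    C))).exists
  have a3 : C ≤ (i : ℝ) := a2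
  nlinarith [h9 i, pow_pos (h1 i) 4]

end Crest.Agent.N207.I

end
end

-- ▼ part N207/I/BallRs
section

/-!
# Row 207, block I (helper56): normalised ball charts from `LOCF`
-/

set_option autoImplicit false

open scoped ContDiff Topology Manifold
open Set Filter Metric
open Crest.GeometryTopology.CoordMetric Crest.Agent.R202.Tens

noncomputable section

namespace Crest.Agent.N207.I

open Jt Sk

theorem MU.csmul {ι : Type} {n : ℕ} {l : Filter ι} {H : ι → MetricField n} {S : ι → Set (En n)}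
    (h : MU l H S) {κ : ℝ} (hκ : 0 < κ) : MU l (fun i y => κ • H i y) S := by
  obtain ⟨h1, c, hc, h2⟩ := mu_iff.1 h
  refine mu_iff.2 ⟨fun a b => GB.mul (GB.const' κ) (h1 a b), κ * c, by positivity,
    h2.mono fun i hi y hy => ⟨fun a b => ?_, fun v => ?_⟩⟩
  · simp only [Matrix.smul_apply, (hi y hy).1 a b]
  · have e : bil (κ • H i y) v v = κ * bil (H i y) v v := by
      simp only [bil_apply, Matrix.smul_apply, smul_eq_mul, Finset.mul_sum, mul_assoc]
    rw [e, mul_assoc]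
    exact mul_le_mul_of_nonneg_left ((hi y hy).2 v) hκ.le

theorem MU.congr_open {ι : Type} {n : ℕ} {l : Filter ι} {G G' : ι → MetricField n}
    {S : Set (En n)} (hS : IsOpen S) (h : MU l G fun _ => S)
    (e : ∀ᶠ i in l, ∀ x ∈ S, G' i x = G i x) : MU l G' fun _ => S :=
  MB.congr h (ev_un.2 (e.mono fun _ hi _ hx => ⟨rfl, mem_of_superset (hS.mem_nhds hx) hi⟩))

variable {M : Type*} [TopologicalSpace M] [ChartedSpace E4 M] [IsManifold 𝓘(ℝ, E4) ∞ M]
  [T3Space M] [ConnectedSpace M] [MeasurableSpace M] [BorelSpace M] {F : Flow M}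

/-- **Normalised ball charts.** -/
theorem ball_charts (hL : LOCF F) : ∃ ε0 r0 c : ℝ, 0 < ε0 ∧ 0 < r0 ∧ 0 < c ∧ c ≤ 1 / 8 ∧
    ∀ {ι : Type} (l : Filter ι) (t ρ s : ι → ℝ) (x : ι → M) (θ : ℝ), 0 < θ →
      (∀ᶠ i in l, t i ∈ late F ∧ 0 < ρ i ∧ ρ i ≤ r0 ∧ en (F.m (t i)) (x i) (ρ i) ≤ ε0 ∧
        ρ i = θ * s i) →
      ∃ φ : ι → E4 → M, (∀ᶠ i in l, Par (φ i) (ball 0 4) ∧ InjOn (φ i) (ball 0 4) ∧
        (∀ y ∈ ball (0 : E4) 4, (F.m (t i)).d (φ i y) (x i) < 4 * (c * ρ i / 4)) ∧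
        ∀ p, (F.m (t i)).d p (x i) < c * ρ i / 4 → p ∈ φ i '' ball 0 1) ∧
        MU l (fun i y => (s i ^ 2)⁻¹ • (F.m (t i)).pm (φ i) y) fun _ => ball 0 4 := by
  obtain ⟨ε0, r0, hε0, hr0, hL⟩ := hL
  obtain ⟨c, Cs, hc, hc8, hL⟩ := hL 0 (1 / 100) (by norm_num)
  refine ⟨ε0, r0, c, hε0, hr0, hc, hc8, fun {ι} l t ρ s x θ hθ h => ?_⟩
  have h1 : ∀ i, ∃ φ : E4 → M, (t i ∈ late F ∧ 0 < ρ i ∧ ρ i ≤ r0 ∧
      en (F.m (t i)) (x i) (ρ i) ≤ ε0 ∧ ρ i = θ * s i) → BallCh φ (x i) (c * ρ i) ∧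
      (∀ u ∈ Ioc 0 (c * ρ i), φ '' ball 0 u = (F.m (t i)).ball (x i) u) ∧
      ∀ y ∈ ball (0 : E4) (c * ρ i), JG 0 ((F.m (t i)).pm φ) y (c * ρ i) (1 / 100) ∧
        JAll Cs ((F.m (t i)).pm φ) y (c * ρ i) 1 := fun i => by
    by_cases hi : t i ∈ late F ∧ 0 < ρ i ∧ ρ i ≤ r0 ∧ en (F.m (t i)) (x i) (ρ i) ≤ ε0 ∧
      ρ i = θ * s i
    · obtain ⟨φ, a1, a2, a3⟩ := hL _ hi.1 (x i) _ hi.2.1 hi.2.2.1 hi.2.2.2.1
      refine ⟨φ, fun _ => ⟨a1, a2, a3 _ ⟨by linarith [hi.1.1, F.hT], hi.1.2⟩ ?_⟩⟩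
      rw [sub_self, abs_zero]
      have := hi.2.1
      positivity
    · exact ⟨fun _ => x i, fun h' => absurd h' hi⟩
  choose φ hφ using h1
  have h2 : ∀ᶠ i in l, 0 < c * ρ i / 4 ∧ ∀ (r : ℝ) (y : E4),
      y ∈ ball (0 : E4) r ↔ (c * ρ i / 4) • y ∈ ball (0 : E4) (r * (c * ρ i / 4)) :=
    h.mono fun i hi => by
      have h0 : 0 < c * ρ i / 4 := by have := hi.2.1; positivity
      refine ⟨h0, fun r y => ?_⟩
      rw [mem_ball_zero_iff, mem_ball_zero_iff, norm_smul, Real.norm_of_nonneg h0.le, mul_comm r,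
        mul_lt_mul_iff_right₀ h0]
  have h3 : ∀ᶠ i in l, ∀ y ∈ ball (0 : E4) 4, (c * ρ i / 4) • y ∈ ball (0 : E4) (c * ρ i) :=
    h2.mono fun i hi y hy => by convert (hi.2 4 y).1 hy using 2; ring
  refine ⟨fun i y => φ i ((c * ρ i / 4) • y), ?_, ?_⟩
  · filter_upwards [h, h2, h3] with i hi h2 h3
    obtain ⟨a1, a2, -⟩ := hφ i hi
    refine ⟨par_smul a1.par h2.1.ne' isOpen_ball h3, fun y hy z hz e =>
      smul_right_injective E4 h2.1.ne' (a1.inj (h3 y hy) (h3 z hz) e), fun y hy => ?_,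
      fun p hp => ?_⟩
    · have := (a2 _ ⟨by linarith [h2.1], le_rfl⟩).subset ⟨_, h3 y hy, rfl⟩
      exact lt_of_lt_of_eq this (by ring)
    · obtain ⟨z, hz, rfl⟩ := (a2 _ ⟨h2.1, by linarith [h2.1]⟩).superset hp
      have e := smul_inv_smul₀ h2.1.ne' z
      exact ⟨(c * ρ i / 4)⁻¹ • z, (h2.2 1 _).2 (by rwa [e, one_mul]), by simp only [e]⟩
  · refine MU.congr_open isOpen_ball (MU.csmul (κ := (c * θ / 4) ^ 2)
      (H := fun i y => (F.m (t i)).pm (φ i) ((c * ρ i / 4) • y)) (mu_iff.2 ⟨fun p q =>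
        ub_of_dv (ub_iff.2 ⟨?_, fun k => ⟨|Cs k|, ?_⟩⟩), 1 / 2, one_half_pos, ?_⟩)
      (by positivity)) ?_
    · filter_upwards [h, h3] with i hi h3 y hy
      have := (hφ i hi).1.par.riem (F.m (t i))
      exact (((this.contDiffOn p q).contDiffAt (isOpen_ball.mem_nhds (h3 y hy))).sub
        contDiffAt_const).comp y (contDiff_const_smul _).contDiffAt
    · filter_upwards [h, h2, h3] with i hi h2 h3 y hy
      have a1 := ((hφ i hi).2.2 _ (h3 y hy)).2 k p q
      refine (norm_iter_smul (TD.dv ((F.m (t i)).pm (φ i)) p q) h2.1 k y).trans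
        (le_trans ?_ (a1.trans (by rw [mul_one]; exact le_abs_self _)))
      rw [mul_comm]
      exact mul_le_mul_of_nonneg_left (pow_le_pow_left₀ h2.1.le (by linarith [h2.1]) k)
        (norm_nonneg _)
    · filter_upwards [h, h3] with i hi h3 y hy
      have := ((hφ i hi).1.par.riem (F.m (t i))).posDef _ (h3 y hy)
      refine pos_of_small (fun a b => by simpa using this.isHermitian.apply b a) fun a b => ?_
      simpa [J1, Sk.dv] using ((hφ i hi).2.2 _ (h3 y hy)).1 0 le_rfl a b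
    · filter_upwards [h, h3] with i hi h3 y hy
      have hs : 0 < s i := by
        have := hi.2.1
        rw [hi.2.2.2.2] at this
        exact (mul_pos_iff_of_pos_left hθ).1 this
      rw [pm_smul _ ((hφ i hi).1.par.mdifferentiableAt (h3 y hy)), smul_smul]
      congr 1
      rw [hi.2.2.2.2]
      field_simp

end Crest.Agent.N207.I

end
end

-- ▼ part N207/I/GeoB
section

/-!
# Row 207, block I (helper56): finitely many normalised ball charts cover the regular regions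
-/

set_option autoImplicit false

open scoped ContDiff Topology Manifold
open Set Filter Metric MeasureTheory

noncomputable section

namespace Crest.Agent.N207.I

open Jt Sk

variable {M : Type*} [TopologicalSpace M] [ChartedSpace E4 M] [IsManifold 𝓘(ℝ, E4) ∞ M]
  [T3Space M] [ConnectedSpace M] [MeasurableSpace M] [BorelSpace M] [CompactSpace M] {F : Flow M}

/-- **Ball charts on regular regions `K v i` of scale `s i v`.** -/
theorem geo_balls (hB : Base F) (hL : LOCF F) : ∃ ε0 : ℝ, 0 < ε0 ∧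
    ∀ {ι : Type} (U : Ultrafilter ι) (t : ι → ℝ) {V : Type} [Fintype V] (K : V → ι → Set M)
      (z : V → ι → M) (s : ι → V → ℝ) (R θ κ : ℝ), 0 ≤ R → 0 < θ → 0 < κ → (∀ i, t i ∈ late F) →
      (∀ i v, 0 < s i v) → (∀ v, Tendsto (fun i => s i v) U (𝓝 0)) →
      (∀ᶠ i in U, ∀ v, ∀ p ∈ K v i, (F.m (t i)).d (z v i) p ≤ R * s i v ∧
        en (F.m (t i)) p (θ * s i v) ≤ ε0) →
      ∃ (A : Type) (_ : Fintype A) (vx : A → V) (y : A → ι → M) (φ : ι → A → E4 → M) (σ : ℝ),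
        0 < σ ∧ σ ≤ κ ∧
        (∀ᶠ i in U, (∀ a, y a i ∈ K (vx a) i ∧ Par (φ i a) (ball 0 4) ∧ InjOn (φ i a) (ball 0 4) ∧
          (∀ x ∈ ball (0 : E4) 4, (F.m (t i)).d (φ i a x) (y a i) < 4 * (σ * s i (vx a))) ∧
          ∀ p, (F.m (t i)).d p (y a i) < σ * s i (vx a) → p ∈ φ i a '' ball 0 1) ∧
          ∀ v, ∀ p ∈ K v i, ∃ a, vx a = v ∧ (F.m (t i)).d p (y a i) < σ * s i v) ∧
        ∀ a, MU U (fun i x => (s i (vx a) ^ 2)⁻¹ • (F.m (t i)).pm (φ i a) x) fun _ => ball 0 3 := by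
  obtain ⟨ε0, r0, c, hε0, hr0, hc, hc8, hL⟩ := ball_charts hL
  obtain ⟨κ0, hκ0, hlo⟩ := exists_vol_lo hB
  obtain ⟨C0, -, hup⟩ := exists_vol_up hB
  refine ⟨ε0, hε0, fun {ι} U t V _ K z s R θ κ hR hθ hκ ht hs hs0 hK => ?_⟩
  have hm : 0 < min θ κ := lt_min hθ hκ
  have h1 := min_le_left θ κ
  have h2 := min_le_right θ κ
  generalize min θ κ = θ' at hm h1 h2
  haveI : ∀ i, IsFiniteMeasure (F.m (t i)).vol := fun i => N207.V.isFinite _
  have hsm : ∀ a : ℝ, ∀ b : ℝ, 0 < b → ∀ᶠ i in U, ∀ v, a * s i v ≤ b := fun a b hb =>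
    eventually_all.2 fun v => (((hs0 v).const_mul a).eventually
      (gt_mem_nhds (by simpa using hb))).mono fun _ h => le_of_lt h
  obtain ⟨A, hA, vx, y, hy⟩ := nets (U := U) (fun i => pd_d (F.m (t i))) (fun i => (F.m (t i)).vol)
    (fun i => meas_gball _) K z (fun v i => s i v) (fun v i => hs i v) (R := R)
    (c := c * θ' / 4 / 3) (C := C0) (by positivity) hκ0 4 (hK.mono fun i hi v p hp => (hi v p hp).1)
    ((hsm (c * θ' / 4 / 3) 1 one_pos).mono fun i hi v p _ =>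
      hlo _ (ht i) p _ ⟨by have := hs i v; positivity, hi v⟩)
    (Eventually.of_forall fun i v => hup _ (ht i) _ _ (by have := hs i v; positivity))
  have h3 := fun a : A => hL (U : Filter ι) t (fun i => θ' * s i (vx a)) (fun i => s i (vx a)) (y a)
    θ' hm (by
      filter_upwards [hy, hK, hsm θ' r0 hr0] with i a1 a2 a3
      exact ⟨ht i, mul_pos hm (hs i _), a3 _, (en_mono' _ _ (mul_le_mul_of_nonneg_right h1
        (hs i _).le)).trans (a2 _ _ (a1.1 a)).2, rfl⟩)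
  choose φ hφ hμ using h3
  refine ⟨A, hA, vx, y, fun i a => φ a i, c * θ' / 4, by positivity, by nlinarith, ?_, fun a =>
    (hμ a).mono (Eventually.of_forall fun _ => ball_subset_ball (by norm_num))⟩
  filter_upwards [hy, eventually_all.2 hφ] with i a1 a2
  have e : ∀ v, c * θ' / 4 * s i v = c * (θ' * s i v) / 4 := fun v => by ring
  refine ⟨fun a => ⟨a1.1 a, by simpa only [e] using a2 a⟩, fun v p hp => ?_⟩
  obtain ⟨a, ha, h4⟩ := a1.2 v p hp
  exact ⟨a, ha, h4.trans_eq (by ring)⟩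

end Crest.Agent.N207.I

end
end

-- ▼ part N207/F/Tm2
section

/-!
# Row 207, block F (helper7): `C^k` bounds of a Ricci flow in a fixed chart persist in time
-/

set_option autoImplicit false

open Set Metric Filter Topology Function
open scoped ContDiff BigOperators
open Crest.GeometryTopology.CoordMetric Crest.GeometryTopology.ChartCurvature
open Crest.Agent.R202.Tens Crest.Agent.N207.AI

noncomputable section

namespace Crest.Agent.N207.F

/-- a Ricci flow in a chart, with bounds for `∇ʲ Ric` on a time window and for the jets of the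
metric at the time `t` -/
structure TDat (n : ℕ) (K : ℝ) (A B : ℕ → ℝ) where
  D : Dom n
  G : ℝ → MetricField n
  J : Set ℝ
  t : ℝ
  s : ℝ
  τ : ℝ
  δ : ℝ
  fl : CFlow G J D.U
  sub : uIcc t s ⊆ J
  hτ : 0 < τ
  le : |s - t| ≤ τ
  hδ : 0 < δ
  hK : δ ≤ K
  ric : ∀ j, ∀ σ ∈ uIcc t s, ∀ x ∈ D.U,
    nsq (G σ) (covN (G σ) (ricT (G σ)) j) x ≤ (A j * δ / (τ * D.ρ ^ j)) ^ 2
  lo : ∀ x ∈ D.U, ∀ v : En n, ‖v‖ ^ 2 ≤ 2 * bil (G t x) v v
  up : ∀ x ∈ D.U, ∀ v : En n, bil (G t x) v v ≤ 2 * ‖v‖ ^ 2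
  jet : ∀ j, ∀ x ∈ D.U, ∀ a b, D.ρ ^ j * ‖iteratedFDeriv ℝ j
    (fun y => G t y a b - (1 : Matrix (Fin n) (Fin n) ℝ) a b) x‖ ≤ B j * δ

namespace TDat

variable {n : ℕ} {K : ℝ} {A B : ℕ → ℝ}

theorem win : Win (fun d : TDat n K A B => d.t) (fun d => d.s) (fun d => d.τ) fun d => d.J :=
  ⟨fun d => d.fl.isOpenJ, fun d => d.sub, fun d => d.hτ, fun d => d.le⟩

theorem riem (d : TDat n K A B) {σ : ℝ} (hσ : σ ∈ uIcc d.t d.s) : IsRiemannianOn (d.G σ) d.D.U :=
  d.fl.toCFam.riem (d.sub hσ)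

/-- the metrics of the window are comparable -/
theorem bil_le (d : TDat n K A B) {a b : ℝ} (ha : a ∈ uIcc d.t d.s) (hb : b ∈ uIcc d.t d.s)
    {x : En n} (hx : x ∈ d.D.U) (v : En n) :
    bil (d.G b x) v v ≤ Real.exp (2 * (|A 0| * |K|)) * bil (d.G a x) v v := by
  have hsub : uIcc a b ⊆ uIcc d.t d.s := uIcc_subset_uIcc ha hb
  have hnn : ∀ σ ∈ uIcc d.t d.s, 0 ≤ bil (d.G σ x) v v := fun σ hσ =>
    Ar.bil_nonneg ((d.riem hσ).posDef x hx) v
  have h := tgron (v := fun σ => bil (d.G σ x) v v)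
    (v' := fun σ => -2 * evT (ricT (d.G σ) x) ![v, v]) (a := a) (b := b)
    (K := 2 * (|A 0| * |K|)) (F := 0) (δ := bil (d.G a x) v v) ?_ ?_
    (by rw [Real.norm_of_nonneg (hnn a ha)])
  · rw [Real.norm_of_nonneg (hnn b hb), gronwallBound_ε0] at h
    simpa [mul_comm] using h
  · intro σ hσ
    simp only [bil_apply, evT_two, Finset.mul_sum]
    refine HasDerivAt.fun_sum fun i _ => HasDerivAt.fun_sum fun j _ => ?_
    refine (((d.fl.rf σ (d.sub (hsub hσ)) x hx i j).mul_const (v i)).mul_const (v j)).congr_deriv ?_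
    show _ = -2 * (ricci (d.G σ) x i j * v i * v j)
    ring
  · intro σ hσ
    have hτ := d.hτ
    have hδ := d.hδ
    have h1 := Ar.abs_evT_le ((d.riem (hsub hσ)).posDef x hx) (ricT (d.G σ) x) ![v, v]
    have h2 : √(ipA (d.G σ x)⁻¹ (ricT (d.G σ) x) (ricT (d.G σ) x)) ≤ |A 0| * |K| / d.τ := by
      refine (Real.sqrt_le_sqrt (d.ric 0 σ (hsub hσ) x hx)).trans ?_
      rw [Real.sqrt_sq_eq_abs, pow_zero, mul_one, abs_div, abs_mul, abs_of_pos hτ, abs_of_pos hδ]
      have := d.hK.trans (le_abs_self K)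
      gcongr
    rw [Fin.prod_univ_two] at h1
    simp only [Matrix.cons_val_zero, Matrix.cons_val_one] at h1
    rw [Real.mul_self_sqrt (hnn σ (hsub hσ))] at h1
    have h3 : |b - a| ≤ d.τ := by
      refine le_trans ?_ d.le
      simpa [Real.dist_eq, abs_sub_comm] using Real.dist_le_of_mem_uIcc hb ha
    rw [Real.norm_of_nonneg (hnn σ (hsub hσ)), norm_mul, Real.norm_eq_abs, Real.norm_eq_abs,
      add_zero]
    have h4 := hnn σ (hsub hσ)
    calc |b - a| * (|(-2 : ℝ)| * |evT (ricT (d.G σ) x) ![v, v]|)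
        ≤ d.τ * (2 * (|A 0| * |K| / d.τ * bil (d.G σ x) v v)) := by
          rw [abs_neg, abs_two]
          gcongr
          exact h1.trans (by gcongr)
      _ = _ := by field_simp

variable (n K A B)

/-- the index type: data and a time of the window -/
abbrev P : Type := TI (fun d : TDat n K A B => d.t) fun d => d.s

/-- the domains -/
abbrev R : P n K A B → Dom n := fun p => p.1.1.D

/-- `(G - 1) / δ` -/
def U (a b : Fin n) (d : TDat n K A B) (σ : ℝ) (x : En n) : ℝ :=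
  (d.G σ x a b - (1 : Matrix (Fin n) (Fin n) ℝ) a b) / d.δ

/-- normalised components of `∇ʲ Ric` -/
def T (j : ℕ) (I : Fin (2 + j) → Fin n) (d : TDat n K A B) (σ : ℝ) (x : En n) : ℝ :=
  d.τ * d.D.ρ ^ j / d.δ * covN (d.G σ) (ricT (d.G σ)) j x I

variable {n K A B}

theorem smT (p : P n K A B) (j : ℕ) :
    SmT (covN (p.1.1.G p.1.2) (ricT (p.1.1.G p.1.2)) j) p.1.1.D.U :=
  (SmT.ricT (p.1.1.riem p.2)).covN (p.1.1.riem p.2) j

theorem bd0_T (j : ℕ) (I : Fin (2 + j) → Fin n) :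
    Bd (R n K A B) 0 fun p => T n K A B j I p.1.1 p.1.2 := by
  set c := 2 * Real.exp (2 * (|A 0| * |K|)) with hc
  have hc0 : 0 < c := by positivity
  refine ⟨fun p => contDiffOn_const.mul (smT p j I), √(c ^ (2 + j)) * |A j|, ?_⟩
  rintro ⟨⟨d, σ⟩, hσ⟩ x hx
  have hτ := d.hτ
  have hδ := d.hδ
  have hρ := d.D.pos
  have h1 := Ar.comp_sq_le ((d.riem hσ).posDef x hx) (c := c) (fun v => by
    refine (d.bil_le left_mem_uIcc hσ hx v).trans ?_
    rw [hc, mul_comm 2 (Real.exp _), mul_assoc]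
    exact mul_le_mul_of_nonneg_left (d.up x hx v) (Real.exp_pos _).le) (covN (d.G σ) (ricT (d.G σ)) j x) I
  have h2 := h1.trans (mul_le_mul_of_nonneg_left (d.ric j σ hσ x hx) (by positivity))
  have h3 := Real.abs_le_sqrt h2
  rw [Real.sqrt_mul (by positivity), Real.sqrt_sq_eq_abs, abs_div, abs_mul, abs_of_pos hδ,
    abs_of_pos (by positivity : 0 < d.τ * d.D.ρ ^ j)] at h3
  simp only [T]
  rw [abs_mul, abs_of_pos (by positivity : 0 < d.τ * d.D.ρ ^ j / d.δ)]
  refine (mul_le_mul_of_nonneg_left h3 (by positivity)).trans (le_of_eq ?_)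
  field_simp

theorem bd0_inv (a b : Fin n) : Bd (R n K A B) 0 fun p x => (p.1.1.G p.1.2 x)⁻¹ a b := by
  set c := 2 * Real.exp (2 * (|A 0| * |K|)) with hc
  have hc0 : 0 < c := by positivity
  refine ⟨fun p => sm_inv (p.1.1.riem p.2) a b, c, ?_⟩
  rintro ⟨⟨d, σ⟩, hσ⟩ x hx
  have hP := (d.riem hσ).posDef x hx
  let e : Fin n → Arr n 1 := fun a I => if I 0 = a then 1 else 0
  have he : ∀ a b, ipA (d.G σ x)⁻¹ (e a) (e b) = (d.G σ x)⁻¹ a b := fun a b => by
    simp [Ar.ipA_rank1, e]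
  have h1 : ∀ a, ipA (d.G σ x)⁻¹ (e a) (e a) ≤ c := fun a => by
    have := Ar.ipA_le_sum_sq hP hc0.le (fun v => by
      refine (d.lo x hx v).trans ?_
      rw [hc, mul_assoc]
      gcongr
      exact d.bil_le hσ left_mem_uIcc hx v) (e a)
    rw [AI.sum_cons] at this
    simpa [e] using this
  have h2 := Ar.abs_ipA_le hP (e a) (e b)
  rw [he] at h2
  refine h2.trans ?_
  calc _ ≤ √c * √c := by gcongr <;> exact h1 _
    _ = c := Real.mul_self_sqrt hc0.le

theorem bd_del {m : ℕ} : Bd (R n K A B) m fun p _ => p.1.1.δ :=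
  Bd.const ⟨K, fun p => by rw [abs_of_pos p.1.1.hδ]; exact p.1.1.hK⟩

theorem st_U (a b : Fin n) (d : TDat n K A B) : St (U n K A B a b d) d.J d.D.U :=
  ((d.fl.sm a b).sub contDiffOn_const).div_const _

theorem bd_init (m : ℕ) (a b : Fin n) :
    Bd (fun d : TDat n K A B => d.D) m fun d => U n K A B a b d d.t := by
  refine Bd.of_jets m (fun d => st_slice (st_U a b d) (d.sub left_mem_uIcc))
    fun j _ => ⟨B j, fun d x hx => ?_⟩
  have hδ := d.hδ
  have hc : ContDiffAt ℝ j (fun y => d.G d.t y a b - (1 : Matrix (Fin n) (Fin n) ℝ) a b) x :=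
    (((((d.riem left_mem_uIcc).contDiffOn a b).contDiffAt (d.D.op.mem_nhds hx)).sub
      contDiffAt_const)).of_le (by exact_mod_cast le_top)
  have e : U n K A B a b d d.t =
      fun y => d.δ⁻¹ • (d.G d.t y a b - (1 : Matrix (Fin n) (Fin n) ℝ) a b) := by
    funext y; rw [smul_eq_mul, U, div_eq_inv_mul]
  rw [e, iteratedFDeriv_const_smul_apply' hc, norm_smul, Real.norm_of_nonneg (by positivity),
    mul_left_comm, inv_mul_le_iff₀ hδ, mul_comm d.δ]
  exact d.jet j x hx a b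

theorem dt_U (a b : Fin n) (d : TDat n K A B) {σ : ℝ} (hσ : σ ∈ uIcc d.t d.s) {x : En n}
    (hx : x ∈ d.D.U) : HasDerivAt (fun σ => U n K A B a b d σ x)
      (-2 * ricci (d.G σ) x a b / d.δ) σ :=
  ((d.fl.rf σ (d.sub hσ) x hx a b).sub_const _).div_const _

theorem bd0_U (a b : Fin n) : Bd (R n K A B) 0 fun p => U n K A B a b p.1.1 p.1.2 := by
  refine Bd.tode win (κ := Unit) (Q := Empty) (fun _ _ => ()) (C := fun _ _ _ _ _ => 0) 0
    (u := fun _ => U n K A B a b) (f := fun _ d σ x => -2 * T n K A B 0 ![a, b] d σ x)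
    (fun _ => st_U a b) ?_ (fun _ q => q.elim) (fun _ => (Bd.const' _).mul (bd0_T 0 _))
    (fun _ => bd_init 0 a b) ()
  intro _ d σ hσ x hx
  refine (dt_U a b d hσ hx).congr_deriv ?_
  have hτ := d.hτ.ne'
  have : T n K A B 0 ![a, b] d σ x = d.τ * d.D.ρ ^ 0 / d.δ * ricci (d.G σ) x a b := rfl
  rw [this]
  simp only [Finset.univ_eq_empty, Finset.sum_empty]
  field_simp
  ring

/-- the Christoffel symbols in terms of the first derivatives of `U` -/
theorem chr_eq (d : TDat n K A B) {σ : ℝ} (hσ : σ ∈ uIcc d.t d.s) {x : En n} (hx : x ∈ d.D.U)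
    (l i j : Fin n) : d.D.ρ * christoffel (d.G σ) x l i j =
      ∑ p, d.δ / 2 * (d.G σ x)⁻¹ l p * (d.D.ρ * pderiv i (U n K A B j p d σ) x +
        d.D.ρ * pderiv j (U n K A B i p d σ) x - d.D.ρ * pderiv p (U n K A B i j d σ) x) := by
  have hδ := d.hδ.ne'
  have e : ∀ k a b, pderiv k (U n K A B a b d σ) x = pderiv k (fun y => d.G σ y a b) x / d.δ := by
    intro k a b
    have hd := differentiableAt_entry (d.riem hσ) hx a b
    unfold U
    simp only [div_eq_mul_inv]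
    rw [F.pd_mul (hd.sub_const _) (differentiableAt_const _), F.pd_const,
      F.pd_sub hd (differentiableAt_const _), F.pd_const]
    ring
  simp only [christoffel, e, inverseField, Finset.mul_sum]
  refine Finset.sum_congr rfl fun p _ => ?_
  field_simp

theorem step {m : ℕ} (hinv : ∀ a b, Bd (R n K A B) m fun p x => (p.1.1.G p.1.2 x)⁻¹ a b)
    (hT : ∀ j I, Bd (R n K A B) m fun p => T n K A B j I p.1.1 p.1.2) (k a b : Fin n) :
    Bd (R n K A B) m fun p x => p.1.1.D.ρ * pderiv k (U n K A B a b p.1.1 p.1.2) x := by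
  let π : Fin n × Fin n × Fin n → Fin n × Fin n × Fin 6 → Fin n × Fin n × Fin n := fun c q =>
    ![(c.1, c.2.1, q.2.1), (c.2.1, c.1, q.2.1), (q.2.1, c.1, c.2.1),
      (c.1, c.2.2, q.2.1), (c.2.2, c.1, q.2.1), (q.2.1, c.1, c.2.2)] q.2.2
  let sg : Fin 6 → ℝ := ![-1, -1, 1, -1, -1, 1]
  let ix : Fin n × Fin n × Fin n → Fin n × Fin n × Fin 6 → Fin (2 + 0) → Fin n := fun c q =>
    ![![q.1, c.2.2], ![q.1, c.2.2], ![q.1, c.2.2], ![c.2.1, q.1], ![c.2.1, q.1], ![c.2.1, q.1]]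
      q.2.2
  refine Bd.tode win π (C := fun c q d σ x => sg q.2.2 * d.δ * (d.G σ x)⁻¹ q.1 q.2.1 *
      T n K A B 0 (ix c q) d σ x) m
    (u := fun c d σ x => d.D.ρ * pderiv c.1 (U n K A B c.2.1 c.2.2 d σ) x)
    (f := fun c d σ x => -2 * T n K A B 1 ![c.1, c.2.1, c.2.2] d σ x)
    (fun c d => contDiffOn_const.mul (st_pderiv d.D.op (st_U _ _ d) _)) ?_
    (fun c q => (((Bd.const' _).mul bd_del).mul (hinv _ _)).mul (hT 0 _))
    (fun c => (Bd.const' _).mul (hT 1 _)) (fun c => (bd_init (m + 1) _ _).2 c.1) (k, a, b)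
  rintro ⟨k, i, j⟩ d σ hσ x hx
  have h1 := (dt_pd d.fl.isOpenJ d.D.op (st_U i j d) (d.sub hσ)
    (fun y hy => dt_U i j d hσ hy) hx k).const_mul d.D.ρ
  refine h1.congr_deriv ?_
  have hτ := d.hτ.ne'
  have hδ := d.hδ.ne'
  have hd : DifferentiableAt ℝ (fun y => ricci (d.G σ) y i j) x :=
    (SmT.ricT (d.riem hσ)).dAt d.D.op hx ![i, j]
  have e1 : pderiv k (fun y => -2 * ricci (d.G σ) y i j / d.δ) x =
      -2 * pderiv k (fun y => ricci (d.G σ) y i j) x / d.δ := by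
    simp only [div_eq_mul_inv]
    rw [F.pd_mul (hd.const_mul _) (differentiableAt_const _), F.pd_const,
      F.pd_mul (differentiableAt_const _) hd, F.pd_const]
    ring
  have e2 : T n K A B 1 ![k, i, j] d σ x = d.τ * d.D.ρ ^ 1 / d.δ *
      (pderiv k (fun y => ricci (d.G σ) y i j) x
        - ∑ l, christoffel (d.G σ) x l k i * ricci (d.G σ) x l j
        - ∑ l, christoffel (d.G σ) x l k j * ricci (d.G σ) x i l) :=
    congrArg (d.τ * d.D.ρ ^ 1 / d.δ * ·) (cov_two (d.G σ) (ricT (d.G σ)) x k i j)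
  have e3 : ∀ a b, T n K A B 0 ![a, b] d σ x = d.τ / d.δ * ricci (d.G σ) x a b := fun a b => by
    have : T n K A B 0 ![a, b] d σ x = d.τ * d.D.ρ ^ 0 / d.δ * ricci (d.G σ) x a b := rfl
    rw [this, pow_zero, mul_one]
  have e4 : ∑ q : Fin n × Fin n × Fin 6, sg q.2.2 * d.δ * (d.G σ x)⁻¹ q.1 q.2.1 *
      T n K A B 0 (ix (k, i, j) q) d σ x * (d.D.ρ * pderiv (π (k, i, j) q).1
        (U n K A B (π (k, i, j) q).2.1 (π (k, i, j) q).2.2 d σ) x) =
      -2 * (d.τ / d.δ) * (∑ l, d.D.ρ * christoffel (d.G σ) x l k i * ricci (d.G σ) x l j +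
        ∑ l, d.D.ρ * christoffel (d.G σ) x l k j * ricci (d.G σ) x i l) := by
    rw [Fintype.sum_prod_type, ← Finset.sum_add_distrib, Finset.mul_sum]
    refine Finset.sum_congr rfl fun l _ => ?_
    rw [Fintype.sum_prod_type, d.chr_eq hσ hx, d.chr_eq hσ hx, Finset.sum_mul, Finset.sum_mul,
      ← Finset.sum_add_distrib, Finset.mul_sum]
    refine Finset.sum_congr rfl fun p _ => ?_
    simp only [Fin.sum_univ_six, π, sg, ix, Matrix.cons_val, e3]
    ring
  rw [e1, e4, e2]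
  simp only [mul_assoc, ← Finset.mul_sum]
  field_simp
  ring

theorem bd_all (m : ℕ) : (∀ a b, Bd (R n K A B) m fun p => U n K A B a b p.1.1 p.1.2) ∧
    (∀ a b, Bd (R n K A B) m fun p x => (p.1.1.G p.1.2 x)⁻¹ a b) ∧
    ∀ j I, Bd (R n K A B) m fun p => T n K A B j I p.1.1 p.1.2 := by
  induction m with
  | zero => exact ⟨bd0_U, bd0_inv, bd0_T⟩
  | succ m ih =>
    obtain ⟨-, hinv, hT⟩ := ih
    have hA := step hinv hT
    have hΓ : ∀ l i j, Bd (R n K A B) m fun p x =>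
        p.1.1.D.ρ * christoffel (p.1.1.G p.1.2) x l i j := fun l i j =>
      (Bd.sum Finset.univ fun q _ => (((bd_del.mul (Bd.const' (1 / 2))).mul (hinv l q)).mul
        (((hA i j q).add (hA j i q)).sub (hA q i j)))).congr fun p x hx => by
          simp only [p.1.1.chr_eq p.2 hx, div_eq_mul_one_div p.1.1.δ 2]
    refine ⟨fun a b => ⟨bd0_U a b, fun k => hA k a b⟩, fun a b => ⟨bd0_inv a b, fun k => ?_⟩,
      fun j I => ⟨bd0_T j I, fun k => ?_⟩⟩
    · refine ((Bd.sum Finset.univ fun q _ => (hΓ a k q).mul (hinv q b)).neg.sub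
        (Bd.sum Finset.univ fun q _ => (hΓ b k q).mul (hinv a q))).congr fun p x hx => ?_
      simp only [F.D, pd_ginv (p.1.1.riem p.2) hx, mul_sub, mul_neg, Finset.mul_sum, mul_assoc]
    · refine ((hT (j + 1) (Fin.cons k I : Fin (2 + j + 1) → Fin n)).add
        (Bd.sum Finset.univ fun s _ => Bd.sum Finset.univ fun q _ =>
          (hΓ q k (I s)).mul (hT j (update I s q)))).congr ?_
      rintro ⟨⟨d, σ⟩, hσ⟩ x hx
      have hd := (smT ⟨(d, σ), hσ⟩ j).dAt d.D.op hx I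
      have e1 : pderiv k (T n K A B j I d σ) x = d.τ * d.D.ρ ^ j / d.δ *
          pderiv k (fun y => covN (d.G σ) (ricT (d.G σ)) j y I) x := by
        unfold T
        rw [F.pd_mul (differentiableAt_const _) hd, F.pd_const]
        ring
      have e2 : T n K A B (j + 1) (Fin.cons k I : Fin (2 + j + 1) → Fin n) d σ x =
          d.τ * d.D.ρ ^ (j + 1) / d.δ * (pderiv k (fun y => covN (d.G σ) (ricT (d.G σ)) j y I) x -
            ∑ s, ∑ q, christoffel (d.G σ) x q k (I s) *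
              covN (d.G σ) (ricT (d.G σ)) j x (update I s q)) := rfl
      simp only [F.D, e1, e2]
      simp only [T, mul_sub, Finset.mul_sum]
      rw [sub_add, ← Finset.sum_sub_distrib, Finset.sum_eq_zero, sub_zero]
      · ring
      · intro s _
        rw [← Finset.sum_sub_distrib]
        exact Finset.sum_eq_zero fun q _ => by ring

end TDat

/-- **persistence in time of the `C^m` bounds in a fixed chart.** -/
theorem time_bound (n : ℕ) (K : ℝ) (A B : ℕ → ℝ) (m : ℕ) : ∃ C, 0 ≤ C ∧ ∀ d : TDat n K A B,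
    ∀ j ≤ m, ∀ x ∈ d.D.U, ∀ a b, d.D.ρ ^ j * ‖iteratedFDeriv ℝ j
      (fun y => d.G d.s y a b - (1 : Matrix (Fin n) (Fin n) ℝ) a b) x‖ ≤ C * d.δ := by
  choose C hC0 hC using fun p : Fin n × Fin n =>
    ((TDat.bd_all (K := K) (A := A) (B := B) m).1 p.1 p.2).norm_iteratedFDeriv_le
  refine ⟨∑ p, C p, Finset.sum_nonneg fun p _ => hC0 p, fun d j hj x hx a b => ?_⟩
  have h2 := (hC (a, b) j hj ⟨(d, d.s), right_mem_uIcc⟩ x hx).trans
    (Finset.single_le_sum (f := C) (fun p _ => hC0 p) (Finset.mem_univ _))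
  have hδ := d.hδ
  have hc : ContDiffAt ℝ j (fun y => d.G d.s y a b - (1 : Matrix (Fin n) (Fin n) ℝ) a b) x :=
    (((((d.riem right_mem_uIcc).contDiffOn a b).contDiffAt (d.D.op.mem_nhds hx)).sub
      contDiffAt_const)).of_le (by exact_mod_cast le_top)
  have e : TDat.U n K A B a b d d.s =
      fun y => d.δ⁻¹ • (d.G d.s y a b - (1 : Matrix (Fin n) (Fin n) ℝ) a b) := by
    funext y; rw [smul_eq_mul, TDat.U, div_eq_inv_mul]
  simp only at h2
  rwa [e, iteratedFDeriv_const_smul_apply' hc, norm_smul, Real.norm_of_nonneg (by positivity),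
    mul_left_comm, inv_mul_le_iff₀ hδ, mul_comm d.δ] at h2

end Crest.Agent.N207.F
end
end

-- ▼ part N207/F/Loc
section

/-!
# Row 207, block F (helper7): `LOCF` from the static chart
-/

set_option autoImplicit false
set_option linter.unusedSectionVars false

open Set Metric Filter Topology Function MeasureTheory
open scoped ContDiff BigOperators Manifold
open Crest.GeometryTopology.CoordMetric Crest.GeometryTopology.ChartCurvature
open Crest.Agent.R202.Tens Crest.Agent.N207.Sk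

noncomputable section

namespace Crest.Agent.N207.F

theorem NC.mono_ball {n : ℕ} {G : MetricField n} {R R' : ℝ} (h : NC G (ball 0 R) R) (hR : 0 < R')
    (hle : R' ≤ R) : NC G (ball 0 R') R' :=
  NC.of_ball hR (riemOn_mono h.riem isOpen_ball (ball_subset_ball hle)) h.one
    fun x hx => h.rad x (ball_subset_ball hle hx)

theorem abs_bil_sub_le {n : ℕ} {A : Matrix (Fin n) (Fin n) ℝ} {ε : ℝ}
    (h : ∀ a b, |A a b - (1 : Matrix (Fin n) (Fin n) ℝ) a b| ≤ ε) (v : En n) :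
    |bil A v v - ‖v‖ ^ 2| ≤ n ^ 2 * ε * ‖v‖ ^ 2 := by
  have e : bil A v v - ‖v‖ ^ 2 = ∑ i, (∑ j, A i j * v i * v j -
      ∑ j, (1 : Matrix (Fin n) (Fin n) ℝ) i j * v i * v j) := by
    rw [← Ar.bil_one, bil_apply, bil_apply, ← Finset.sum_sub_distrib]
  rw [e]
  refine (Finset.abs_sum_le_sum_abs _ _).trans ?_
  have h1 : ∀ i, |∑ j, A i j * v i * v j - ∑ j, (1 : Matrix (Fin n) (Fin n) ℝ) i j * v i * v j| ≤
      n * (ε * ‖v‖ ^ 2) := by
    intro i
    rw [← Finset.sum_sub_distrib]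
    refine (Finset.abs_sum_le_sum_abs _ _).trans ?_
    have h2 : ∀ j, |A i j * v i * v j - (1 : Matrix (Fin n) (Fin n) ℝ) i j * v i * v j| ≤
        ε * ‖v‖ ^ 2 := by
      intro j
      have hi : |v i| ≤ ‖v‖ := by simpa using PiLp.norm_apply_le v i
      have hj : |v j| ≤ ‖v‖ := by simpa using PiLp.norm_apply_le v j
      have hε : 0 ≤ ε := (abs_nonneg _).trans (h i j)
      rw [← sub_mul, ← sub_mul, abs_mul, abs_mul, sq, ← mul_assoc]
      gcongr
      exact h i j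
    simpa using Finset.sum_le_sum fun j (_ : j ∈ Finset.univ) => h2 j
  refine (Finset.sum_le_sum fun i _ => h1 i).trans (le_of_eq ?_)
  simp only [Finset.sum_const, Finset.card_univ, Fintype.card_fin, nsmul_eq_mul]
  ring

variable {M : Type*} [TopologicalSpace M] [ChartedSpace E4 M] [IsManifold 𝓘(ℝ, E4) ∞ M]
  [T3Space M] [ConnectedSpace M] [MeasurableSpace M] [BorelSpace M]

/-- the static chart (helper26) -/
def StatCh (M : Type*) [TopologicalSpace M] [ChartedSpace E4 M] [IsManifold 𝓘(ℝ, E4) ∞ M]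
    [T3Space M] [ConnectedSpace M] [MeasurableSpace M] [BorelSpace M] : Prop :=
  ∀ K κ : ℝ, 0 < κ → ∃ c0 : ℝ, 0 < c0 ∧ c0 ≤ 1 / 8 ∧ ∀ (g : Met 4 M) (x : M) (r : ℝ), 0 < r →
    (∀ j ≤ 1, ∀ p ∈ g.ball x r, g.rm j p ≤ (K / r ^ (j + 2)) ^ 2) →
    (∀ p ∈ g.ball x r, ∀ s ∈ Ioc 0 r, κ * s ^ 4 ≤ g.vol.real (g.ball p s)) →
    ∃ φ : E4 → M, BallCh φ x (c0 * r) ∧ (∀ s ∈ Ioc 0 (c0 * r), φ '' ball 0 s = g.ball x s) ∧
      NC (g.pm φ) (ball 0 (c0 * r)) (c0 * r)

/-- two-sided static persistence of the curvature bounds -/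
theorem estat2 {F : Flow M} (hB : Base F) : ∃ ε0 c r0 : ℝ, 0 < ε0 ∧ 0 < c ∧ 0 < r0 ∧
    ∃ A : ℕ → ℝ, (∀ k, 0 < A k) ∧ ∀ t ∈ late F, ∀ x r, 0 < r → r ≤ r0 → en (F.m t) x r ≤ ε0 →
      ∀ y ∈ (F.m t).ball x (r / 2), ∀ s < F.T, |s - t| ≤ c * r → ∀ k,
        (F.m s).rm k y ≤ (A k / r ^ (k + 2)) ^ 2 ∧ (F.m s).rc k y ≤ (A k / r ^ (k + 1)) ^ 2 := by
  have hT : 0 < F.T / 2 := half_pos F.hT
  obtain ⟨e1, c1, r1, he1, hc1, hr1, h1⟩ := hB.e.stat _ hT
  obtain ⟨e2, c2, r2, he2, hc2, hr2, -, h2⟩ := hB.e.statB _ hT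
  choose C1 hC1 h1 using h1
  choose C2 hC2 h2 using h2
  refine ⟨min e1 e2, min c1 c2, min r1 r2, lt_min he1 he2, lt_min hc1 hc2, lt_min hr1 hr2,
    fun k => √(C1 k + C2 k), fun k => Real.sqrt_pos.2 (add_pos (hC1 k) (hC2 k)), ?_⟩
  intro t ht x r hr hrr he y hy s hs hst k
  have hy' : y ∈ F.hc.B t x (r / 2) := by
    have : (F.m t).d y x < r / 2 := hy
    show dist (α := Sl (F.m t)) x y < r / 2
    rwa [dist_comm]
  have he' : F.hc.en t x r = en (F.m t) x r := by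
    have : F.hc.B t x r = (F.m t).ball x r := by
      ext z
      show dist (α := Sl (F.m t)) x z < r ↔ dist (α := Sl (F.m t)) z x < r
      rw [dist_comm]
    rw [HC.en, this]; rfl
  have key : (F.m s).rm k y ≤ (C1 k + C2 k) / r ^ (4 + 2 * k) ∧
      (F.m s).rc k y ≤ (C1 k + C2 k) / r ^ (2 + 2 * k) := by
    have := hC1 k
    have := hC2 k
    rcases le_total t s with hts | hts
    · have h := h1 k t ht x r hr (hrr.trans (min_le_left _ _))
        (he' ▸ he.trans (min_le_left _ _)) y hy' s ⟨hts, hs⟩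
        ((le_abs_self _).trans (hst.trans (by gcongr; exact min_le_left _ _)))
      exact ⟨h.1.trans (by gcongr; linarith), h.2.trans (by gcongr; linarith)⟩
    · have h := h2 k t ht x r hr (hrr.trans (min_le_right _ _))
        (he' ▸ he.trans (min_le_right _ _)) y hy' s hts
        ((le_abs_self _).trans ((abs_sub_comm _ _).trans_le
          (hst.trans (by gcongr; exact min_le_right _ _))))
      exact ⟨h.1.trans (by gcongr; linarith), h.2.trans (by gcongr; linarith)⟩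
  have hs0 := Real.sq_sqrt (add_pos (hC1 k) (hC2 k)).le
  simp only [div_pow, hs0, ← pow_mul]
  rw [show (k + 2) * 2 = 4 + 2 * k by ring, show (k + 1) * 2 = 2 + 2 * k by ring]
  exact key

theorem locf_of {F : Flow M} (hS : StatCh M) (hB : Base F) : LOCF F := by
  obtain ⟨ε0, cE, r0, hε0, hcE, hr0, A, hA, hE⟩ := estat2 hB
  obtain ⟨κ, hκ, hvol⟩ := hB.c.lo _ (half_pos F.hT)
  obtain ⟨c0, hc0, hc08, hS⟩ := hS (A 0 + A 1) κ hκ
  set K : ℕ → ℝ := fun j => ∑ k ∈ Finset.range (j + 1), A k with hK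
  have hKA : ∀ {k j}, k ≤ j → A k ≤ K j := fun {k j} h =>
    Finset.single_le_sum (f := A) (fun k _ => (hA k).le) (Finset.mem_range.2 (by omega))
  have hK0 : ∀ j, 0 < K j := fun j => (hA 0).trans_le (hKA (Nat.zero_le j))
  choose C1 hC1 h1 using fun j => ck_bound 4 j (K j)
  choose Cs hCs h2 using time_bound 4 1 A fun j => C1 j * K j
  refine ⟨ε0, min r0 1, hε0, lt_min hr0 one_pos, fun m η hη => ?_⟩
  obtain ⟨c, hc, hc1, hc2, hc3, hc4⟩ : ∃ c : ℝ, 0 < c ∧ c ≤ c0 / 2 ∧ c ≤ cE ∧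
      c * (C1 0 * K 0) ≤ 1 / 32 ∧ c * Cs m ≤ η := by
    have h3 : ∀ᶠ c in 𝓝[>] (0 : ℝ), c ≤ c0 / 2 ∧ c ≤ cE ∧ c * (C1 0 * K 0) ≤ 1 / 32 ∧
        c * Cs m ≤ η := by
      have hl : ∀ a b : ℝ, 0 < b → ∀ᶠ c in 𝓝 (0 : ℝ), c * a ≤ b := fun a b hb =>
        (((continuous_id.mul continuous_const).tendsto' 0 0 (by simp)).eventually
          (ge_mem_nhds hb) :)
      refine nhdsWithin_le_nhds ?_
      filter_upwards [hl 1 _ (half_pos hc0), hl 1 _ hcE, hl (C1 0 * K 0) (1 / 32) (by norm_num),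
        hl (Cs m) η hη] with c a1 a2 a3 a4
      exact ⟨by simpa using a1, by simpa using a2, a3, a4⟩
    obtain ⟨c, h4, h5⟩ := (h3.and self_mem_nhdsWithin).exists
    exact ⟨c, h5, h4⟩
  have hc5 : c ≤ 1 := by linarith
  have hcc : c ^ 2 ≤ c := by nlinarith
  refine ⟨c, Cs, hc, by linarith, fun t ht x r hr hrr he => ?_⟩
  have hr1 : r ≤ 1 := hrr.trans (min_le_right _ _)
  have hE := hE t ht x r hr (hrr.trans (min_le_left _ _)) he
  obtain ⟨φ, hφ, him, hnc⟩ := hS (F.m t) x (r / 2) (half_pos hr) (fun j hj p hp => by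
      refine (hE p hp t ht.2 (by simpa using by positivity) j).1.trans ?_
      have := hA 0
      have := hA 1
      have h3 : A j ≤ A 0 + A 1 := by interval_cases j <;> linarith
      have := hA j
      gcongr
      linarith) (fun p _ s hs => by
      have h3 := hvol t ht p s ⟨hs.1, by linarith [hs.2]⟩
      have : F.hc.B t p s = (F.m t).ball p s := by
        ext z
        show dist (α := Sl (F.m t)) p z < s ↔ dist (α := Sl (F.m t)) z p < s
        rw [dist_comm]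
      rwa [this] at h3)
  have hρ : 0 < c * r := by positivity
  have hle : c * r ≤ c0 * (r / 2) := by nlinarith
  have hsub := ball_subset_ball (x := (0 : E4)) hle
  have hP : Par φ (ball 0 (c * r)) := hφ.par.mono isOpen_ball hsub
  have hN := hnc.mono_ball hρ hle
  have hin : ∀ y ∈ ball (0 : E4) (c * r), φ y ∈ (F.m t).ball x (r / 2) := by
    intro y hy
    have h3 : φ y ∈ (F.m t).ball x (c * r) := him _ ⟨hρ, hle⟩ ▸ mem_image_of_mem φ hy
    have h4 : (F.m t).d (φ y) x < c * r := h3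
    show (F.m t).d (φ y) x < r / 2
    nlinarith
  refine ⟨φ, ⟨hφ.ctr, hP, hφ.inj.mono hsub⟩, fun s hs => him s ⟨hs.1, hs.2.trans hle⟩,
    fun s hs hst y hy => ?_⟩
  have hT4 : 0 < F.T / 4 := by have := F.hT; positivity
  have hwin : ∀ σ ∈ uIcc t s, σ ∈ Ioo 0 F.T ∧ |σ - t| ≤ cE * r := by
    intro σ hσ
    refine ⟨(ordConnected_Ioo.uIcc_subset ⟨(half_pos F.hT).trans_le ht.1, ht.2⟩
      ⟨hT4.trans hs.1, hs.2⟩) hσ, le_trans ?_ (hst.trans (by gcongr; linarith))⟩
    simpa [Real.dist_eq, abs_sub_comm] using Real.dist_le_of_mem_uIcc hσ left_mem_uIcc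
  have hjet : ∀ j, ∀ z ∈ ball (0 : E4) (c * r), ∀ a b, (c * r) ^ j * ‖iteratedFDeriv ℝ j
      (fun y => (F.m t).pm φ y a b - (1 : Matrix (Fin 4) (Fin 4) ℝ) a b) z‖ ≤
        C1 j * K j * c ^ 2 := by
    intro j z hz a b
    have hKj := hK0 j
    have h3 := h1 j hN (δ := K j * c ^ 2) (by positivity)
      (mul_le_of_le_one_right hKj.le (hcc.trans hc5)) (fun k hk w hw => by
        rw [← hP.par_rm _ k hw]
        refine (hE _ (hin w hw) t ht.2 (by simpa using by positivity) k).1.trans ?_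
        have := hA k
        refine pow_le_pow_left₀ (by positivity) ?_ 2
        rw [div_le_div_iff₀ (by positivity) (by positivity), mul_pow, pow_add c]
        have h4 : c ^ k ≤ 1 := pow_le_one₀ hc.le hc5
        have h5 : A k * c ^ k ≤ K j := (mul_le_of_le_one_right this.le h4).trans (hKA hk)
        calc A k * (c ^ k * c ^ 2 * r ^ (k + 2)) = A k * c ^ k * c ^ 2 * r ^ (k + 2) := by ring
          _ ≤ _ := by gcongr) j le_rfl z hz a b
    rw [le_div_iff₀ (by positivity), mul_comm] at h3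
    exact h3.trans_eq (by ring)
  have hclose : ∀ z ∈ ball (0 : E4) (c * r), ∀ v : E4,
      |bil ((F.m t).pm φ z) v v - ‖v‖ ^ 2| ≤ 1 / 2 * ‖v‖ ^ 2 := by
    intro z hz v
    refine (abs_bil_sub_le (ε := 1 / 32) (fun a b => ?_) v).trans (le_of_eq (by norm_num))
    have h3 := hjet 0 z hz a b
    rw [pow_zero, one_mul, norm_iteratedFDeriv_zero, Real.norm_eq_abs] at h3
    have := mul_nonneg (hC1 0) (hK0 0).le
    nlinarith
  let d : TDat 4 1 A fun j => C1 j * K j :=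
    { D := hN.dom, G := fun σ => (F.m σ).pm φ, J := Ioo 0 F.T, t := t, s := s, τ := c ^ 2 * r
      δ := c ^ 2, fl := hP.cflow F, sub := fun σ hσ => (hwin σ hσ).1, hτ := by positivity
      le := hst, hδ := by positivity, hK := hcc.trans hc5
      ric := fun j σ hσ z hz => by
        rw [← hP.par_rc _ j hz]
        refine (hE _ (hin z hz) σ (hwin σ hσ).1.2 (hwin σ hσ).2 j).2.trans ?_
        have := hA j
        refine pow_le_pow_left₀ (by positivity) ?_ 2
        show _ ≤ A j * c ^ 2 / (c ^ 2 * r * (c * r) ^ j)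
        rw [div_le_div_iff₀ (by positivity) (by positivity), mul_pow, pow_succ r j]
        have h4 : c ^ j ≤ 1 := pow_le_one₀ hc.le hc5
        calc A j * (c ^ 2 * r * (c ^ j * r ^ j)) = A j * c ^ 2 * (r ^ j * r) * c ^ j := by ring
          _ ≤ _ := mul_le_of_le_one_right (by positivity) h4
      lo := fun z hz v => by linarith [(abs_le.1 (hclose z hz v)).1]
      up := fun z hz v => by nlinarith [(abs_le.1 (hclose z hz v)).2, sq_nonneg ‖v‖]
      jet := hjet }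
  have hout : ∀ k, ∀ j ≤ k, ∀ a b,
      ‖iteratedFDeriv ℝ j (dv ((F.m s).pm φ) a b) y‖ * (c * r) ^ j ≤ Cs k * c ^ 2 :=
    fun k j hj a b => (mul_comm _ _).trans_le (h2 k d j hj y hy a b)
  refine ⟨fun k hk a b => (hout m k hk a b).trans ?_, fun k a b => (hout k k le_rfl a b).trans ?_⟩
  · have := hCs m
    nlinarith
  · exact mul_le_mul_of_nonneg_left (hcc.trans hc5) (hCs k)

end Crest.Agent.N207.F
end
end

-- ▼ part N207/F/Locf
section

/-! # Row 207, block F: the statement `LOCF` -/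

set_option autoImplicit false

open scoped ContDiff Manifold

namespace Crest.Agent.N207.F

variable {M : Type*} [TopologicalSpace M] [ChartedSpace E4 M] [IsManifold 𝓘(ℝ, E4) ∞ M]
  [T3Space M] [ConnectedSpace M] [MeasurableSpace M] [BorelSpace M] [CompactSpace M]

theorem statCh : StatCh M := fun K κ hκ => by
  obtain ⟨c, h0, h1, hc⟩ := static_chart K κ hκ
  refine ⟨c, h0, h1, fun g x r hr hK hV => ?_⟩
  obtain ⟨φ, -, a1, a2, a3⟩ := hc g x r hr hK hV
  exact ⟨φ, a1, fun s _ => a2 s, a3⟩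

theorem locf {F : Flow M} (hB : Sk.Base F) : Sk.LOCF F := locf_of statCh hB

end Crest.Agent.N207.F
end

-- ▼ part N207/I/Geo3
section

/-!
# Row 207, block I (helper98): the geometric step
-/

set_option autoImplicit false
set_option linter.unusedSectionVars false

open scoped ContDiff Topology Manifold
open Set Filter Metric MeasureTheory
open Crest.GeometryTopology.CoordMetric Crest.Agent.R202.Tens

noncomputable section

namespace Crest.Agent.N207.I

open Sk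

variable {M : Type*} [TopologicalSpace M] [ChartedSpace E4 M] [IsManifold 𝓘(ℝ, E4) ∞ M]
  [T3Space M] [ConnectedSpace M] [MeasurableSpace M] [BorelSpace M] [CompactSpace M]

namespace TD

/-- the unit of a vertex, relative to the scale of its depth -/
def unt {M : Type*} (T : TD M) (A : ℝ) (v : T.V) : ℝ := if v = T.root then 1 / 24 else 4 * A / 3

theorem un_lo {M : Type*} (T : TD M) {A : ℝ} (hA : 1 ≤ A) (v : T.V) : 1 / 24 ≤ T.unt A v := by
  unfold unt; split_ifs <;> linarith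

theorem un_hi {M : Type*} (T : TD M) {A : ℝ} (hA : 1 ≤ A) (v : T.V) : T.unt A v ≤ 4 * A / 3 := by
  unfold unt; split_ifs <;> linarith

theorem exp_ls {M : Type*} (T : TD M) {s : T.V → ℝ} (hs : ∀ v, 0 < s v) (w : T.V) :
    Real.exp (T.ls s w) * s w = s (T.par w) := by
  have := hs w
  have := hs (T.par w)
  rw [ls, Real.exp_log (by positivity)]
  field_simp

/-- the normalised necks -/
abbrev nns {M : Type*} (T : TD M) (R : T.V → Nk M) (s : T.V → ℝ) (O : T.V → Iso4) (w : T.V) : Nk M :=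
  (R w).nn (s w) (O w) (T.Γ w) (T.bb (T.ls s) w)

theorem tg_idx {T : TD M} (hT : IsTree T.root T.par T.dep) {g : Met 4 M} {lam : ℕ → ℝ}
    {s : T.V → ℝ} {R : T.V → Nk M} {O : T.V → Iso4} {c : T.V → M} {C K : ℝ} (hC : 1 ≤ C)
    (hr : T.r = 1 / (100 * (20 * C) ^ 2)) (hl : ∀ j, 0 < lam j)
    (hs : ∀ v, s v = T.unt (20 * C) v * lam (T.dep v))
    (raw : ∀ v, Raw g (R v) (c v) (s v) (T.bb (T.ls s) v) K) (cj : ∀ v, Cj (T.Γ v) (O v) (R v).Γ)
    (big : ∀ w, w ≠ T.root → max 64 K ≤ T.r * Real.exp (T.ls s w))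
    (h3 : ∀ v, g.d (c v) (c (T.par v)) ≤ C * lam (T.dep (T.par v)))
    (h4 : ∀ v w, v ≠ w → T.dep v = T.dep w → lam (T.dep (T.par v)) ≤ C * g.d (c v) (c w))
    (h0 : ∀ w, w ≠ T.root → T.par w = T.root → (T.nns R s O T.root).rad (c w) ≤ 13 / 16) :
    TG T.root T.par T.dep T.r (T.nns R s O) s (T.ls s) c g.d K := by
  have hC0 : 0 < C := by linarith
  refine ⟨pd_d g, hT.dep_root, fun w hw => (hT.dep_par w hw).symm, by rw [hr]; positivity,
    by rw [hr]; exact one_div_le_one_div_of_le (by norm_num) (by nlinarith),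
    fun v => (raw v).nn_top (cj v), fun _ => rfl, if_pos rfl, fun w hw => if_neg hw,
    fun w hw => (le_max_left _ _).trans (big w hw), fun v => (raw v).s_pos,
    fun w _ => (T.exp_ls (fun v => (raw v).s_pos) w).symm, fun v => (raw v).z_in,
    fun v => (raw v).nn_lo (cj v), fun v t h1 h2 p hp => (raw v).nn_up _ _ h1 h2 hp,
    fun w hw => (le_max_right _ _).trans (big w hw), fun w hw => ?_, fun w w' hw hw' e hne => ?_⟩
  · by_cases hp : T.par w = T.root
    · rw [hp]; exact h0 w hw hp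
    · have h5 := (raw _).nn_lo (cj (T.par w)) (c w) (c (T.par w))
      rw [((raw _).nn_top (cj _)).rad_In (raw _).z_in, (pd_d g).symm] at h5
      have h6 : 9 / 10 * s (T.par w) * ((T.nns R s O (T.par w)).rad (c w) - 3 / 4) ≤ _ :=
        h5.trans (h3 w)
      have h7 := mul_pos hC0 (hl (T.dep (T.par w)))
      by_contra h8
      have h9 := mul_le_mul_of_nonneg_left
        (show 1 / 16 ≤ (T.nns R s O (T.par w)).rad (c w) - 3 / 4 by linarith) h7.le
      generalize (T.nns R s O (T.par w)).rad (c w) = u at h6 h9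
      rw [hs, unt, if_neg hp] at h6
      linarith
  · have h5 := h4 w w' hne (by rw [← hT.dep_par w hw, ← hT.dep_par w' hw', e])
    have h6 := hl (T.dep (T.par w))
    have h7 := mul_le_mul_of_nonneg_right (T.un_hi (A := 20 * C) (by linarith) (T.par w)) h6.le
    rw [← hs] at h7
    have h8 : 10 * T.r * (4 * (20 * C) / 3 * lam (T.dep (T.par w))) =
        lam (T.dep (T.par w)) / C / 150 := by rw [hr]; field_simp; ring
    have h9 : lam (T.dep (T.par w)) / C ≤ g.d (c w) (c w') := (div_le_iff₀' hC0).2 h5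
    have h10 := mul_le_mul_of_nonneg_left h7 (show 0 ≤ 10 * T.r by rw [hr]; positivity)
    linarith [div_pos h6 hC0]

/-- the first half of the geometric step -/
structure GH (T : TD M) {ι : Type} (l : Filter ι) (m : ι → Met 4 M) (N0 : ι → Nk M)
    (X : ι → MetricField 4) (ρ e y : ι → ℝ) (s : ι → T.V → ℝ) (R : ι → T.V → Nk M)
    (O : ι → T.V → Iso4) (c : ι → T.V → M) (K θ ε : ℝ) : Prop where
  s_root : ∀ i, s i T.root = ρ i / 24
  R_root : ∀ i, R i T.root = N0 i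
  an : T.An l m s R O X ρ e y
  top : ∀ w, w ≠ T.root → Tendsto (fun i => T.ls (s i) w) l atTop
  K_nn : 0 ≤ K
  θ_pos : 0 < θ
  lim : ∀ v, Tendsto (fun i => s i v) l (𝓝 0)
  tg : ∀ᶠ i in l, TG T.root T.par T.dep T.r (T.nns (R i) (s i) (O i)) (s i) (T.ls (s i)) (c i)
    (m i).d K
  reg : ∀ᶠ i in l, ∀ v, ∀ p ∈ creg T.root T.par T.r (T.nns (R i) (s i) (O i)) (T.ls (s i)) v,
    en (m i) p (θ * s i v) ≤ ε

end TD

variable {F : Flow M}

theorem ext'_raw (hB : Base F) (V : ℝ) : ∃ K r1 : ℝ, 0 ≤ K ∧ 0 < r1 ∧ ∀ t ∈ late F,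
    ∀ (N : Nk M) (X : MetricField 4) (ρ e y : ℝ) (Cs : ℕ → ℝ), ρ ≤ r1 →
      Ext' (F.m t) N X ρ e y (1 / 3200) Cs V → ∀ z ∈ N.In, Raw (F.m t) N z (ρ / 24) 6 K := by
  obtain ⟨K, r1, hK, hr1, h⟩ := exists_raw hB (32 ^ 4 * V)
  refine ⟨K, r1, hK, hr1, fun t ht N X ρ e y Cs h1 hX z hz => ?_⟩
  have h2 := ext'_rough hX (by norm_num)
  have h3 := hX.a_eq ▸ hX.top.a_pos
  exact h t ht N z _ 6 hX.top ⟨fun x hx k hk i j => (h2.jet x hx k (hk.trans (by norm_num)) i j).trans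
    (by norm_num), h2.vol⟩ (by rw [hX.b_eq]; linarith) (by rw [hX.a_eq]; ring) (by norm_num)
    (by rw [hX.b_eq]; linarith) hz

theorem geo_half (hB : Base F) (hC : CONE F) (hH : HDEC F) {ε : ℝ} (hε : 0 < ε) (Cs : ℕ → ℝ) (V : ℝ) :
    ∃ δ0 : ℝ, 0 < δ0 ∧ ∀ {ι : Type} (U : Ultrafilter ι) (t ρ e y : ι → ℝ)
    (N0 : ι → Nk M) (X : ι → MetricField 4),
    (∀ i, t i ∈ late F ∧ ρ i ≤ δ0 ∧
      Ext' (F.m (t i)) (N0 i) (X i) (ρ i) (e i) (y i) (1 / 3200) Cs V) → Tendsto ρ U (𝓝 0) →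
    ∃ (T : TD M) (s : ι → T.V → ℝ) (R : ι → T.V → Nk M) (O : ι → T.V → Iso4)
      (c : ι → T.V → M) (K θ : ℝ), T.GH U (fun i => F.m (t i)) N0 X ρ e y s R O c K θ ε := by
  classical
  obtain ⟨r1, n0, Cs', hr1, hT⟩ := tree_geo hB hC hH (voln hB) 0 (η := 1 / 3200) (by norm_num)
    (by norm_num) hε
  obtain ⟨K0, r2, hK0, hr2, h0⟩ := ext'_raw hB V
  obtain ⟨K1, r3, -, hr3, h1⟩ := exists_raw hB 6
  obtain ⟨Q, hQ, hcol⟩ := en_collar hB
  refine ⟨min r1 (min r2 r3), by positivity, fun {ι} U t ρ e y N0 X hi hρ => ?_⟩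
  have ht := fun i => (hi i).1
  have hX := fun i => (hi i).2.2
  have hρ0 : ∀ i, 0 < ρ i := fun i => by linarith [(hX i).a_eq ▸ (hX i).top.a_pos]
  have hr := fun i => le_min_iff.1 (hi i).2.1
  have raw0 := fun i => h0 _ (ht i) _ _ _ _ _ _ ((hr i).2.trans (min_le_left _ _)) (hX i)
  choose x0 hx0 using fun i => (hX i).top.ne
  have hΩ : ∀ i O Γ0, ((N0 i).nn (ρ i / 24) O Γ0 6).Om 3 = (N0 i).Om (ρ i / 8) := fun i O Γ0 => by
    rw [(raw0 i _ (hx0 i)).nn_Om]; congr 1; ring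
  obtain ⟨W, hW, root, par, dep, lam, ctr, C, hT, hl0, hc, hC1, c0, cΩ, h3, h4, h5, h6⟩ :=
    hT U t ρ (fun i => (N0 i).Om (ρ i / 8)) x0 ((6 + K0) / 24) ht (fun i => ⟨hρ0 i, (hr i).1⟩) hρ
      (fun i => (N0 i).In_sub _ (hx0 i)) fun i x hx => by
        linarith [(raw0 i _ (hx0 i)).nn_up 1 ⊥ (by norm_num) (by norm_num) (hΩ i 1 ⊥ ▸ hx)]
  have hC0 : 0 < C := by linarith
  have hA : (1 : ℝ) ≤ 20 * C := by linarith
  have hR : ∀ i v, ∃ N : Nk M, (v = root → N = N0 i) ∧ (v ≠ root → GN (F.m (t i)) (ctr v i)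
      (20 * C * lam (dep v) i) (lam (dep (par v)) i / (20 * C)) 0 (1 / 3200) Cs' n0 → N.Top ∧
        N.a = 20 * C * lam (dep v) i ∧ N.b = lam (dep (par v)) i / (20 * C) ∧ ctr v i ∈ N.In ∧
          Good (F.m (t i)) N 0 (1 / 3200) Cs' 6 ∧ Nat.card N.Γ ≤ n0) := fun i v => by
    by_cases h : v ≠ root ∧ GN (F.m (t i)) (ctr v i) (20 * C * lam (dep v) i)
      (lam (dep (par v)) i / (20 * C)) 0 (1 / 3200) Cs' n0
    · obtain ⟨N, hN⟩ := h.2
      exact ⟨N, fun h' => absurd h' h.1, fun _ _ => hN⟩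
    · exact ⟨N0 i, fun _ => rfl, fun a b => absurd ⟨a, b⟩ h⟩
  choose R hR0 hR using hR
  replace hR0 := fun i => hR0 i root rfl
  replace h5 := h5 (20 * C) (by linarith)
  replace hR := h5.mono fun i hi v hv => hR i v hv (hi v hv).1
  choose Γ O _ hcj using fun v => exists_cj U (fun i => (R i v).Γ) (n0 + ⌈V⌉₊) (by
    filter_upwards [hR] with i hi
    by_cases hv : v = root
    · rw [hv, hR0]
      exact ⟨(hX i).top.grp, (Nat.cast_le.1 ((hX i).card.trans (Nat.le_ceil V))).trans le_add_self⟩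
    · exact ⟨(hi v hv).1.grp, (hi v hv).2.2.2.2.2.trans le_self_add⟩)
  let T : TD M :=
    { V := W, root := root, par := par, dep := dep, B := Empty, vx := Empty.elim, Γ := Γ,
      r := 1 / (100 * (20 * C) ^ 2), φ := Empty.elim, co := fun _ _ => Classical.arbitrary M,
      ci := fun _ _ => Classical.arbitrary M }
  have hr0 : 0 < T.r := by simp only [T]; positivity
  let s : ι → W → ℝ := fun i v => T.unt (20 * C) v * lam (dep v) i
  have hu : ∀ v, 0 < T.unt (20 * C) v := fun v => lt_of_lt_of_le (by norm_num) (T.un_lo hA v)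
  have hs : ∀ i v, 0 < s i v := fun i v => mul_pos (hu v) (hc.pos _ i)
  have hs1 : ∀ i v, s i v ≤ 4 * (20 * C) / 3 * lam (dep v) i := fun i v =>
    mul_le_mul_of_nonneg_right (T.un_hi hA v) (hc.pos _ i).le
  have hs2 : ∀ i v, 1 / 24 * lam (dep v) i ≤ s i v := fun i v =>
    mul_le_mul_of_nonneg_right (T.un_lo hA v) (hc.pos _ i).le
  have hs0 : ∀ i, s i root = ρ i / 24 := fun i => by
    have : T.unt (20 * C) root = 1 / 24 := if_pos rfl
    simp only [s, this, hT.dep_root, hl0]; ring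
  have hsk : ∀ i v, v ≠ root → 20 * C * lam (dep v) i = 3 / 4 * s i v := fun i v hv => by
    have : T.unt (20 * C) v = 4 * (20 * C) / 3 := if_neg hv
    simp only [s, this]; ring
  have htop : ∀ w, w ≠ root → Tendsto (fun i => T.ls (s i) w) U atTop := fun w hw =>
    Ll.tendsto_log (U := U) (s := fun i => s i w) (t := fun i => s i (par w)) (fun δ hδ => by
      filter_upwards [hc.ll (dep (par w)) (δ / (24 * (4 * (20 * C) / 3))) (by positivity)] with i hi
      rw [hT.dep_par w hw] at hi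
      have a1 := mul_le_mul_of_nonneg_left hi (show 0 ≤ 4 * (20 * C) / 3 by positivity)
      have a2 : 4 * (20 * C) / 3 * (δ / (24 * (4 * (20 * C) / 3)) * lam (dep (par w)) i) =
        δ * (1 / 24 * lam (dep (par w)) i) := by field_simp
      linarith [hs1 i w, mul_le_mul_of_nonneg_left (hs2 i (par w)) hδ.le])
      (Eventually.of_forall fun i => hs i w)
  have hlρ : ∀ᶠ i in U, ∀ v, lam (dep v) i ≤ ρ i := eventually_all.2 fun v => by
    rcases Nat.eq_zero_or_pos (dep v) with h | h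
    · exact Eventually.of_forall fun i => by rw [h, hl0]
    · simpa only [hl0, one_mul] using hc.ll' h 1 one_pos
  have big : ∀ᶠ i in U, ∀ w, w ≠ root → max 64 (max K0 K1) ≤ T.r * Real.exp (T.ls (s i) w) :=
    eventually_all.2 fun w => TD.exp_big (T := T) htop w hr0 _
  have hb : ∀ i w, 2 * T.r * Real.exp (T.ls (s i) w) * s i w ≤ lam (dep (par w)) i / (20 * C) :=
    fun i w => by
      rw [mul_assoc, T.exp_ls (hs i)]
      have a1 := mul_le_mul_of_nonneg_left (hs1 i (par w)) (show 0 ≤ 2 * T.r by positivity)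
      have a2 : 2 * T.r * (4 * (20 * C) / 3 * lam (dep (par w)) i) =
        2 / 75 * (lam (dep (par w)) i / (20 * C)) := by simp only [T]; field_simp; ring
      linarith [div_pos (hc.pos (dep (par w)) i) (show 0 < 20 * C by positivity)]
  have raw : ∀ᶠ i in U, ∀ v, Raw (F.m (t i)) (R i v) (ctr v i) (s i v) (T.bb (T.ls (s i)) v)
      (max K0 K1) := by
    filter_upwards [hR, hlρ, big] with i a1 a2 a3 v
    by_cases hv : v = root
    · rw [hv, hR0, hs0, c0, show T.bb (T.ls (s i)) root = 6 from if_pos rfl]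
      exact (raw0 i _ (hx0 i)).mono (le_max_left _ _)
    · obtain ⟨b1, b2, b3, b4, b5, -⟩ := a1 v hv
      rw [show T.bb (T.ls (s i)) v = 2 * T.r * Real.exp (T.ls (s i) v) from if_neg hv]
      refine (h1 _ (ht i) _ _ _ _ b1 (rough_of_good b1 b5 (by norm_num) (by norm_num)) ?_
        (b2.trans (hsk i v hv)) (by linarith [(le_max_left _ _).trans (a3 v hv)])
        (by rw [b3, mul_comm]; exact hb i v) b4).mono (le_max_right _ _)
      rw [b3]
      exact (div_le_self (hc.pos _ i).le hA).trans ((a2 _).trans ((hr i).2.trans (min_le_right _ _)))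
  obtain ⟨θ0, hθ0, hθ1, hθ2⟩ : ∃ θ0 : ℝ, 0 < θ0 ∧ θ0 ≤ 1 / 20 ∧ Q * θ0 ^ 4 < ε := by
    have a1 : 0 < min (1 / 20) (ε / (2 * Q)) := by positivity
    refine ⟨_, a1, min_le_left _ _, ?_⟩
    have a2 := pow_le_of_le_one a1.le ((min_le_left _ _).trans (by norm_num)) (four_ne_zero)
    have a3 := mul_le_mul_of_nonneg_left (a2.trans (min_le_right _ _)) hQ.le
    have a4 : Q * (ε / (2 * Q)) = ε / 2 := by field_simp
    linarith
  have tg : ∀ᶠ i in U, TG root par dep T.r (T.nns (R i) (s i) fun v => O v i) (s i) (T.ls (s i))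
      (fun v => ctr v i) (F.m (t i)).d (max K0 K1) := by
    filter_upwards [raw, eventually_all.2 hcj, big, h3, h4, h5,
      hc.ll 0 (θ0 / (24 * (20 * C))) (by positivity)] with i a1 a2 a3 a4 a5 a6 a7
    refine TD.tg_idx (T := T) hT (lam := fun j => lam j i) hC1 rfl (fun j => hc.pos j i)
      (fun _ => rfl) a1 a2 a3 a4 a5 fun w hw hp => ?_
    have b1 := a2 root
    have b2 := raw0 i _ (hx0 i)
    have b3 := ext'_rough (hX i) (by norm_num)
    rw [hR0] at b1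
    change ((R i root).nn (s i root) (O root i) (Γ root) (T.bb (T.ls (s i)) root)).rad _ ≤ _
    rw [hR0, hs0, show T.bb (T.ls (s i)) root = 6 from if_pos rfl]
    by_contra b4
    have b5 := hcol _ (ht i) _ _ _ _ _ _ _ b2 b1 ⟨fun x hx k hk p q =>
      (b3.jet x hx k (hk.trans (by norm_num)) p q).trans (by norm_num), b3.vol⟩ _ (not_le.1 b4)
      (((b2.nn_top b1).mem_Om ⟨by norm_num [Nk.nn], by norm_num [Nk.nn]⟩).1
        ((hΩ i _ _).ge (cΩ w i))) θ0 hθ0 hθ1
    have b6 : dep w = 0 + 1 := by rw [← hT.dep_par w hw, show par w = root from hp, hT.dep_root]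
    have b7 := mul_le_mul_of_nonneg_left a7 (show 0 ≤ 20 * C by positivity)
    have b8 : 20 * C * (θ0 / (24 * (20 * C)) * lam 0 i) = θ0 * (ρ i / 24) := by
      rw [hl0]; field_simp
    have b9 := (a6 w hw).2.trans (en_mono' _ _ (b6 ▸ b7.trans b8.le))
    linarith
  obtain ⟨c, hc0, h6⟩ := h6 (2 / 5 * T.r / 24) (by positivity)
  refine ⟨T, s, R, fun i v => O v i, fun i v => ctr v i, max K0 K1, c / (4 * (20 * C) / 3), hs0, hR0,
    ⟨hs, hr0, tg.exists.elim fun _ h => h.r_le.trans (by norm_num),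
      ⟨0, 1 / 3200, 6, Cs', by norm_num, le_rfl, hR.mono fun i hi w hw => ?_⟩,
      ⟨1 / 3200, V, Cs, by norm_num, by norm_num, (hcj root).mono fun i hi => ?_⟩⟩,
    htop, hK0.trans (le_max_left _ _), by positivity, fun v => ?_, tg, ?_⟩
  · obtain ⟨b1, b2, b3, -, b5, -⟩ := hi w hw
    have := mul_pos (mul_pos hr0 (Real.exp_pos (T.ls (s i) w))) (hs i w)
    exact ⟨b1, b5, by linarith [hsk i w hw, hs i w], by linarith [hb i w]⟩
  · exact ⟨(hR0 i).symm ▸ hX i, hi, by linarith [hs0 i, hρ0 i], by linarith [hs0 i, hρ0 i]⟩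
  · refine squeeze_zero' (Eventually.of_forall fun i => (hs i v).le) (hlρ.mono fun i hi =>
      (hs1 i v).trans (mul_le_mul_of_nonneg_left (hi v) (by positivity))) ?_
    simpa using hρ.const_mul (4 * (20 * C) / 3)
  · filter_upwards [tg, h6 (4 * (20 * C) / 3 * (4 + max K0 K1))] with i a1 a2 v p hp
    have b1 := a1.creg_sub v hp
    change p ∈ ((R i root).nn (s i root) (O root i) (Γ root) (T.bb (T.ls (s i)) root)).Om 3 at b1
    rw [hR0, hs0, show T.bb (T.ls (s i)) root = 6 from if_pos rfl, hΩ] at b1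
    have b2 := mul_le_mul_of_nonneg_right (hs1 i v)
      (show 0 ≤ 4 + max K0 K1 by linarith [le_max_left K0 K1])
    refine (en_mono' _ _ ?_).trans (a2 v p b1 (by linarith [a1.creg_up hp, a1.pd.symm p (ctr v i)])
      fun w hw e => ?_)
    · have b3 := mul_le_mul_of_nonneg_left (hs1 i v) (show 0 ≤ c / (4 * (20 * C) / 3) by positivity)
      have b4 : c / (4 * (20 * C) / 3) * (4 * (20 * C) / 3 * lam (dep v) i) = c * lam (dep v) i := by
        field_simp
      exact b3.trans b4.le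
    · have b3 := mul_le_mul_of_nonneg_left (hs2 i v) (show 0 ≤ 2 / 5 * T.r by positivity)
      linarith [a1.creg_lo hw e hp]

/-- **The geometric step.** -/
theorem geo (hB : Base F) (hC : CONE F) (hH : HDEC F) : GEO F := fun Cs V => by
  classical
  obtain ⟨ε, hε, hb⟩ := geo_balls hB (N207.F.locf hB)
  obtain ⟨δ0, hδ0, h⟩ := geo_half hB hC hH hε Cs V
  refine ⟨δ0, hδ0, fun {ι} U t ρ e y N0 X hi hρ => ?_⟩
  obtain ⟨T, s, R, O, c, K, θ, h⟩ := h U t ρ e y N0 X hi hρ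
  obtain ⟨A, hA, vx, z, φ, σ, -, hσ, h1, h2⟩ := hb U t
    (fun v i => creg T.root T.par T.r (T.nns (R i) (s i) (O i)) (T.ls (s i)) v) (fun v i => c i v) s
    (4 + K) θ (T.r / 50) (by linarith [h.K_nn]) h.θ_pos (by linarith [h.an.r_pos])
    (fun i => (hi i).1) h.an.s_pos h.lim
    ((h.tg.and h.reg).mono fun i a v p hp => ⟨(a.1.creg_up hp).trans_eq (mul_comm _ _), a.2 v p hp⟩)
  let T' : TD M :=
    { T with B := A, fB := hA, dB := inferInstance, vx := vx, φ := fun _ _ => Classical.arbitrary M }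
  have cfg : ∀ᶠ i in U, T'.Cfg (T'.nns (R i) (s i) (O i)) (φ i) (T'.ls (s i)) := by
    filter_upwards [h.tg, h1] with i a1 a2
    exact TG.cfg (T0 := T') a1 (fun _ => rfl) (y := fun a => z a i) (σ := fun v => σ * s i v)
      (fun v => by linarith [mul_le_mul_of_nonneg_right hσ (h.an.s_pos i v).le])
      (fun a => (a2.1 a).2.1) (fun a => (a2.1 a).2.2.1) (fun a => (a2.1 a).1)
      (fun a => (a2.1 a).2.2.2.1) (fun a => (a2.1 a).2.2.2.2) a2.2
  exact ⟨T', s, R, O, φ, h.s_root, h.R_root, ⟨h.an.s_pos, h.an.r_pos, h.an.r_le, h.an.good, h.an.ext⟩,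
    h.top, cfg.exists.elim fun _ a => a.cmb, cfg, h2⟩

end Crest.Agent.N207.I

end
end

-- ▼ part N207/I/Act2
section

/-!
# Row 207, block I (helper26): scaling of the exterior action
-/

set_option autoImplicit false

open scoped ContDiff Topology
open Set MeasureTheory Filter
open Crest.GeometryTopology.CoordMetric Crest.GeometryTopology.ChartCurvature
  Crest.GeometryTopology.MetricFamily

noncomputable section

namespace Crest.Agent.N207.I

variable {G : MetricField 4} {a a0 s : ℝ} {x : E4}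

theorem det_rot (G : MetricField 4) (s : ℝ) (O : Iso4) (x : E4) :
    (rot G s O x).det = (G (s • O x)).det := by
  set A : Matrix (Fin 4) (Fin 4) ℝ := Matrix.of fun a p => O (AI.eb p) a with hA
  have h1 : A.transpose * A = 1 := by
    ext p q
    have := O.inner_map_map (AI.eb q) (AI.eb p)
    rw [PiLp.inner_apply, EuclideanSpace.inner_single_left] at this
    simpa [hA, Matrix.mul_apply, Matrix.one_apply, PiLp.single_apply, eq_comm] using this
  have h2 : rot G s O x = A.transpose * G (s • O x) * A := by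
    ext p q
    simp only [rot, hA, Matrix.mul_apply, Matrix.of_apply, Matrix.transpose_apply, Finset.sum_mul]
    rw [Finset.sum_comm]
    exact Finset.sum_congr rfl fun b _ => Finset.sum_congr rfl fun a _ => by ring
  have h3 := congrArg Matrix.det h1
  rw [Matrix.det_mul, Matrix.det_one] at h3
  rw [h2, Matrix.det_mul, Matrix.det_mul]
  linear_combination (G (s • O x)).det * h3

theorem scal_rot (hs : 0 < s) (O : Iso4) {U : Set E4} (h : IsRiemannianOn G U) (hx : s • O x ∈ U) :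
    scalarCurv (rot G s O) x = s ^ 2 * scalarCurv G (s • O x) := by
  have h1 := AI.scalarCurv_pull (pull_rot hs O h) hx
  rw [sim_apply] at h1
  rw [← h1]
  simp only [scalarCurv, ricci_csmul (pow_pos hs 2).ne', minv_smul (pow_pos hs 2).ne',
    Matrix.smul_apply, smul_eq_mul, Finset.mul_sum]
  refine Finset.sum_congr rfl fun i _ => Finset.sum_congr rfl fun j _ => ?_
  field_simp

theorem cut_sim (hs : 0 < s) (O : Iso4) (a : ℝ) (x : E4) :
    Sk.cut a (s • O x) = Sk.cut (a / s) x := by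
  unfold Sk.cut
  rw [norm_sim hs, div_pow, mul_pow, div_div_eq_mul_div, mul_comm]

theorem integral_sim (hs : 0 < s) (O : Iso4) (f : E4 → ℝ) :
    ∫ x, f (s • O x) = (s ^ 4)⁻¹ * ∫ y, f y := by
  rw [O.measurePreserving.integral_comp O.toHomeomorph.measurableEmbedding fun z => f (s • z),
    Measure.integral_comp_smul, finrank_euclideanSpace_fin, abs_of_pos (by positivity),
    smul_eq_mul]

/-- (A2) -/
theorem aS_rot (hs : 0 < s) (O : Iso4) (ha : a0 ≤ a) (hG : IsRiemannianOn G {x | a0 < ‖x‖}) :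
    aS G a = s ^ 2 * aS (rot G s O) (a / s) := by
  have h := integral_sim hs O ({x : E4 | a < ‖x‖}.indicator
    fun x => (1 - Sk.cut a x) * (√(G x).det * scalarCurv G x))
  rw [integral_indicator (open_ext a).measurableSet] at h
  have e : aS (rot G s O) (a / s) = s ^ 2 * ∫ x, {x : E4 | a < ‖x‖}.indicator
      (fun x => (1 - Sk.cut a x) * (√(G x).det * scalarCurv G x)) (s • O x) := by
    rw [aS, ← integral_indicator (open_ext _).measurableSet, ← integral_const_mul]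
    refine integral_congr_ae (Eventually.of_forall fun x => ?_)
    have hm : s • O x ∈ {x : E4 | a < ‖x‖} ↔ x ∈ {x : E4 | a / s < ‖x‖} := by
      simp only [mem_ofPred_eq, norm_sim hs, div_lt_iff₀' hs]
    by_cases hx : x ∈ {x : E4 | a / s < ‖x‖}
    · simp only [indicator_of_mem hx, indicator_of_mem (hm.2 hx)]
      rw [det_rot, scal_rot hs O hG (ha.trans_lt (hm.2 hx) :), cut_sim hs]
      ring
    · simp only [indicator_of_notMem hx, indicator_of_notMem (mt hm.1 hx), mul_zero]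
  rw [e, h, aS]
  field_simp

end Crest.Agent.N207.I

end
end

-- ▼ part N207/I/Act3
section

/-!
# Row 207, block I (helper26): the action of a tree is the exterior action of its root
-/

set_option autoImplicit false

open scoped ContDiff Topology
open Set MeasureTheory Filter Metric
open Crest.GeometryTopology.CoordMetric Crest.GeometryTopology.ChartCurvature
  Crest.GeometryTopology.MetricFamily

noncomputable section

namespace Crest.Agent.N207.I

/-- the volume of the unit ball -/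
def vB : ℝ := (volume : Measure E4).real (ball 0 1)

theorem vB_nonneg : 0 ≤ vB := measureReal_nonneg

theorem sqrt_det_le {A : Matrix (Fin 4) (Fin 4) ℝ} {b : ℝ} (h : ∀ p q, |A p q| ≤ b) :
    √A.det ≤ 5 * b ^ 2 := by
  have h1 := Matrix.det_le (abv := AbsoluteValue.abs) h
  simp only [AbsoluteValue.abs_apply, Fintype.card_fin, nsmul_eq_mul] at h1
  refine Real.sqrt_le_iff.2 ⟨by positivity, (le_abs_self _).trans (h1.trans ?_)⟩
  have : (0 : ℝ) ≤ b ^ 4 := by positivity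
  norm_num [Nat.factorial]
  nlinarith

section
variable {U : Set E4} {f : E4 → ℝ} {C ρ : ℝ}

theorem bd_int (hU : MeasurableSet U) (hC : 0 ≤ C) (hρ : 0 ≤ ρ) (hf : ∀ x ∈ U, ‖x‖ < ρ → |f x| ≤ C)
    (hz : ∀ x ∈ U, ρ ≤ ‖x‖ → f x = 0) : |∫ x in U, f x| ≤ C * (ρ ^ 4 * vB) := by
  rw [setIntegral_eq_of_subset_of_forall_sdiff_eq_zero hU (inter_subset_left (t := ball 0 ρ))
    fun x hx => hz x hx.1 (by simpa [hx.1] using hx.2)]
  have h1 := norm_setIntegral_le_of_norm_le_const (μ := (volume : Measure E4)) (f := f)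
    (s := U ∩ ball 0 ρ) ((measure_mono inter_subset_right).trans_lt measure_ball_lt_top)
    fun x hx => hf x hx.1 (mem_ball_zero_iff.1 hx.2)
  refine h1.trans (mul_le_mul_of_nonneg_left ((measureReal_mono inter_subset_right
    measure_ball_lt_top.ne).trans_eq ?_) hC)
  rw [measureReal_def, Measure.addHaar_ball _ _ hρ, ENNReal.toReal_mul,
    ENNReal.toReal_ofReal (by positivity), finrank_euclideanSpace_fin]
  rfl

theorem bd_intg (hU : MeasurableSet U) (hc : ContinuousOn f U) (hf : ∀ x ∈ U, ‖x‖ < ρ → |f x| ≤ C)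
    (hz : ∀ x ∈ U, ρ ≤ ‖x‖ → f x = 0) : IntegrableOn f U := by
  have hm : MeasurableSet (U ∩ ball (0 : E4) ρ) := hU.inter measurableSet_ball
  have h1 : IntegrableOn f (U ∩ ball 0 ρ) :=
    ⟨(hc.mono inter_subset_left).aestronglyMeasurable hm, .restrict_of_bounded (C := C)
      ((measure_mono inter_subset_right).trans_lt measure_ball_lt_top)
      ((ae_restrict_iff' hm).2 (Eventually.of_forall fun x hx =>
        hf x hx.1 (mem_ball_zero_iff.1 hx.2)))⟩
  exact h1.of_forall_sdiff_eq_zero hU fun x hx => hz x hx.1 (by simpa [hx.1] using hx.2)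

end

namespace TD

variable {M : Type*} {T : TD M} {L : T.V → ℝ} {G : T.S → MetricField 4} {b c : ℝ}

theorem Ok.eps_le_one (h : T.Ok) (hL : T.Long L) (v : T.V) : T.eps L v ≤ 1 := by
  refine h.ind (P := fun v => T.eps L v ≤ 1) (h.eps_root L).le (fun w hw ih => ?_) v
  have h1 := hL w hw
  have h2 := Real.exp_pos (L w)
  have h3 : 1 ≤ Real.exp (L w) := by nlinarith [h.r_lt, h.r_pos]
  rw [h.eps_kid L hw, Real.exp_neg]
  exact mul_le_one₀ ih (by positivity) (inv_le_one_of_one_le₀ h3)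

theorem sqrt_nrm {s : T.S} {x : E4} (hb : ∀ p q, |T.nrm L G s x p q| ≤ b) :
    √(G s x).det ≤ 5 * b ^ 2 * T.eps L (T.un s) ^ 4 := by
  have he := eps_pos L (T.un s)
  refine (sqrt_det_le (b := T.eps L (T.un s) ^ 2 * b) fun p q => ?_).trans_eq (by ring)
  have h1 := hb p q
  simp only [nrm, Matrix.smul_apply, smul_eq_mul, abs_mul] at h1
  rw [abs_of_pos (by positivity), inv_mul_le_iff₀ (by positivity)] at h1
  exact h1

theorem nrm_le_two {s : T.S} {x : E4} (hb : ∀ p q, |dv (T.nrm L G s) p q x| ≤ 1 / 100) (p q : Fin 4) :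
    |T.nrm L G s x p q| ≤ 2 := by
  have h1 := abs_le.1 (hb p q)
  have h2 : 0 ≤ (1 : Matrix (Fin 4) (Fin 4) ℝ) p q ∧ (1 : Matrix (Fin 4) (Fin 4) ℝ) p q ≤ 1 := by
    rw [Matrix.one_apply]; split_ifs <;> norm_num
  simp only [dv] at h1
  exact abs_le.2 ⟨by linarith [h1.1, h2.1], by linarith [h1.2, h2.2]⟩

theorem Ok.χ_le_one (h : T.Ok) (hL : T.Long L) (s : T.S) {x : E4} (hx : x ∈ (T.glob L).U s) :
    T.χ s ((T.glob L).c s x) ≤ 1 :=
  (Finset.single_le_sum (fun a _ => (h.glob_pou hL).nonneg a _) (Finset.mem_univ s)).trans_eq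
    ((h.glob_pou hL).sum s x hx)

theorem card_inv_le (H : Subgroup Iso4) : 0 ≤ (Nat.card H : ℝ)⁻¹ ∧ (Nat.card H : ℝ)⁻¹ ≤ 1 :=
  ⟨by positivity, Nat.cast_inv_le_one _⟩

theorem abs_mul3 {t q r B c : ℝ} (ht : |t| ≤ 1) (hq0 : 0 ≤ q) (hq : q ≤ B) (hr : |r| ≤ c) :
    |t * (q * r)| ≤ B * c := by
  rw [abs_mul, abs_mul, abs_of_nonneg hq0]
  exact (mul_le_of_le_one_left (by positivity) ht).trans
    (mul_le_mul hq hr (abs_nonneg _) (hq0.trans hq))

theorem Ok.den_le (h : T.Ok) (hL : T.Long L) (s : T.S) {x : E4} (hx : x ∈ (T.glob L).U s) {B r : ℝ}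
    (hB : √(G s x).det ≤ B) (hr : |r| ≤ c) : |(T.glob L).den T.χ G s x * r| ≤ B * c := by
  have h1 := card_inv_le ((T.glob L).Γ s)
  have h2 := (h.glob_pou hL).nonneg s ((T.glob L).c s x)
  rw [Atl.den, ← mul_assoc, mul_assoc]
  refine abs_mul3 ?_ (Real.sqrt_nonneg _) hB hr
  rw [abs_of_nonneg (mul_nonneg h1.1 h2)]
  exact mul_le_one₀ h1.2 h2 (h.χ_le_one hL s hx)

theorem act_ball (h : T.Ok) (hL : T.Long L) (a : T.B) (hc0 : 0 ≤ c)
    (hb : ∀ p q, ∀ x : E4, ‖x‖ ≤ 3 / 2 → |T.nrm L G (Sum.inl a) x p q| ≤ b)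
    (hc : ∀ x ∈ (T.glob L).U (Sum.inl a), |scalarCurv (G (Sum.inl a)) x| ≤ c) :
    |∫ x in (T.glob L).U (Sum.inl a), (T.glob L).den T.χ G (Sum.inl a) x *
      scalarCurv (G (Sum.inl a)) x| ≤ 80 * b ^ 2 * vB * c := by
  refine (bd_int (C := 5 * b ^ 2 * c) (ρ := 2) ((h.glob_ok hL).isOpen _).measurableSet
    (by positivity) (by norm_num) (fun x hx _ => ?_) fun x hx h2 =>
      absurd (mem_glob_inl.1 hx) (not_lt.2 h2)).trans_eq (by ring)
  by_cases h0 : T.χ (Sum.inl a) ((T.glob L).c (Sum.inl a) x) = 0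
  · simp only [Atl.den, h0, zero_mul, mul_zero, abs_zero]; positivity
  obtain ⟨y, hy, e⟩ := (h.glob_pou hL).supp _ _ x hx h0
  obtain ⟨γ, -, rfl⟩ := ((h.glob_ok hL).fib _ y ((h.glob_pou hL).sub _ hy) x hx).1 e
  refine h.den_le hL _ hx ((sqrt_nrm fun p q => hb p q _ ?_).trans ?_) (hc _ hx)
  · rw [γ.norm_map]; exact mem_gK_inl.1 hy
  · exact mul_le_of_le_one_right (by positivity)
      (pow_le_one₀ (eps_pos L _).le (h.eps_le_one hL _))

theorem act_neck (h : T.Ok) (hL : T.Long L) {w : T.V} (hw : w ≠ T.root) (hc0 : 0 ≤ c)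
    (hs : ∀ p q, ∀ x ∈ (T.glob L).U (Sum.inr w), |dv (T.nrm L G (Sum.inr w)) p q x| ≤ 1 / 100)
    (hc : ∀ x ∈ (T.glob L).U (Sum.inr w), |scalarCurv (G (Sum.inr w)) x| ≤ c) :
    |∫ x in (T.glob L).U (Sum.inr w), (T.glob L).den T.χ G (Sum.inr w) x *
      scalarCurv (G (Sum.inr w)) x| ≤ 20 * vB * c := by
  have he := eps_pos L w
  have hr := h.r_pos
  refine (bd_int (C := 5 * 2 ^ 2 * T.eps L w ^ 4 * c) (ρ := T.r * Real.exp (L w))
    ((h.glob_ok hL).isOpen _).measurableSet (by positivity) (by positivity)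
    (fun x hx _ => h.den_le hL _ hx (sqrt_nrm (nrm_le_two fun p q => hs p q x hx)) (hc x hx))
    fun x hx h2 => absurd ((mem_glob_inr.1 hx).2 hw) (not_lt.2 h2)).trans ?_
  have h1 : T.eps L w * (T.r * Real.exp (L w)) ≤ 1 := by
    rw [h.eps_kid L hw, Real.exp_neg, mul_assoc, mul_left_comm _ T.r,
      inv_mul_cancel₀ (Real.exp_pos _).ne', mul_one]
    exact mul_le_one₀ (h.eps_le_one hL _) hr.le h.r_lt.le
  have h2 : (T.eps L w * (T.r * Real.exp (L w))) ^ 4 ≤ 1 := pow_le_one₀ (by positivity) h1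
  calc _ = 20 * vB * c * (T.eps L w * (T.r * Real.exp (L w))) ^ 4 := by ring
    _ ≤ _ := mul_le_of_le_one_right (by have := vB_nonneg; positivity) h2

theorem act_root (h : T.Ok) (hL : T.Long L) (hG : (T.glob L).IsMet G) (hF : Sk.Flat T G)
    (hc0 : 0 ≤ c) (hs : ∀ p q, ∀ x ∈ (T.glob L).U (Sum.inr T.root),
      |dv (T.nrm L G (Sum.inr T.root)) p q x| ≤ 1 / 100)
    (hc : ∀ x ∈ (T.glob L).U (Sum.inr T.root), ‖x‖ < 6 → |scalarCurv (G (Sum.inr T.root)) x| ≤ c) :
    |(∫ x in (T.glob L).U (Sum.inr T.root), (T.glob L).den T.χ G (Sum.inr T.root) x *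
      scalarCurv (G (Sum.inr T.root)) x) - aS (G (Sum.inr T.root)) (9 / 4) /
        Nat.card (T.Γ T.root)| ≤ 5120 * vB * c := by
  have hU : (T.glob L).U (Sum.inr T.root) = {x : E4 | 1 < ‖x‖} := by
    ext x; simp [mem_glob_inr]
  have hR := hG.riem (Sum.inr T.root)
  have hm := hR.isOpen.measurableSet
  set G0 := G (Sum.inr T.root) with hG0
  have hi := aS_int (a := 9 / 4) one_pos (by norm_num) (hU ▸ hR) hF
  set f : E4 → ℝ := fun x => (T.χ (Sum.inr T.root) ((T.glob L).c (Sum.inr T.root) x) -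
    (1 - Sk.cut (9 / 4) x)) * (√(G0 x).det * scalarCurv G0 x) with hf
  have hb : ∀ x ∈ (T.glob L).U (Sum.inr T.root), ‖x‖ < 4 → |f x| ≤ 20 * c := fun x hx h4 => by
    refine abs_mul3 (abs_le.2 ⟨?_, ?_⟩) (Real.sqrt_nonneg _)
      ((sqrt_nrm (nrm_le_two fun p q => hs p q x hx)).trans_eq ?_) (hc x hx (by linarith))
    · linarith [(h.glob_pou hL).nonneg (Sum.inr T.root) ((T.glob L).c (Sum.inr T.root) x),
        cut_nonneg (9 / 4) x]
    · linarith [h.χ_le_one hL _ hx, cut_le_one (9 / 4) x]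
    · rw [show T.un (Sum.inr T.root) = T.root from rfl, h.eps_root]; norm_num
  have hz : ∀ x ∈ (T.glob L).U (Sum.inr T.root), 4 ≤ ‖x‖ → f x = 0 := fun x _ h4 => by
    simp only [hf]
    rw [h.glob_χ_mid hL (by linarith) (fun hw => absurd rfl hw), if_pos rfl,
      cut_zero (by norm_num) (by nlinarith)]
    simp
  have hfi : IntegrableOn f ((T.glob L).U (Sum.inr T.root)) := bd_intg hm
    ((((h.glob_pou hL).sm _ _).continuousOn.sub (continuousOn_const.sub
      (cut_sm _).continuous.continuousOn)).mul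
      ((sm_sqrt_det hR).continuousOn.mul (sm_scal hR).continuousOn)) hb hz
  have e1 : aS G0 (9 / 4) = ∫ x in (T.glob L).U (Sum.inr T.root),
      (1 - Sk.cut (9 / 4) x) * (√(G0 x).det * scalarCurv G0 x) := by
    refine (setIntegral_eq_of_subset_of_forall_sdiff_eq_zero hm (fun x hx => ?_)
      fun x hx => ?_).symm
    · rw [hU]; exact lt_trans (by norm_num) (show (9 / 4 : ℝ) < ‖x‖ from hx)
    · exact (cf_zero (by norm_num) (fun x => √(G0 x).det * scalarCurv G0 x)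
        (not_lt.1 hx.2)).self_of_nhds
  have e2 : ∫ x in (T.glob L).U (Sum.inr T.root), (T.glob L).den T.χ G (Sum.inr T.root) x *
      scalarCurv G0 x = (Nat.card (T.Γ T.root) : ℝ)⁻¹ *
        ((∫ x in (T.glob L).U (Sum.inr T.root), f x) + aS G0 (9 / 4)) := by
    rw [e1, ← integral_add hfi hi.integrableOn, ← integral_const_mul]
    refine integral_congr_ae (Eventually.of_forall fun x => ?_)
    simp only [Atl.den, hf, ← hG0]
    rw [show (T.glob L).Γ (Sum.inr T.root) = T.Γ T.root from rfl]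
    ring
  have h1 := bd_int hm (by positivity) (by norm_num) hb hz
  have h2 := card_inv_le (T.Γ T.root)
  rw [e2, mul_add, div_eq_inv_mul (aS G0 (9 / 4)), add_sub_cancel_right, abs_mul, abs_of_nonneg h2.1]
  exact (mul_le_of_le_one_left (abs_nonneg _) h2.2).trans (h1.trans_eq (by ring))

theorem act_pt (h : T.Ok) (hL : T.Long L) (hG : (T.glob L).IsMet G) (hF : Sk.Flat T G)
    (hb : ∀ a p q, ∀ x : E4, ‖x‖ ≤ 3 / 2 → |T.nrm L G (Sum.inl a) x p q| ≤ b)
    (hs : ∀ w p q, ∀ x ∈ (T.glob L).U (Sum.inr w), |dv (T.nrm L G (Sum.inr w)) p q x| ≤ 1 / 100)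
    (hc : ∀ s, ∀ x ∈ (T.glob L).U s, (s = Sum.inr T.root → ‖x‖ < 6) → |scalarCurv (G s) x| ≤ c) :
    |Sk.SR T L G - aS (G (Sum.inr T.root)) (9 / 4) / Nat.card (T.Γ T.root)| ≤
      Fintype.card T.S * ((80 * b ^ 2 + 5120) * vB) * c := by
  have hc0 : 0 ≤ c := (abs_nonneg _).trans (hc (Sum.inr T.root) (EuclideanSpace.single 0 2)
    (by simp [mem_glob_inr]) fun _ => by norm_num)
  have hv := vB_nonneg
  have h1 : 0 ≤ b ^ 2 * vB * c := by positivity
  have h2 : 0 ≤ vB * c := by positivity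
  have e : Sk.SR T L G - aS (G (Sum.inr T.root)) (9 / 4) / Nat.card (T.Γ T.root) =
      ∑ s, ((∫ x in (T.glob L).U s, (T.glob L).den T.χ G s x * scalarCurv (G s) x) -
        if s = Sum.inr T.root then aS (G (Sum.inr T.root)) (9 / 4) / Nat.card (T.Γ T.root)
        else 0) := by
    simp [Sk.SR, Atl.int]
  rw [e, mul_assoc, ← nsmul_eq_mul, ← Finset.card_univ]
  refine (Finset.abs_sum_le_sum_abs _ _).trans (Finset.sum_le_card_nsmul _ _ _ fun s _ => ?_)
  rcases s with a | w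
  · rw [if_neg Sum.inl_ne_inr, sub_zero]
    refine (act_ball h hL a hc0 (hb a) fun x hx => hc _ x hx (by simp)).trans ?_
    nlinarith
  · by_cases hw : w = T.root
    · subst hw
      rw [if_pos rfl]
      refine (act_root h hL hG hF hc0 (hs _) fun x hx h6 => hc _ x hx fun _ => h6).trans ?_
      nlinarith
    · rw [if_neg (by simpa using hw), sub_zero]
      refine (act_neck h hL hw hc0 (hs w) fun x hx => hc _ x hx (by simp [hw])).trans ?_
      nlinarith

/-- (A3) -/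
theorem Seq.act_le {ι : Type} {g : T.V → T.S → MetricField 4} {γ : ℝ} {l : Filter ι}
    {L : ι → T.V → ℝ} {G : ι → T.S → MetricField 4} {c : ι → ℝ} (hS : T.Seq g γ l L G) (h : T.Ok)
    (hF : ∀ᶠ i in l, Sk.Flat T (G i))
    (hc : ∀ᶠ i in l, ∀ s, ∀ x ∈ (T.glob (L i)).U s, (s = Sum.inr T.root → ‖x‖ < 6) →
      |scalarCurv (G i s) x| ≤ c i) :
    ∃ C : ℝ, 0 ≤ C ∧ ∀ᶠ i in l, |Sk.SR T (L i) (G i) - aS (G i (Sum.inr T.root)) (9 / 4) /
      Nat.card (T.Γ T.root)| ≤ C * c i := by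
  have h1 : ∀ j : T.B × Fin 4 × Fin 4, ∃ C : ℝ, ∀ᶠ i in l, ∀ x : E4, ‖x‖ ≤ 3 / 2 →
      |T.nrm (L i) (G i) (Sum.inl j.1) x j.2.1 j.2.2| ≤ C := fun j => by
    have h0 : Jt.UB l (fun i x => T.nrm (L i) (G i) (Sum.inl j.1) x j.2.1 j.2.2)
        fun _ => closedBall 0 (3 / 2) := Jt.GE.left (hS.ball j.1 j.2.1 j.2.2 _
      (isCompact_closedBall 0 (3 / 2)) (closedBall_subset_ball (by norm_num)))
    obtain ⟨C, hC⟩ := (Jt.ub_iff.1 h0).2 0
    exact ⟨C, hC.mono fun i hi x hx => by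
      simpa [norm_iteratedFDeriv_zero] using hi x (mem_closedBall_zero_iff.2 hx)⟩
  choose C hC using h1
  obtain ⟨b, hb⟩ := (Set.finite_range C).bddAbove
  refine ⟨Fintype.card T.S * ((80 * b ^ 2 + 5120) * vB), by have := vB_nonneg; positivity, ?_⟩
  filter_upwards [eventually_all.2 hC, hS.met, hS.small, hF, hc] with i h1 h2 h3 h4 h5
  exact act_pt h h2.1 h2.2 h4
    (fun a p q x hx => (h1 (a, p, q) x hx).trans (hb (mem_range_self (a, p, q)))) h3 h5

end TD

end Crest.Agent.N207.I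

end
end

-- ▼ part N207/I/Wl2
section

/-!
# Row 207, block I (helper24): `SWL' M → WL' F`
-/

set_option autoImplicit false

open scoped ContDiff Topology Manifold
open Set Filter Metric
open Crest.GeometryTopology.CoordMetric

noncomputable section

namespace Crest.Agent.N207.I

open Sk

theorem actA : ACTa := fun G a0 a s O h0 h1 hs hG hR => by
  have h2 : IsRiemannianOn (rot G s O) {x | a0 / s < ‖x‖} := by
    convert riem_rot hs O hG using 2 with x
    simp only [mem_setOf_eq, norm_sim hs, div_lt_iff₀ hs, mul_comm s]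
  rw [act_eq h0 h1 hG hR, act_eq (div_pos h0 hs) (div_le_div_of_nonneg_right h1 hs.le) h2
    (rot_flat hs O hR), aS_rot hs O h1 hG]

theorem actB (M : Type*) : ACTb M := fun T g γ l L G c h _ hS hF hc => by
  obtain ⟨C, -, hC⟩ := hS.act_le h hF hc
  refine ⟨C, ?_⟩
  filter_upwards [hC, hS.met, hF] with i h1 h2 h3
  have h4 := h2.2.riem (Sum.inr T.root)
  rw [TD.glob_root] at h4
  rwa [act_eq one_pos (by norm_num) h4 h3]

variable {M : Type*} [TopologicalSpace M] [ChartedSpace E4 M] [IsManifold 𝓘(ℝ, E4) ∞ M]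
  [T3Space M] [ConnectedSpace M] [MeasurableSpace M] [BorelSpace M] [CompactSpace M] {F : Flow M}

/-- **block I** -/
theorem wl' (hB : Base F) (hC : CONE F) (hH : HDEC F) (hS : SWL' M) : WL' F :=
  wl_of hB (geo hB hC hH) actA (actB M) hS

end Crest.Agent.N207.I

end
end

-- ▼ part N207/Sk/Fin

/-!
# Row 207 (helper40): the statement modulo `PHI'` and `SWL'`
-/

set_option autoImplicit false
set_option linter.unusedSectionVars false

open scoped ContDiff Manifold Topology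
open Set MeasureTheory Filter
open Crest.GeometryTopology.CoordMetric Crest.GeometryTopology.ChartCurvature
  Crest.GeometryTopology.MetricFamily

noncomputable section

namespace Crest.Agent.N207.Sk

/-- the statement, from the two blocks `PHI'` and `SWL'` -/
theorem s0319_mod2 (M : Type*) [TopologicalSpace M] [T2Space M] [SecondCountableTopology M]
    [CompactSpace M] [ConnectedSpace M] [ChartedSpace E4 M] [IsManifold 𝓘(ℝ, E4) ∞ M]
    (HΦ : ∀ [T3Space M] [MeasurableSpace M] [BorelSpace M] (F : Flow M) (C : ℝ), F.BddR C → Base F →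
      PHI' F) (HS : SWL' M)
    (T : ℝ) (hT : 0 < T) (g : FormFamily 𝓘(ℝ, E4) M)
    (hg : IsRicciFlowOn 𝓘(ℝ, E4) (ContinuousLinearEquiv.refl ℝ E4) M g T)
    (hR : HasBoundedScalarCurvature 𝓘(ℝ, E4) (ContinuousLinearEquiv.refl ℝ E4) M g T) :
    ∃ ε : ℝ, 0 < ε ∧ ∃ g' : FormFamily 𝓘(ℝ, E4) M,
      IsRicciFlowOn 𝓘(ℝ, E4) (ContinuousLinearEquiv.refl ℝ E4) M g' (T + ε) ∧
        ∀ t ∈ Set.Ico 0 T, g' t = g t :=
  s0319_mod M (fun F C hC hB => ⟨N207.T.topB hB (G.cone' hB), NP.pestF hB, HΦ F C hC hB,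
    I.wl' hB (G.cone' hB) (H.hdec hB) HS⟩) T hT g hg hR

end Crest.Agent.N207.Sk

end
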